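import Vale.Agent.P031.Defs

/-!
P031: Mertens' estimates for sums over primes in windows of the scale `log log`.
-/

open Finset Real
noncomputable section
namespace Vale.Agent.P031

/-- `∑_{p ≤ n} log p / p`. -/
def logSum (n : ℕ) : ℝ := ∑ p ∈ Nat.primesLE n, log (p : ℝ) / p

/-- `∑_{p ≤ n} 1 / p`. -/
def recipSum (n : ℕ) : ℝ := ∑ p ∈ Nat.primesLE n, (1 : ℝ) / p

lemma log_div_mul_le {p : ℕ} (hp : 2 ≤ p) :
    log (p : ℝ) / ((p : ℝ) * ((p : ℝ) - 1)) ≤ 4 * (p : ℝ) ^ (-(3 / 2 : ℝ)) := by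
  have h2 : (2 : ℝ) ≤ p := by exact_mod_cast hp
  have h1 : log (p : ℝ) ≤ 2 * (p : ℝ) ^ (1 / 2 : ℝ) := by
    have := Real.log_le_rpow_div (x := (p : ℝ)) (by linarith) (by norm_num : (0 : ℝ) < 1 / 2)
    linarith
  have e : (p : ℝ) ^ (-(3 / 2 : ℝ)) = (p : ℝ) ^ (1 / 2 : ℝ) / ((p : ℝ) * p) := by
    rw [show (-(3 / 2) : ℝ) = 1 / 2 - 2 by norm_num, Real.rpow_sub (by linarith), Real.rpow_two, sq]
  rw [e, div_le_iff₀ (by nlinarith)]
  refine h1.trans ?_
  have hpp : (p : ℝ) * p ≤ 2 * ((p : ℝ) * ((p : ℝ) - 1)) := by nlinarith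
  have h0 : 0 ≤ (p : ℝ) ^ (1 / 2 : ℝ) / ((p : ℝ) * p) := by positivity
  calc 2 * (p : ℝ) ^ (1 / 2 : ℝ) = 2 * ((p : ℝ) * p) * ((p : ℝ) ^ (1 / 2 : ℝ) / ((p : ℝ) * p)) := by
        field_simp
    _ ≤ _ := by nlinarith [mul_le_mul_of_nonneg_right hpp h0]

/-- Mertens' first theorem. -/
theorem abs_logSum_sub_log_le : ∃ C : ℝ, 1 ≤ C ∧ ∀ n : ℕ, 1 ≤ n →
    |logSum n - log (n : ℝ)| ≤ C := by
  have hs : Summable fun p : ℕ => 4 * (p : ℝ) ^ (-(3 / 2 : ℝ)) :=
    (Real.summable_nat_rpow.2 (by norm_num)).mul_left 4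
  set T := ∑' p : ℕ, 4 * (p : ℝ) ^ (-(3 / 2 : ℝ))
  have hT : 0 ≤ T := tsum_nonneg fun p => by positivity
  refine ⟨T + 2 + log 4, by linarith [Real.log_nonneg (by norm_num : (1 : ℝ) ≤ 4)], fun n hn => ?_⟩
  have hn0 : (1 : ℝ) ≤ n := by exact_mod_cast hn
  have hfac : log (n.factorial : ℝ) =
      ∑ p ∈ Nat.primesLE n, (n.factorial.factorization p : ℝ) * log (p : ℝ) := by
    rw [Real.log_nat_eq_sum_factorization, Finsupp.sum_of_support_subset _ _ _ (fun _ _ => by simp)]
    intro p hp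
    rw [Nat.support_factorization, Nat.mem_primeFactors] at hp
    rw [Nat.mem_primesLE]
    exact ⟨hp.1.dvd_factorial.1 hp.2.1, hp.1⟩
  have hup : log (n.factorial : ℝ) ≤ n * log (n : ℝ) := by
    rw [← Real.log_pow]
    exact Real.log_le_log (by exact_mod_cast Nat.factorial_pos n)
      (by exact_mod_cast Nat.factorial_le_pow n)
  have hlo : (n : ℝ) * log (n : ℝ) - n ≤ log (n.factorial : ℝ) := by
    have h := Real.pow_div_factorial_le_exp (x := (n : ℝ)) (by positivity) n
    have hfp : (0 : ℝ) < n.factorial := by exact_mod_cast Nat.factorial_pos n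
    have := Real.log_le_log (by positivity) h
    rw [Real.log_div (by positivity) hfp.ne', Real.log_exp, Real.log_pow] at this
    linarith
  have hval : ∀ p ∈ Nat.primesLE n,
      ((n : ℝ) / p - 1 ≤ (n.factorial.factorization p : ℝ)) ∧
        (n.factorial.factorization p : ℝ) ≤ (n : ℝ) / ((p : ℝ) - 1) := by
    intro p hp
    rw [Nat.mem_primesLE] at hp
    have := Fact.mk hp.2
    have hp2 : (2 : ℝ) ≤ p := by exact_mod_cast hp.2.two_le
    rw [Nat.factorization_def _ hp.2]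
    constructor
    · have h1 : n / p ≤ padicValNat p n.factorial := by
        rw [padicValNat_factorial (b := n + 1) (Nat.lt_succ_of_le (Nat.log_le_self p n))]
        refine le_trans ?_ (Finset.single_le_sum (f := fun i => n / p ^ i)
          (fun i _ => Nat.zero_le _) (Finset.mem_Ico.2 ⟨le_rfl, by omega⟩ : 1 ∈ Finset.Ico 1 (n + 1)))
        simp
      refine le_trans ?_ (Nat.cast_le.2 h1)
      rw [div_sub_one (by linarith), div_le_iff₀ (by linarith)]
      have h3 := Nat.div_add_mod n p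
      have h4 := Nat.mod_lt n hp.2.pos
      have h3' : (p : ℝ) * ((n / p : ℕ) : ℝ) + ((n % p : ℕ) : ℝ) = n := by exact_mod_cast h3
      have h4' : ((n % p : ℕ) : ℝ) ≤ p := by exact_mod_cast h4.le
      linarith
    · have h1 : (p - 1) * padicValNat p n.factorial ≤ n := by
        rw [sub_one_mul_padicValNat_factorial]
        exact Nat.sub_le _ _
      rw [le_div_iff₀ (by linarith)]
      have h1' : (((p - 1) * padicValNat p n.factorial : ℕ) : ℝ) ≤ n := by exact_mod_cast h1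
      rw [Nat.cast_mul, Nat.cast_sub hp.2.one_le, Nat.cast_one] at h1'
      linarith
  have hlp : ∀ p ∈ Nat.primesLE n, 0 ≤ log (p : ℝ) := fun p _ => Real.log_natCast_nonneg p
  rw [abs_le]
  constructor
  · have h1 : log (n.factorial : ℝ) ≤ n * ∑ p ∈ Nat.primesLE n,
        (log (p : ℝ) / p + log (p : ℝ) / ((p : ℝ) * ((p : ℝ) - 1))) := by
      rw [hfac, Finset.mul_sum]
      refine Finset.sum_le_sum fun p hp => ?_
      refine (mul_le_mul_of_nonneg_right (hval p hp).2 (hlp p hp)).trans_eq ?_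
      have hp2 : (2 : ℝ) ≤ p := by exact_mod_cast (Nat.mem_primesLE.1 hp).2.two_le
      have : (p : ℝ) - 1 ≠ 0 := by linarith
      field_simp
      ring
    rw [Finset.sum_add_distrib, mul_add] at h1
    have h2 : ∑ p ∈ Nat.primesLE n, log (p : ℝ) / ((p : ℝ) * ((p : ℝ) - 1)) ≤ T :=
      (Finset.sum_le_sum fun p hp => log_div_mul_le (Nat.mem_primesLE.1 hp).2.two_le).trans
        (hs.sum_le_tsum _ fun p _ => by positivity)
    have h3 : (n : ℝ) * (log (n : ℝ) - 1) ≤ n * (logSum n + T) := by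
      have := mul_le_mul_of_nonneg_left h2 (Nat.cast_nonneg n : (0 : ℝ) ≤ n)
      rw [logSum]; linarith
    have := le_of_mul_le_mul_left h3 (by linarith)
    linarith [Real.log_nonneg (by norm_num : (1 : ℝ) ≤ 4)]
  · have hθ : ∑ p ∈ Nat.primesLE n, log (p : ℝ) ≤ log 4 * n := by
      rw [← Chebyshev.theta_eq_sum_primesLE_log]
      exact Chebyshev.theta_le_log4_mul_x (Nat.cast_nonneg n)
    have h1 : (n : ℝ) * logSum n - log 4 * n ≤ log (n.factorial : ℝ) := by
      rw [hfac, logSum, Finset.mul_sum]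
      refine le_trans (sub_le_sub_left hθ _) ?_
      rw [← Finset.sum_sub_distrib]
      refine Finset.sum_le_sum fun p hp => le_trans (le_of_eq ?_)
        (mul_le_mul_of_nonneg_right (hval p hp).1 (hlp p hp))
      ring
    have h3 : (n : ℝ) * (logSum n - log 4) ≤ n * log (n : ℝ) := by linarith
    have := le_of_mul_le_mul_left h3 (by linarith)
    linarith

lemma logSum_succ_sub (n : ℕ) :
    logSum (n + 1) - logSum n =
      if (n + 1).Prime then log ((n + 1 : ℕ) : ℝ) / ((n + 1 : ℕ) : ℝ) else 0 := by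
  simp only [logSum, Nat.primesLE, Nat.primesBelow, Finset.sum_filter]
  rw [Finset.sum_range_succ _ (n + 1)]
  ring

lemma recipSum_succ_sub (n : ℕ) :
    recipSum (n + 1) - recipSum n = if (n + 1).Prime then 1 / ((n + 1 : ℕ) : ℝ) else 0 := by
  simp only [recipSum, Nat.primesLE, Nat.primesBelow, Finset.sum_filter]
  rw [Finset.sum_range_succ _ (n + 1)]
  ring

/-- Mertens' second theorem with the rate `1 / log`. -/
theorem recipSum_sub_loglog : ∃ C : ℝ, 0 < C ∧ ∀ m n : ℕ, 2 ≤ m → m ≤ n →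
    |(recipSum n - log (log (n : ℝ))) - (recipSum m - log (log (m : ℝ)))| ≤ C / log (m : ℝ) := by
  obtain ⟨C, hC1, hC⟩ := abs_logSum_sub_log_le
  set R : ℕ → ℝ := fun n => logSum n - log (n : ℝ)
  set T : ℕ → ℝ := fun n => recipSum n - log (log (n : ℝ)) - R n / log (n : ℝ)
  have step : ∀ n : ℕ, 2 ≤ n → |T (n + 1) - T n| ≤
      (1 + C) * (1 / log (n : ℝ) - 1 / log ((n + 1 : ℕ) : ℝ)) := by
    intro n hn
    have hn2 : (2 : ℝ) ≤ n := by exact_mod_cast hn
    set l := log (n : ℝ) with hl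
    set l' := log ((n + 1 : ℕ) : ℝ) with hl'
    have hl0 : 0 < l := Real.log_pos (by linarith)
    have hll : l ≤ l' := Real.log_le_log (by linarith) (by push_cast; linarith)
    have hl0' : 0 < l' := hl0.trans_le hll
    have hd : l' - l ≤ 1 := by
      rw [hl', hl, ← Real.log_div (by positivity) (by linarith)]
      refine (Real.log_le_sub_one_of_pos (by positivity)).trans ?_
      rw [sub_le_iff_le_add, div_le_iff₀ (by linarith)]
      push_cast
      linarith
    have e : T (n + 1) - T n =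
        ((l' - l) / l' - (log l' - log l)) + R n * (1 / l - 1 / l') := by
      have hr : recipSum (n + 1) - recipSum n = (logSum (n + 1) - logSum n) / l' := by
        rw [logSum_succ_sub, recipSum_succ_sub]
        split_ifs
        · rw [← hl']; field_simp
        · simp
      simp only [T, R, ← hl, ← hl']
      have : recipSum (n + 1) = recipSum n + (logSum (n + 1) - logSum n) / l' := by linarith
      rw [this]
      field_simp
      ring
    have hinv : 0 ≤ 1 / l - 1 / l' := sub_nonneg.2 (one_div_le_one_div_of_le hl0 hll)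
    have h1 : (l' - l) / l' ≤ log l' - log l := by
      rw [← Real.log_div hl0'.ne' hl0.ne']
      refine le_trans (le_of_eq ?_) (Real.one_sub_inv_le_log_of_pos (by positivity))
      rw [inv_div]
      field_simp
    have h2 : log l' - log l ≤ (l' - l) / l := by
      rw [← Real.log_div hl0'.ne' hl0.ne']
      refine (Real.log_le_sub_one_of_pos (by positivity)).trans (le_of_eq ?_)
      field_simp
    have h3 : (l' - l) / l - (l' - l) / l' ≤ 1 / l - 1 / l' := by
      rw [div_eq_mul_one_div (l' - l) l, div_eq_mul_one_div (l' - l) l', ← mul_sub]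
      exact mul_le_of_le_one_left hinv hd
    rw [e]
    refine (abs_add_le _ _).trans ?_
    rw [add_mul, one_mul, abs_mul, abs_of_nonneg hinv, abs_of_nonpos (sub_nonpos.2 h1)]
    exact add_le_add (by linarith) (mul_le_mul_of_nonneg_right (hC n (by omega)) hinv)
  have tel : ∀ m n : ℕ, 2 ≤ m → m ≤ n →
      |T n - T m| ≤ (1 + C) * (1 / log (m : ℝ) - 1 / log (n : ℝ)) := by
    intro m n hm hmn
    induction n, hmn using Nat.le_induction with
    | base => simp
    | succ n hmn ih =>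
      have := step n (by omega)
      calc |T (n + 1) - T m| ≤ |T (n + 1) - T n| + |T n - T m| := abs_sub_le _ _ _
        _ ≤ _ := by linarith
  refine ⟨1 + 3 * C, by linarith, fun m n hm hmn => ?_⟩
  have hm2 : (2 : ℝ) ≤ m := by exact_mod_cast hm
  have hlm : 0 < log (m : ℝ) := Real.log_pos (by linarith)
  have hln : log (m : ℝ) ≤ log (n : ℝ) := Real.log_le_log (by linarith) (by exact_mod_cast hmn)
  have hinv : 1 / log (n : ℝ) ≤ 1 / log (m : ℝ) := one_div_le_one_div_of_le hlm hln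
  have hinv0 : 0 ≤ 1 / log (n : ℝ) := one_div_nonneg.2 (hlm.le.trans hln)
  have h1 : |R n / log (n : ℝ)| ≤ C * (1 / log (m : ℝ)) := by
    rw [div_eq_mul_one_div, abs_mul, abs_of_nonneg hinv0]
    exact mul_le_mul (hC n (by omega)) hinv hinv0 (by linarith)
  have h2 : |R m / log (m : ℝ)| ≤ C * (1 / log (m : ℝ)) := by
    rw [div_eq_mul_one_div, abs_mul, abs_of_pos (one_div_pos.2 hlm)]
    exact mul_le_mul_of_nonneg_right (hC m (by omega)) (one_div_pos.2 hlm).le
  have h3 := tel m n hm hmn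
  rw [show recipSum n - log (log (n : ℝ)) - (recipSum m - log (log (m : ℝ))) =
    (T n - T m) + (R n / log (n : ℝ) - R m / log (m : ℝ)) by simp only [T]; ring,
    div_eq_mul_one_div (1 + 3 * C)]
  refine (abs_add_le _ _).trans ?_
  have h4 := (abs_sub (R n / log (n : ℝ)) (R m / log (m : ℝ)))
  have h5 : 0 ≤ (1 + C) * (1 / log (n : ℝ)) := by positivity
  nlinarith

/-- The largest integer of scale at most `a`. -/
def cut (a : ℝ) : ℕ := ⌊exp (exp a)⌋₊

lemma two_le_cut {a : ℝ} (ha : 0 ≤ a) : 2 ≤ cut a := by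
  refine Nat.le_floor ?_
  have h1 : (1 : ℝ) ≤ exp a := Real.one_le_exp ha
  have := Real.add_one_le_exp (exp a)
  push_cast
  linarith

lemma sc_le_iff {p : ℕ} (hp : 2 ≤ p) (a : ℝ) : sc p ≤ a ↔ p ≤ cut a := by
  have h2 : (2 : ℝ) ≤ p := by exact_mod_cast hp
  rw [sc, cut, Nat.le_floor_iff (exp_pos _).le, Real.log_le_iff_le_exp (Real.log_pos (by linarith)),
    Real.log_le_iff_le_exp (by linarith)]

lemma log_cut_bounds {a : ℝ} (ha : 0 ≤ a) :
    exp a / 4 ≤ log (cut a : ℝ) ∧ log (cut a : ℝ) ≤ exp a ∧ |log (log (cut a : ℝ)) - a| ≤ 4 * exp (-a) := by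
  have h2 : (2 : ℝ) ≤ (cut a : ℝ) := by exact_mod_cast two_le_cut ha
  have hle : (cut a : ℝ) ≤ exp (exp a) := Nat.floor_le (exp_pos _).le
  have hlt : exp (exp a) < (cut a : ℝ) + 1 := Nat.lt_floor_add_one _
  have hea : (1 : ℝ) ≤ exp a := Real.one_le_exp ha
  have hup : log (cut a : ℝ) ≤ exp a := by
    simpa using Real.log_le_log (by linarith) hle
  have hlo : exp a - log 2 ≤ log (cut a : ℝ) := by
    have : exp a ≤ log (2 * (cut a : ℝ)) := by
      refine le_of_eq_of_le (Real.log_exp _).symm (Real.log_le_log (exp_pos _) ?_)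
      linarith
    rw [Real.log_mul (by norm_num) (by linarith)] at this
    linarith
  have hl2 : log 2 ≤ 0.7 := by have := Real.log_two_lt_d9; norm_num at this ⊢; linarith
  have hpos : 0 < log (cut a : ℝ) := Real.log_pos (by linarith)
  have h4 : exp a / 4 ≤ log (cut a : ℝ) := by norm_num at hl2; linarith
  refine ⟨h4, hup, ?_⟩
  have hu := Real.log_le_log hpos hup
  rw [Real.log_exp] at hu
  rw [abs_of_nonpos (by linarith), neg_sub]
  calc a - log (log (cut a : ℝ)) = log (exp a / log (cut a : ℝ)) := by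
        rw [Real.log_div (exp_pos _).ne' hpos.ne', Real.log_exp]
    _ ≤ exp a / log (cut a : ℝ) - 1 := Real.log_le_sub_one_of_pos (by positivity)
    _ = (exp a - log (cut a : ℝ)) / log (cut a : ℝ) := by field_simp
    _ ≤ 1 / (exp a / 4) := div_le_div₀ zero_le_one (by norm_num at hl2; linarith) (by positivity) h4
    _ = 4 * exp (-a) := by rw [Real.exp_neg]; field_simp

lemma primesIn_eq {a b : ℝ} (_ha : 0 ≤ a) :
    primesIn a b = Nat.primesLE (cut b) \ Nat.primesLE (cut a) := by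
  ext p
  simp only [primesIn, Finset.mem_filter, Finset.mem_range, Finset.mem_sdiff, Nat.mem_primesLE]
  constructor
  · rintro ⟨_, hp, h1, h2⟩
    exact ⟨⟨(sc_le_iff hp.two_le b).1 h2, hp⟩, fun h => h1.not_ge ((sc_le_iff hp.two_le a).2 h.1)⟩
  · rintro ⟨⟨h2, hp⟩, h1⟩
    refine ⟨Nat.lt_succ_of_le h2, hp, lt_of_not_ge fun h => h1 ⟨(sc_le_iff hp.two_le a).1 h, hp⟩,
      (sc_le_iff hp.two_le b).2 h2⟩

lemma cut_mono {a b : ℝ} (h : a ≤ b) : cut a ≤ cut b :=
  Nat.floor_mono (exp_le_exp.2 (exp_le_exp.2 h))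

theorem mertens_window : ∃ C : ℝ, 0 < C ∧ ∀ a b : ℝ, 0 ≤ a → a ≤ b →
    |(∑ p ∈ primesIn a b, (1 : ℝ) / ((p : ℝ) - 1)) - (b - a)| ≤ C * exp (-a) := by
  obtain ⟨C, hC0, hC⟩ := recipSum_sub_loglog
  refine ⟨4 * C + 24, by linarith, fun a b ha hab => ?_⟩
  obtain ⟨hla, -, hLa⟩ := log_cut_bounds ha
  obtain ⟨-, -, hLb⟩ := log_cut_bounds (ha.trans hab)
  have hexp : exp (-b) ≤ exp (-a) := exp_le_exp.2 (by linarith)
  have hsum : ∑ p ∈ primesIn a b, (1 : ℝ) / p = recipSum (cut b) - recipSum (cut a) := by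
    rw [primesIn_eq ha, recipSum, recipSum, Finset.sum_sdiff_eq_sub]
    intro p hp
    rw [Nat.mem_primesLE] at hp ⊢
    exact ⟨hp.1.trans (cut_mono hab), hp.2⟩
  have hmain : |∑ p ∈ primesIn a b, (1 : ℝ) / p - (b - a)| ≤ (4 * C + 8) * exp (-a) := by
    rw [hsum]
    have h := hC _ _ (two_le_cut ha) (cut_mono hab)
    have hCl : C / log (cut a : ℝ) ≤ 4 * C * exp (-a) := by
      refine (div_le_div_of_nonneg_left hC0.le (by positivity) hla).trans_eq ?_
      rw [Real.exp_neg]; field_simp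
    rw [abs_le] at h hLa hLb ⊢
    constructor <;> linarith [h.1, h.2, hLa.1, hLa.2, hLb.1, hLb.2]
  -- The difference between `1 / (p - 1)` and `1 / p` telescopes below `2 / cut a`.
  have htail : ∑ p ∈ primesIn a b, ((1 : ℝ) / ((p : ℝ) - 1) - 1 / p) ≤ 1 / (cut a : ℝ) := by
    have hsub : primesIn a b ⊆ Finset.Ico (cut a + 1) (cut b + 1) := by
      intro p hp
      rw [primesIn_eq ha, Finset.mem_sdiff, Nat.mem_primesLE, Nat.mem_primesLE] at hp
      rw [Finset.mem_Ico]
      have h1 : ¬ p ≤ cut a := fun h => hp.2 ⟨h, hp.1.2⟩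
      exact ⟨Nat.succ_le_of_lt (not_le.1 h1), Nat.lt_succ_of_le hp.1.1⟩
    refine (Finset.sum_le_sum_of_subset_of_nonneg hsub fun p hp _ => ?_).trans ?_
    · have : (2 : ℝ) ≤ p := by
        have := two_le_cut ha; have := (Finset.mem_Ico.1 hp).1
        exact_mod_cast (show 2 ≤ p by omega)
      exact sub_nonneg.2 (one_div_le_one_div_of_le (by linarith) (by linarith))
    have e : ∀ p : ℕ, (1 : ℝ) / ((p : ℝ) - 1) - 1 / p =
        (fun k : ℕ => -(1 : ℝ) / ((k : ℝ) - 1)) (p + 1) - (fun k : ℕ => -(1 : ℝ) / ((k : ℝ) - 1)) p := by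
      intro p; push_cast; simp only [add_sub_cancel_right]; ring
    simp_rw [e]
    rw [Finset.sum_Ico_sub (fun k : ℕ => -(1 : ℝ) / ((k : ℝ) - 1))
      (Nat.succ_le_succ (cut_mono hab))]
    push_cast
    simp only [add_sub_cancel_right, neg_div, sub_neg_eq_add]
    have : 0 ≤ 1 / (cut b : ℝ) := by positivity
    linarith
  have htail0 : 0 ≤ ∑ p ∈ primesIn a b, ((1 : ℝ) / ((p : ℝ) - 1) - 1 / p) := by
    refine Finset.sum_nonneg fun p hp => ?_
    have : (2 : ℝ) ≤ p := by exact_mod_cast (Finset.mem_filter.1 hp).2.1.two_le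
    exact sub_nonneg.2 (one_div_le_one_div_of_le (by linarith) (by linarith))
  have hcut : 1 / (cut a : ℝ) ≤ 16 * exp (-a) := by
    have h2 : (2 : ℝ) ≤ (cut a : ℝ) := by exact_mod_cast two_le_cut ha
    have : exp a / 4 ≤ (cut a : ℝ) := hla.trans (Real.log_le_self (by linarith))
    refine (one_div_le_one_div_of_le (by positivity) this).trans ?_
    rw [Real.exp_neg]
    field_simp
    norm_num
  rw [show ∑ p ∈ primesIn a b, (1 : ℝ) / ((p : ℝ) - 1) - (b - a) =
    (∑ p ∈ primesIn a b, (1 : ℝ) / p - (b - a)) +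
      ∑ p ∈ primesIn a b, ((1 : ℝ) / ((p : ℝ) - 1) - 1 / p) by
    rw [Finset.sum_sub_distrib]; ring]
  refine (abs_add_le _ _).trans ?_
  rw [abs_of_nonneg htail0]
  linarith [exp_pos (-a)]

theorem mertens_upper : ∃ C : ℝ, 0 < C ∧ ∀ u : ℝ, 0 ≤ u →
    ∑ p ∈ primesTo u, (1 : ℝ) / p ≤ u + C := by
  obtain ⟨C, hC0, hC⟩ := recipSum_sub_loglog
  refine ⟨|recipSum 2 - log (log 2)| + C / log 2 + 4, by positivity, fun u hu => ?_⟩
  have e : primesTo u = Nat.primesLE (cut u) := by
    ext p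
    simp only [primesTo, Finset.mem_filter, Finset.mem_range, Nat.mem_primesLE]
    constructor
    · rintro ⟨_, hp, h⟩
      exact ⟨(sc_le_iff hp.two_le u).1 h, hp⟩
    · rintro ⟨h, hp⟩
      exact ⟨Nat.lt_succ_of_le h, hp, (sc_le_iff hp.two_le u).2 h⟩
  rw [e, ← recipSum]
  have h := hC 2 _ le_rfl (two_le_cut hu)
  push_cast at h
  obtain ⟨-, -, hL⟩ := log_cut_bounds hu
  have : exp (-u) ≤ 1 := exp_le_one_iff.2 (by linarith)
  rw [abs_le] at h hL
  linarith [h.2, hL.2, le_abs_self (recipSum 2 - log (log 2))]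

end Vale.Agent.P031
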