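import Vale.Agent.P031.Mertens
import Vale.Agent.P031.Sieve.Brun

/-!
P031: upper bounds for primes `t` with one or two further forms `A * t + 1` prime.
-/

open Finset Real
open scoped Classical
noncomputable section
namespace Vale.Agent.P031

/-- Polylogarithmic loss factor of the crude sieve. -/
def Wl (M A B : ℕ) : ℝ := log (log (M : ℝ) + log ((A : ℝ) + B) + 3) + 1

/-- The loss factor as a function of a bound `S` for the coefficients. -/
def loss (M S : ℕ) : ℝ := log (log (M : ℝ) + log (S : ℝ) + 3) + 1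

lemma one_le_loss (M S : ℕ) : 1 ≤ loss M S := by
  have h1 := Real.log_natCast_nonneg M
  have h2 := Real.log_natCast_nonneg S
  have := Real.log_nonneg (show (1 : ℝ) ≤ log (M : ℝ) + log (S : ℝ) + 3 by linarith)
  rw [loss]; linarith

/-- Two-sided bounds for the sum of reciprocals of primes. -/
lemma recipSum_bounds : ∃ C : ℝ, 0 < C ∧ ∀ n : ℕ, 2 ≤ n →
    |recipSum n - log (log (n : ℝ))| ≤ C := by
  obtain ⟨C, hC0, hC⟩ := recipSum_sub_loglog
  refine ⟨|recipSum 2 - log (log 2)| + C / log 2, by positivity, fun n hn => ?_⟩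
  have h := hC 2 n le_rfl hn
  push_cast at h
  calc |recipSum n - log (log (n : ℝ))|
      ≤ |recipSum 2 - log (log 2)| +
          |(recipSum n - log (log (n : ℝ))) - (recipSum 2 - log (log 2))| := by
        have := abs_add_le (recipSum 2 - log (log 2))
          ((recipSum n - log (log (n : ℝ))) - (recipSum 2 - log (log 2)))
        rwa [add_sub_cancel] at this
    _ ≤ _ := by linarith

/-- The sum of reciprocals of the primes dividing `D`. -/
lemma sum_inv_dvd_le : ∃ C : ℝ, 0 < C ∧ ∀ D : ℕ, 1 ≤ D → ∀ P : Finset ℕ,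
    (∀ l ∈ P, l.Prime ∧ l ∣ D) → ∑ l ∈ P, (1 : ℝ) / l ≤ log (log (log (D : ℝ) + 3)) + C := by
  obtain ⟨C, hC0, hC⟩ := recipSum_bounds
  refine ⟨C + 2, by linarith, fun D hD P hP => ?_⟩
  set x := log (D : ℝ) + 3 with hx
  have hx3 : 3 ≤ x := by have := Real.log_natCast_nonneg D; linarith
  set y := ⌊x⌋₊ with hy
  have hy2 : 2 ≤ y := Nat.le_floor (by push_cast; linarith)
  rw [← Finset.sum_filter_add_sum_filter_not P (fun l => l ≤ y)]
  refine le_trans (add_le_add (b := recipSum y) (d := 2) ?_ ?_) ?_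
  · refine Finset.sum_le_sum_of_subset_of_nonneg (fun l hl => ?_) fun l _ _ => by positivity
    rw [Finset.mem_filter] at hl
    exact Nat.mem_primesLE.2 ⟨hl.2, (hP l hl.1).1⟩
  · have hprod : (∏ l ∈ P, l) ∣ D :=
      Finset.prod_primes_dvd D (fun l hl => (hP l hl).1.prime) fun l hl => (hP l hl).2
    have hcard : (P.card : ℝ) * log 2 ≤ log (D : ℝ) := by
      have h1 : 2 ^ P.card ≤ ∏ l ∈ P, l := by
        rw [← Finset.prod_const]
        exact Finset.prod_le_prod (fun _ _ => Nat.zero_le _) fun l hl => (hP l hl).1.two_le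
      rw [← Real.log_pow]
      exact Real.log_le_log (by positivity)
        (by exact_mod_cast h1.trans (Nat.le_of_dvd hD hprod))
    have hl2 : (1 / 2 : ℝ) ≤ log 2 := by have := Real.log_two_gt_d9; norm_num at this ⊢; linarith
    calc ∑ l ∈ P with ¬l ≤ y, (1 : ℝ) / l ≤ ∑ l ∈ P with ¬l ≤ y, 1 / x := by
          refine Finset.sum_le_sum fun l hl => one_div_le_one_div_of_le (by linarith) ?_
          have : y + 1 ≤ l := not_le.1 (Finset.mem_filter.1 hl).2
          exact (Nat.lt_floor_add_one x).le.trans (by exact_mod_cast this)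
      _ ≤ (P.card : ℝ) * (1 / x) := by
          rw [Finset.sum_const, nsmul_eq_mul]
          exact mul_le_mul_of_nonneg_right (by exact_mod_cast Finset.card_filter_le _ _)
            (by positivity)
      _ ≤ 2 := by
          rw [← div_eq_mul_one_div, div_le_iff₀ (by linarith)]
          nlinarith [(Nat.cast_nonneg P.card : (0 : ℝ) ≤ P.card)]
  · have h := (abs_le.1 (hC y hy2)).2
    have hy' : (2 : ℝ) ≤ y := by exact_mod_cast hy2
    have : log (log (y : ℝ)) ≤ log (log x) :=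
      Real.log_le_log (Real.log_pos (by linarith))
        (Real.log_le_log (by linarith) (Nat.floor_le (by linarith)))
    linarith

/-- The classes of `n` modulo `l` for which `l` divides one of `t = M + 1 + n`, `A * t + 1`. -/
def badRes (M : ℕ) (F : Finset ℕ) (l : ℕ) : Finset ℕ :=
  (insert (0 : ZMod l) ((F.filter fun A : ℕ => (A : ZMod l) ≠ 0).image
    fun A : ℕ => -((A : ZMod l)⁻¹))).image fun r => (r - ((M + 1 : ℕ) : ZMod l)).val

lemma card_badRes_le (M : ℕ) (F : Finset ℕ) (l : ℕ) : (badRes M F l).card ≤ F.card + 1 :=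
  Finset.card_image_le.trans ((Finset.card_insert_le _ _).trans (Nat.add_le_add_right
    (Finset.card_image_le.trans (Finset.card_filter_le _ _)) 1))

/-- The product whose prime divisors are the degenerate moduli. -/
def disc (F : Finset ℕ) : ℕ :=
  (∏ A ∈ F, A) * ∏ q ∈ (F ×ˢ F).filter (fun q => q.2 < q.1), (q.1 - q.2)

lemma card_badRes (M : ℕ) {F : Finset ℕ} {l : ℕ} (hl : l.Prime) (hD : ¬ l ∣ disc F) :
    (badRes M F l).card = F.card + 1 := by
  have := Fact.mk hl
  have hA : ∀ A ∈ F, (A : ZMod l) ≠ 0 := fun A hA h => hD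
    (((ZMod.natCast_eq_zero_iff A l).1 h).trans ((Finset.dvd_prod_of_mem _ hA).mul_right _))
  have hinj : Function.Injective fun r : ZMod l => (r - ((M + 1 : ℕ) : ZMod l)).val :=
    (ZMod.val_injective l).comp sub_left_injective
  rw [badRes, Finset.filter_true_of_mem hA, Finset.card_image_of_injective _ hinj,
    Finset.card_insert_of_notMem,
    Finset.card_image_of_injOn]
  · intro A hA' B hB h
    simp only [neg_inj, inv_inj] at h
    by_contra hne
    have key : ∀ A ∈ F, ∀ B ∈ F, B < A → (A : ZMod l) ≠ B := by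
      intro A hA B hB hlt h
      refine hD (Dvd.dvd.mul_left ?_ _)
      refine Dvd.dvd.trans ?_ (Finset.dvd_prod_of_mem (fun q : ℕ × ℕ => q.1 - q.2)
        (Finset.mem_filter.2 ⟨Finset.mem_product.2 ⟨hA, hB⟩, hlt⟩ :
          (A, B) ∈ (F ×ˢ F).filter fun q => q.2 < q.1))
      rw [← ZMod.natCast_eq_zero_iff, Nat.cast_sub hlt.le, h, sub_self]
    rcases lt_or_gt_of_ne hne with hlt | hlt
    · exact key B hB A hA' hlt h.symm
    · exact key A hA' B hB hlt h
  · intro h
    obtain ⟨A, hA', h⟩ := Finset.mem_image.1 h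
    exact hA A hA' (by simpa using h)

/-- A value avoiding the bad classes. -/
lemma not_mem_badRes {M : ℕ} {F : Finset ℕ} {l n : ℕ} (hl : l.Prime)
    (h0 : ¬ l ∣ M + 1 + n) (hA : ∀ A ∈ F, ¬ l ∣ A * (M + 1 + n) + 1) :
    n % l ∉ badRes M F l := by
  have := Fact.mk hl
  intro h
  obtain ⟨r, hr, h⟩ := Finset.mem_image.1 h
  have hn : ((M + 1 + n : ℕ) : ZMod l) = r := by
    have := congrArg (fun k : ℕ => (k : ZMod l)) h
    simp only [ZMod.natCast_val, ZMod.cast_id', id_eq, ZMod.natCast_mod] at this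
    rw [Nat.cast_add, ← this]; ring
  rcases Finset.mem_insert.1 hr with rfl | hr
  · exact h0 ((ZMod.natCast_eq_zero_iff _ l).1 hn)
  · obtain ⟨A, hA', rfl⟩ := Finset.mem_image.1 hr
    obtain ⟨hAF, hAne⟩ := Finset.mem_filter.1 hA'
    refine hA A hAF ((ZMod.natCast_eq_zero_iff _ l).1 ?_)
    rw [Nat.cast_add, Nat.cast_mul, hn, mul_neg, mul_inv_cancel₀ hAne]
    simp

/-- The sifting primes. -/
def sifters (z : ℕ) : Finset ℕ := (Nat.primesLE z).filter fun l => 7 ≤ l

lemma mem_sifters {z l : ℕ} (h : l ∈ sifters z) : l.Prime ∧ 7 ≤ l ∧ l ≤ z :=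
  ⟨(Nat.mem_primesLE.1 (Finset.mem_filter.1 h).1).2, (Finset.mem_filter.1 h).2,
    (Nat.mem_primesLE.1 (Finset.mem_filter.1 h).1).1⟩

lemma sum_badRes_div_le {C : ℝ} (hC : ∀ n : ℕ, 2 ≤ n → |recipSum n - log (log (n : ℝ))| ≤ C)
    (M : ℕ) {F : Finset ℕ} (hF : F.card ≤ 2) {z : ℕ} (hz : 2 ≤ z) :
    ∑ l ∈ sifters z, ((badRes M F l).card : ℝ) / l ≤ 3 * (log (log (z : ℝ)) + C) := by
  refine (Finset.sum_le_sum (g := fun l : ℕ => (3 : ℝ) * (1 / l)) fun l _ => ?_).trans ?_
  · rw [div_eq_mul_one_div]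
    refine mul_le_mul_of_nonneg_right ?_ (by positivity)
    exact_mod_cast (card_badRes_le M F l).trans (show F.card + 1 ≤ 3 by omega)
  · rw [← Finset.mul_sum]
    refine mul_le_mul_of_nonneg_left ?_ (by norm_num)
    calc ∑ l ∈ sifters z, (1 : ℝ) / l ≤ recipSum z :=
          Finset.sum_le_sum_of_subset_of_nonneg (Finset.filter_subset _ _)
            fun l _ _ => by positivity
      _ ≤ _ := by have := (abs_le.1 (hC z hz)).2; linarith

lemma le_sum_sifters_inv {C : ℝ} (hC : ∀ n : ℕ, 2 ≤ n → |recipSum n - log (log (n : ℝ))| ≤ C)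
    {z : ℕ} (hz : 2 ≤ z) : log (log (z : ℝ)) - C - 6 ≤ ∑ l ∈ sifters z, (1 : ℝ) / l := by
  have h1 := (abs_le.1 (hC z hz)).1
  have e : recipSum z = ∑ l ∈ sifters z, (1 : ℝ) / l +
      ∑ l ∈ (Nat.primesLE z).filter (fun l => ¬ 7 ≤ l), (1 : ℝ) / l :=
    (Finset.sum_filter_add_sum_filter_not _ _ _).symm
  have h2 : ∑ l ∈ (Nat.primesLE z).filter (fun l => ¬ 7 ≤ l), (1 : ℝ) / l ≤ 6 := by
    refine (Finset.sum_le_card_nsmul _ _ 1 fun l hl => ?_).trans ?_
    · have : (1 : ℝ) ≤ l := by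
        exact_mod_cast (Nat.mem_primesLE.1 (Finset.mem_filter.1 hl).1).2.one_le
      rw [div_le_one (by linarith)]; exact this
    · rw [nsmul_one]
      have hsub : (Nat.primesLE z).filter (fun l => ¬ 7 ≤ l) ⊆ Finset.Ico 1 7 := fun l hl => by
        rw [Finset.mem_filter] at hl
        have := (Nat.mem_primesLE.1 hl.1).2.one_le
        rw [Finset.mem_Ico]; omega
      exact_mod_cast (Finset.card_le_card hsub).trans (by simp)
  linarith

lemma one_le_disc {F : Finset ℕ} (hF : ∀ A ∈ F, 1 ≤ A) : 1 ≤ disc F :=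
  Nat.mul_pos (Finset.prod_pos hF)
    (Finset.prod_pos fun _ hq => Nat.sub_pos_of_lt (Finset.mem_filter.1 hq).2)

lemma loglog_disc_le (M : ℕ) {S : ℕ} {F : Finset ℕ} (hS : 1 ≤ S) (hF : F.card ≤ 2)
    (hFS : ∀ A ∈ F, 1 ≤ A ∧ A ≤ S) : log (log (disc F : ℝ) + 3) ≤ 10 * loss M S := by
  have hpow : disc F ≤ S ^ 6 := by
    refine (Nat.mul_le_mul (Finset.prod_le_pow_card _ _ S fun A hA => (hFS A hA).2)
      (Finset.prod_le_pow_card _ _ S fun q hq => (Nat.sub_le _ _).trans
        (hFS q.1 (Finset.mem_product.1 (Finset.mem_filter.1 hq).1).1).2)).trans ?_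
    rw [← pow_add]
    refine Nat.pow_le_pow_right hS ?_
    have := Finset.card_filter_le (F ×ˢ F) fun q => q.2 < q.1
    rw [Finset.card_product] at this
    have := Nat.mul_le_mul hF hF
    omega
  have hD1 := one_le_disc fun A hA => (hFS A hA).1
  have hDlog : log (disc F : ℝ) ≤ 6 * log (S : ℝ) := by
    calc log (disc F : ℝ) ≤ log ((S ^ 6 : ℕ) : ℝ) :=
          Real.log_le_log (by exact_mod_cast hD1) (by exact_mod_cast hpow)
      _ = _ := by push_cast; rw [Real.log_pow]; norm_num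
  have h1 := Real.log_natCast_nonneg (disc F)
  have h2 := Real.log_natCast_nonneg S
  have h3 := Real.log_natCast_nonneg M
  refine (Real.log_le_log (by linarith)
    (show log (disc F : ℝ) + 3 ≤ 6 * (log (M : ℝ) + log (S : ℝ) + 3) by linarith)).trans ?_
  rw [Real.log_mul (by norm_num) (by linarith)]
  have h6 : log (6 : ℝ) ≤ 5 := (Real.log_le_sub_one_of_pos (by norm_num)).trans (by norm_num)
  have hW := one_le_loss M S
  rw [loss] at hW ⊢
  linarith

lemma prod_sifters_le {C C' : ℝ}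
    (hC : ∀ n : ℕ, 2 ≤ n → |recipSum n - log (log (n : ℝ))| ≤ C)
    (hC' : ∀ D : ℕ, 1 ≤ D → ∀ P : Finset ℕ, (∀ l ∈ P, l.Prime ∧ l ∣ D) →
      ∑ l ∈ P, (1 : ℝ) / l ≤ log (log (log (D : ℝ) + 3)) + C')
    (M : ℕ) {S : ℕ} {F : Finset ℕ} (hS : 1 ≤ S) (hF : F.card ≤ 2)
    (hFS : ∀ A ∈ F, 1 ≤ A ∧ A ≤ S) {z : ℕ} (hz : 2 ≤ z) :
    ∏ l ∈ sifters z, (1 - ((badRes M F l).card : ℝ) / l) ≤
      (Real.exp (C + C' + 6) * (10 * loss M S) / log (z : ℝ)) ^ (F.card + 1) := by
  set k := F.card + 1 with hk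
  have hW := one_le_loss M S
  have hzR : (2 : ℝ) ≤ z := by exact_mod_cast hz
  have h1 : (k : ℝ) * ∑ l ∈ (sifters z).filter (fun l => ¬ l ∣ disc F), (1 : ℝ) / l ≤
      ∑ l ∈ sifters z, ((badRes M F l).card : ℝ) / l := by
    rw [Finset.mul_sum]
    refine le_trans (le_of_eq (Finset.sum_congr rfl fun l hl => ?_))
      (Finset.sum_le_sum_of_subset_of_nonneg (Finset.filter_subset _ _)
        fun l _ _ => by positivity)
    rw [Finset.mem_filter] at hl
    rw [card_badRes M (mem_sifters hl.1).1 hl.2, ← hk, div_eq_mul_one_div (k : ℝ)]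
  have h3 := hC' _ (one_le_disc fun A hA => (hFS A hA).1)
    ((sifters z).filter fun l => l ∣ disc F) fun l hl =>
    ⟨(mem_sifters (Finset.mem_filter.1 hl).1).1, (Finset.mem_filter.1 hl).2⟩
  have h4 : log (log (log (disc F : ℝ) + 3)) ≤ log (10 * loss M S) :=
    Real.log_le_log (Real.log_pos (by linarith [Real.log_natCast_nonneg (disc F)]))
      (loglog_disc_le M hS hF hFS)
  have h5 := Finset.sum_filter_add_sum_filter_not (sifters z) (fun l => l ∣ disc F)
    (fun l => (1 : ℝ) / l)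
  have h6 := le_sum_sifters_inv hC hz
  have h7 : (k : ℝ) * (log (log (z : ℝ)) - C - 6 - (log (10 * loss M S) + C')) ≤
      ∑ l ∈ sifters z, ((badRes M F l).card : ℝ) / l :=
    (mul_le_mul_of_nonneg_left (by linarith) (Nat.cast_nonneg k)).trans h1
  calc ∏ l ∈ sifters z, (1 - ((badRes M F l).card : ℝ) / l)
      ≤ ∏ l ∈ sifters z, exp (-(((badRes M F l).card : ℝ) / l)) :=
        Finset.prod_le_prod (fun l hl => by
          rw [sub_nonneg, div_le_one (by exact_mod_cast (mem_sifters hl).1.pos)]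
          have := card_badRes_le M F l
          have := (mem_sifters hl).2.1
          exact_mod_cast (show (badRes M F l).card ≤ l by omega))
          fun l _ => Real.one_sub_le_exp_neg _
    _ = exp (-∑ l ∈ sifters z, ((badRes M F l).card : ℝ) / l) := by
        rw [← Real.exp_sum, Finset.sum_neg_distrib]
    _ ≤ exp ((k : ℝ) * (C + C' + 6 + log (10 * loss M S) - log (log (z : ℝ)))) :=
        exp_le_exp.2 (le_trans (neg_le_neg h7) (le_of_eq (by ring)))
    _ = _ := by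
        rw [Real.exp_nat_mul, Real.exp_sub, Real.exp_add _ (log (10 * loss M S)),
          Real.exp_log (by positivity), Real.exp_log (Real.log_pos (by linarith))]

lemma count_le_sifted {M : ℕ} {F : Finset ℕ} (hF1 : ∀ A ∈ F, 1 ≤ A) (hF : F.card ≤ 2) {z m : ℕ}
    (hzM : z < M)
    (hm : 9 * ∑ l ∈ sifters z, ((badRes M F l).card : ℝ) / l ≤ 2 * m + 1) :
    (((Finset.Ioc M (2 * M)).filter fun t => t.Prime ∧ ∀ A ∈ F, (A * t + 1).Prime).card : ℝ) ≤
      2 * M * ∏ l ∈ sifters z, (1 - ((badRes M F l).card : ℝ) / l) +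
        (1 + ∑ l ∈ sifters z, ((badRes M F l).card : ℝ)) ^ (2 * m) := by
  refine le_trans ?_ (Sieve.brun_upper (sifters z) (badRes M F) M m
    (fun l hl => (mem_sifters hl).1) (fun l hl r hr => ?_) (fun l hl => ?_) hm)
  · refine Nat.cast_le.2 (Finset.card_le_card_of_injOn (fun t => t - (M + 1)) ?_ ?_)
    · intro t ht
      simp only [Finset.mem_coe, Finset.mem_filter, Finset.mem_Ioc] at ht
      obtain ⟨⟨ht1, ht2⟩, htp, hA⟩ := ht
      simp only [Finset.mem_coe, Finset.mem_filter, Finset.mem_range]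
      refine ⟨by omega, fun l hl => not_mem_badRes (mem_sifters hl).1 ?_ ?_⟩
      · rw [show M + 1 + (t - (M + 1)) = t by omega,
          Nat.prime_dvd_prime_iff_eq (mem_sifters hl).1 htp]
        have := (mem_sifters hl).2.2; omega
      · intro A hAF
        rw [show M + 1 + (t - (M + 1)) = t by omega,
          Nat.prime_dvd_prime_iff_eq (mem_sifters hl).1 (hA A hAF)]
        have := (mem_sifters hl).2.2
        have := Nat.le_mul_of_pos_left t (hF1 A hAF)
        omega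
    · intro a ha b hb hab
      simp only [Finset.mem_coe, Finset.mem_filter, Finset.mem_Ioc] at ha hb
      simp only at hab
      omega
  · have := Fact.mk (mem_sifters hl).1
    obtain ⟨x, -, rfl⟩ := Finset.mem_image.1 hr
    exact Finset.mem_range.2 (ZMod.val_lt _)
  · have := card_badRes_le M F l
    have := (mem_sifters hl).2.1
    omega

lemma error_le (M : ℕ) {F : Finset ℕ} (hF : F.card ≤ 2) {z m : ℕ} (hz : 2 ≤ z) {LM c : ℝ}
    (hm : (m : ℝ) * log (z : ℝ) ≤ LM / 8) (hm' : (m : ℝ) ≤ c) (hc : 16 * c ≤ LM) :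
    (1 + ∑ l ∈ sifters z, ((badRes M F l).card : ℝ)) ^ (2 * m) ≤ exp (LM / 2) := by
  have hzR : (2 : ℝ) ≤ z := by exact_mod_cast hz
  have hb : 1 + ∑ l ∈ sifters z, ((badRes M F l).card : ℝ) ≤ 4 * (z : ℝ) := by
    have hPz : ((sifters z).card : ℝ) ≤ z := by
      have : sifters z ⊆ Finset.Icc 1 z := fun l hl =>
        Finset.mem_Icc.2 ⟨(mem_sifters hl).1.one_le, (mem_sifters hl).2.2⟩
      exact_mod_cast (Finset.card_le_card this).trans (by simp)
    have h1 : ∑ l ∈ sifters z, ((badRes M F l).card : ℝ) ≤ (sifters z).card * 3 := by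
      rw [← nsmul_eq_mul]
      exact Finset.sum_le_card_nsmul _ _ _ fun l _ => by
        exact_mod_cast (card_badRes_le M F l).trans (show F.card + 1 ≤ 3 by omega)
    linarith
  refine (pow_le_pow_left₀ (by positivity) hb _).trans ?_
  rw [← Real.exp_log (show (0 : ℝ) < 4 * z by positivity), ← Real.exp_nat_mul]
  refine exp_le_exp.2 ?_
  rw [Real.log_mul (by norm_num) (by linarith)]
  push_cast
  have h4 : log (4 : ℝ) ≤ 2 := by
    have := Real.log_two_lt_d9
    rw [show (4 : ℝ) = 2 * 2 by norm_num, Real.log_mul (by norm_num) (by norm_num)]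
    norm_num at this
    linarith
  have h6 : (m : ℝ) * log (4 : ℝ) ≤ c * 2 :=
    mul_le_mul hm' h4 (Real.log_nonneg (by norm_num)) (le_trans (Nat.cast_nonneg m) hm')
  linarith

lemma exp_half_mul_pow_le {LM : ℝ} (h : 1 ≤ LM) {k : ℕ} (hk : k ≤ 3) :
    exp (LM / 2) * LM ^ k ≤ 216 * exp LM := by
  have h1 : LM / 6 ≤ exp (LM / 6) := by linarith [Real.add_one_le_exp (LM / 6)]
  calc exp (LM / 2) * LM ^ k ≤ exp (LM / 2) * (6 * exp (LM / 6)) ^ 3 := by
        gcongr
        exact (pow_le_pow_right₀ h hk).trans (pow_le_pow_left₀ (by linarith) (by linarith) 3)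
    _ = 216 * exp (LM / 2 + LM / 6 + LM / 6 + LM / 6) := by
        rw [Real.exp_add, Real.exp_add, Real.exp_add]; ring
    _ = _ := by congr 2; ring

lemma sifting_limit {X : ℝ} (hX : 2 ≤ X) :
    ∃ z : ℕ, 2 ≤ z ∧ X / 2 ≤ log (z : ℝ) ∧ log (z : ℝ) ≤ X ∧ (z : ℝ) ≤ exp X := by
  have hexp : (3 : ℝ) ≤ exp X := by linarith [Real.add_one_le_exp X]
  have hz2 : 2 ≤ ⌊exp X⌋₊ := Nat.le_floor (by push_cast; linarith)
  have hzR : (2 : ℝ) ≤ ⌊exp X⌋₊ := by exact_mod_cast hz2
  have hzle : ((⌊exp X⌋₊ : ℕ) : ℝ) ≤ exp X := Nat.floor_le (exp_pos _).le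
  refine ⟨⌊exp X⌋₊, hz2, ?_, by simpa using Real.log_le_log (by linarith) hzle, hzle⟩
  have h1 : exp X ≤ 2 * (⌊exp X⌋₊ : ℕ) := by
    have := Nat.lt_floor_add_one (exp X); linarith
  have h2 := Real.log_le_log (exp_pos _) h1
  rw [Real.log_exp, Real.log_mul (by norm_num) (by linarith)] at h2
  have h3 : log 2 ≤ 1 := by have := Real.log_two_lt_d9; norm_num at this ⊢; linarith
  linarith

/-- The crude sieve for up to two forms. -/
theorem sieve_forms : ∃ K : ℝ, 0 < K ∧ ∀ (M S : ℕ) (F : Finset ℕ), 3 ≤ M → 1 ≤ S →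
    F.card ≤ 2 → (∀ A ∈ F, 1 ≤ A ∧ A ≤ S) →
    (((Finset.Ioc M (2 * M)).filter fun t => t.Prime ∧ ∀ A ∈ F, (A * t + 1).Prime).card : ℝ) ≤
      K * M * loss M S ^ 6 / log (M : ℝ) ^ (F.card + 1) := by
  obtain ⟨C, hC0, hC⟩ := recipSum_bounds
  obtain ⟨C', hC'0, hC'⟩ := sum_inv_dvd_le
  -- the truncation is at most `c0 * loss`, the sifting limit is `exp (log M / (8 * c0 * loss))`
  obtain ⟨c0, hc0⟩ : ∃ c0 : ℝ, c0 = 14 * (C + 2) := ⟨_, rfl⟩
  obtain ⟨E, hE⟩ : ∃ E : ℝ, E = Real.exp (C + C' + 6) := ⟨_, rfl⟩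
  have hc0' : 28 ≤ c0 := by linarith
  have hE1 : 1 ≤ E := hE ▸ Real.one_le_exp (by linarith)
  refine ⟨(16 * c0) ^ 3 + 2 * (E * 10 * (16 * c0)) ^ 3 + 216, by positivity, ?_⟩
  intro M S F hM hS hF hFS
  obtain ⟨W, hWdef⟩ : ∃ W : ℝ, W = loss M S := ⟨_, rfl⟩
  have hW : 1 ≤ W := hWdef ▸ one_le_loss M S
  have hM3 : (3 : ℝ) ≤ M := by exact_mod_cast hM
  obtain ⟨LM, hLMdef⟩ : ∃ LM : ℝ, LM = log (M : ℝ) := ⟨_, rfl⟩
  have hLM : 1 ≤ LM := by
    rw [hLMdef, Real.le_log_iff_exp_le (by linarith)]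
    exact Real.exp_one_lt_three.le.trans hM3
  rw [← hLMdef, ← hWdef, le_div_iff₀ (by positivity)]
  obtain ⟨k, hk⟩ : ∃ k : ℕ, k = F.card + 1 := ⟨_, rfl⟩
  have hk3 : k ≤ 3 := by omega
  rw [← hk]
  set cnt := (((Finset.Ioc M (2 * M)).filter
    fun t => t.Prime ∧ ∀ A ∈ F, (A * t + 1).Prime).card : ℝ) with hcntdef
  have hW6 : 1 ≤ W ^ 6 := one_le_pow₀ hW
  rcases le_or_gt LM (16 * c0 * W) with hsmall | hlarge
  · have hcnt : cnt ≤ M := by
      refine (Nat.cast_le.2 (Finset.card_filter_le _ _)).trans ?_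
      rw [Nat.card_Ioc]; exact_mod_cast (show 2 * M - M ≤ M by omega)
    calc cnt * LM ^ k ≤ (M : ℝ) * (16 * c0 * W) ^ 3 :=
          mul_le_mul hcnt ((pow_le_pow_right₀ hLM hk3).trans (by gcongr)) (by positivity)
            (by linarith)
      _ = (16 * c0) ^ 3 * M * W ^ 3 := by ring
      _ ≤ _ := by
          gcongr
          · have : 0 ≤ 2 * (E * 10 * (16 * c0)) ^ 3 := by positivity
            linarith
          · norm_num
  have hX2 : 2 ≤ LM / (8 * c0 * W) := by
    rw [le_div_iff₀ (by positivity)]; linarith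
  obtain ⟨z, hz2, hlogz', hlogz, hzle⟩ := sifting_limit hX2
  have hzR : (2 : ℝ) ≤ z := by exact_mod_cast hz2
  have h8 : 1 < 8 * c0 * W := by
    have := le_mul_of_one_le_right (show (0 : ℝ) ≤ 8 * c0 by linarith) hW
    linarith
  have hXlt : LM / (8 * c0 * W) < LM := div_lt_self (by linarith) h8
  have hzM : z < M := by
    have : (z : ℝ) < M := by
      refine hzle.trans_lt ((exp_lt_exp.2 hXlt).trans_eq ?_)
      rw [hLMdef, Real.exp_log (by linarith)]
    exact_mod_cast this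
  have hllz : log (log (z : ℝ)) ≤ W := by
    have h2 := Real.log_natCast_nonneg S
    refine le_trans (Real.log_le_log (Real.log_pos (by linarith))
      (show log (z : ℝ) ≤ LM + log (S : ℝ) + 3 by linarith)) ?_
    rw [hWdef, loss, ← hLMdef]
    linarith
  obtain ⟨m, hm⟩ : ∃ m : ℕ, m = ⌈(27 / 2 : ℝ) * (W + C)⌉₊ := ⟨_, rfl⟩
  have hmlo : (27 / 2 : ℝ) * (W + C) ≤ m := hm ▸ Nat.le_ceil _
  have hm2 : (m : ℝ) ≤ c0 * W := by
    have h := Nat.ceil_lt_add_one (show (0 : ℝ) ≤ (27 / 2 : ℝ) * (W + C) by positivity)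
    rw [← hm] at h
    have h1 : C ≤ C * W := le_mul_of_one_le_right hC0.le hW
    rw [hc0]; linarith
  have hm1 : 9 * ∑ l ∈ sifters z, ((badRes M F l).card : ℝ) / l ≤ 2 * (m : ℝ) + 1 := by
    have := sum_badRes_div_le hC M hF hz2
    linarith
  have hmz : (m : ℝ) * log (z : ℝ) ≤ LM / 8 := by
    calc (m : ℝ) * log (z : ℝ) ≤ c0 * W * (LM / (8 * c0 * W)) :=
          mul_le_mul hm2 hlogz (Real.log_nonneg (by linarith)) (by positivity)
      _ = _ := by field_simp
  have hcount := count_le_sifted (fun A hA => (hFS A hA).1) hF hzM hm1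
  have herr := error_le M hF hz2 hmz hm2 (by linarith)
  have hprod := prod_sifters_le hC hC' M hS hF hFS hz2
  rw [← hE, ← hWdef, ← hk] at hprod
  have hlz : LM / (16 * c0 * W) ≤ log (z : ℝ) := by
    refine le_of_eq_of_le ?_ hlogz'
    field_simp
    ring
  have hratio : E * (10 * W) / log (z : ℝ) ≤ E * 10 * (16 * c0) * W ^ 2 / LM := by
    calc E * (10 * W) / log (z : ℝ) ≤ E * (10 * W) / (LM / (16 * c0 * W)) :=
          div_le_div_of_nonneg_left (by positivity) (by positivity) hlz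
      _ = _ := by field_simp
  have hmain : cnt ≤ 2 * M * (E * 10 * (16 * c0) * W ^ 2 / LM) ^ k + exp (LM / 2) := by
    refine hcount.trans (add_le_add (mul_le_mul_of_nonneg_left (hprod.trans ?_) (by positivity))
      herr)
    exact pow_le_pow_left₀ (div_nonneg (by positivity) (Real.log_nonneg (by linarith))) hratio k
  have hB : 1 ≤ E * 10 * (16 * c0) * W ^ 2 :=
    one_le_mul_of_one_le_of_one_le
      (one_le_mul_of_one_le_of_one_le (by linarith) (by linarith)) (one_le_pow₀ hW)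
  calc cnt * LM ^ k
      ≤ (2 * M * (E * 10 * (16 * c0) * W ^ 2 / LM) ^ k + exp (LM / 2)) * LM ^ k :=
        mul_le_mul_of_nonneg_right hmain (by positivity)
    _ = 2 * M * (E * 10 * (16 * c0) * W ^ 2) ^ k + exp (LM / 2) * LM ^ k := by
        rw [add_mul, mul_assoc, ← mul_pow, div_mul_cancel₀ _ (by linarith)]
    _ ≤ 2 * M * (E * 10 * (16 * c0) * W ^ 2) ^ 3 + 216 * exp LM :=
        add_le_add (mul_le_mul_of_nonneg_left (pow_le_pow_right₀ hB hk3) (by positivity))
          (exp_half_mul_pow_le hLM hk3)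
    _ = 2 * (E * 10 * (16 * c0)) ^ 3 * M * W ^ 6 + 216 * M := by
        rw [hLMdef, Real.exp_log (by linarith)]; ring
    _ ≤ _ := by
        have h216 : 216 * (M : ℝ) ≤ 216 * M * W ^ 6 := le_mul_of_one_le_right (by positivity) hW6
        have h0 : 0 ≤ (16 * c0) ^ 3 * M * W ^ 6 := by positivity
        linarith

lemma Wl_nat (M A B : ℕ) : Wl M A B = loss M (A + B) := by simp [Wl, loss]

lemma bound_le_nat {K : ℝ} {C : ℕ} (hK : K ≤ C) (h6 : 6 ≤ C) {M S : ℕ} {d : ℝ} (hd : 0 ≤ d) :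
    K * M * loss M S ^ 6 / d ≤ C * M * loss M S ^ C / d := by
  gcongr
  exact one_le_loss M S

theorem sieve_two : ∃ C : ℕ, ∀ M A : ℕ, 3 ≤ M → 1 ≤ A →
    (((Finset.Ioc M (2 * M)).filter fun t => t.Prime ∧ (A * t + 1).Prime).card : ℝ)
      ≤ C * M * Wl M A A ^ C / log M ^ 2 := by
  obtain ⟨K, hK0, hK⟩ := sieve_forms
  refine ⟨⌈K⌉₊ + 6, fun M A hM hA => ?_⟩
  have h := hK M (A + A) {A} hM (by omega) (by simp) (by simp; omega)
  simp only [Finset.mem_singleton, forall_eq, Finset.card_singleton] at h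
  rw [Wl_nat]
  exact h.trans (bound_le_nat ((Nat.le_ceil K).trans (by push_cast; linarith)) (by omega)
    (by positivity))

theorem sieve_three : ∃ C : ℕ, ∀ M A B : ℕ, 3 ≤ M → 1 ≤ A → 1 ≤ B → A ≠ B →
    (((Finset.Ioc M (2 * M)).filter
        fun t => t.Prime ∧ (A * t + 1).Prime ∧ (B * t + 1).Prime).card : ℝ)
      ≤ C * M * Wl M A B ^ C / log M ^ 3 := by
  obtain ⟨K, hK0, hK⟩ := sieve_forms
  refine ⟨⌈K⌉₊ + 6, fun M A B hM hA hB hAB => ?_⟩
  have h := hK M (A + B) {A, B} hM (by omega) (Finset.card_le_two) (by simp; omega)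
  simp only [Finset.mem_insert, Finset.mem_singleton, forall_eq_or_imp, forall_eq,
    Finset.card_pair hAB] at h
  rw [Wl_nat]
  exact h.trans (bound_le_nat ((Nat.le_ceil K).trans (by push_cast; linarith)) (by omega)
    (by positivity))

end Vale.Agent.P031
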