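import Vale.Agent.P031.Basic

/-!
# Totient values: growth comparisons
-/

open Finset Real Filter

noncomputable section

namespace Vale.Agent.P031

/-- Powers of `log (u + 3)` are eventually below any positive power of `u`. -/
lemma polylog_le_rpow (k : ℕ) {s : ℝ} (hs : 0 < s) (C : ℝ) :
    ∀ᶠ u : ℝ in atTop, C * log (u + 3) ^ k ≤ u ^ s := by
  have h1 : Tendsto (fun u : ℝ => u + 3) atTop atTop := tendsto_atTop_add_const_right _ _ tendsto_id
  have h0 : (fun x : ℝ => log x ^ k) =o[atTop] fun x : ℝ => x ^ s := by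
    simpa using (isLittleO_log_rpow_rpow_atTop (k : ℝ) hs)
  have h2 := (h0.const_mul_left (|C| * 2 ^ s)).bound one_pos
  filter_upwards [h1.eventually h2, eventually_ge_atTop (3 : ℝ)] with u hu hu3
  simp only [norm_eq_abs, one_mul] at hu
  rw [abs_of_nonneg (rpow_nonneg (by linarith : (0 : ℝ) ≤ u + 3) _)] at hu
  have h4 : (0 : ℝ) < 2 ^ s := rpow_pos_of_pos two_pos _
  have hl : 0 ≤ log (u + 3) ^ k := pow_nonneg (log_nonneg (by linarith)) k
  rw [abs_of_nonneg (by positivity)] at hu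
  have h5 : (u + 3) ^ s ≤ 2 ^ s * u ^ s := by
    rw [← mul_rpow two_pos.le (by linarith)]
    exact rpow_le_rpow (by linarith) (by linarith) hs.le
  have h6 : |C| * log (u + 3) ^ k ≤ u ^ s := by nlinarith
  exact le_trans (mul_le_mul_of_nonneg_right (le_abs_self C) hl) h6

lemma Kb_ge (u : ℝ) : 20 ≤ Kb u := Nat.le_add_left 20 _

lemma Kb_le_log {u : ℝ} (hu : 0 ≤ u) : (Kb u : ℝ) ≤ 41 * log (u + 3) := by
  have h1 : (1 : ℝ) ≤ log (u + 3) := by
    rw [le_log_iff_exp_le (by linarith)]; linarith [exp_one_lt_d9]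
  have h2 : log (u + 2) ≤ log (u + 3) := log_le_log (by linarith) (by linarith)
  have h3 : ((⌈20 * log (u + 2)⌉₊ : ℕ) : ℝ) < 20 * log (u + 2) + 1 :=
    Nat.ceil_lt_add_one (by have := log_nonneg (show (1 : ℝ) ≤ u + 2 by linarith); linarith)
  simp only [Kb]; push_cast; linarith

lemma Kb_mono {u v : ℝ} (hu : 0 ≤ u) (huv : u ≤ v) : Kb u ≤ Kb v := by
  simp only [Kb]
  gcongr

/-- The cost of rounding or truncating the levels is negligible against the slack. -/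
lemma eventually_Kb_cost {s : ℝ} (hs : 0 < s) (C : ℝ) (j : ℕ) :
    ∀ᶠ u : ℝ in atTop, C * ((Kb u : ℝ) + 3) ^ j ≤ u ^ s := by
  filter_upwards [polylog_le_rpow j hs (|C| * 44 ^ j), eventually_ge_atTop (0 : ℝ)] with u hu hu0
  have h1 := Kb_le_log hu0
  have h2 : (1 : ℝ) ≤ log (u + 3) := by
    rw [le_log_iff_exp_le (by linarith)]; linarith [exp_one_lt_d9]
  refine le_trans ?_ hu
  rw [mul_assoc, ← mul_pow]
  calc C * ((Kb u : ℝ) + 3) ^ j ≤ |C| * ((Kb u : ℝ) + 3) ^ j :=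
        mul_le_mul_of_nonneg_right (le_abs_self C) (by positivity)
    _ ≤ |C| * (44 * log (u + 3)) ^ j := by
        gcongr; linarith

lemma Del_nonneg' {u : ℝ} (hu : 0 ≤ u) : 0 ≤ Del u := rpow_nonneg hu _

lemma Del_mono' {u v : ℝ} (hu : 0 ≤ u) (huv : u ≤ v) : Del u ≤ Del v :=
  rpow_le_rpow hu huv (by norm_num)

lemma Y0_nonneg {u : ℝ} (hu : 0 ≤ u) : 0 ≤ Y0 u := rpow_nonneg hu _

lemma Y0_mono {u v : ℝ} (hu : 0 ≤ u) (huv : u ≤ v) : Y0 u ≤ Y0 v :=
  rpow_le_rpow hu huv (by norm_num)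

lemma rpow_le_small {a b : ℝ} (hab : a < b) {ε : ℝ} (hε : 0 < ε) :
    ∀ᶠ u : ℝ in atTop, u ^ a ≤ ε * u ^ b := by
  filter_upwards [(tendsto_rpow_atTop (sub_pos.2 hab)).eventually_ge_atTop (1 / ε),
    eventually_gt_atTop (0 : ℝ)] with u hu hu0
  rw [rpow_sub hu0, le_div_iff₀ (rpow_pos_of_pos hu0 _)] at hu
  calc u ^ a = ε * (1 / ε * u ^ a) := by field_simp
    _ ≤ ε * u ^ b := mul_le_mul_of_nonneg_left hu hε.le

lemma eventually_Del_le {ε : ℝ} (hε : 0 < ε) : ∀ᶠ u : ℝ in atTop, Del u ≤ ε * u := by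
  simpa [Del] using rpow_le_small (show (3 / 4 : ℝ) < 1 by norm_num) hε

lemma eventually_Y0_le {ε : ℝ} (hε : 0 < ε) : ∀ᶠ u : ℝ in atTop, Y0 u ≤ ε * u := by
  simpa [Y0] using rpow_le_small (show (3 / 16 : ℝ) < 1 by norm_num) hε

end Vale.Agent.P031
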