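import Vale.Agent.P031.Rankin
import Vale.Agent.P031.Brun

open Finset Real Filter
open scoped Classical
noncomputable section
namespace Vale.Agent.P031

/-! ## Counting functions -/

lemma sc_le_LL {q X : ℕ} (hq : 2 ≤ q) (h : q ≤ X) : sc q ≤ LL X := by
  have h2 : (2:ℝ) ≤ q := by exact_mod_cast hq
  exact log_le_log (log_pos (by linarith)) (log_le_log (by linarith) (by exact_mod_cast h))

lemma Nle_mono (m : ℕ) {v w : ℝ} (h : v ≤ w) : Nle m v ≤ Nle m w := by
  simp only [Nle, ← List.countP_eq_length_filter]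
  exact List.countP_mono_left fun q _ hq => by
    simp only [decide_eq_true_eq] at hq ⊢; linarith

lemma Nle_mul_prime {k t : ℕ} (hk : k ≠ 0) (ht : t.Prime) (v : ℝ) :
    Nle (k * t) v = Nle k v + (if sc t ≤ v then 1 else 0) := by
  simp only [Nle, ← List.countP_eq_length_filter]
  rw [(Nat.perm_primeFactorsList_mul hk ht.ne_zero).countP_eq, List.countP_append,
    Nat.primeFactorsList_prime ht]
  by_cases h : sc t ≤ v <;> simp [h]

lemma wt_step (z j : ℝ) (k : ℕ) :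
    wt (fun q => if sc q ≤ j then z else 1) k = z ^ Nle k j := by
  simp only [wt, Nle]
  induction k.primeFactorsList with
  | nil => simp
  | cons a l ih =>
    rw [List.map_cons, List.prod_cons, ih, List.filter_cons]
    by_cases h : sc a ≤ j
    · simp [h, pow_succ']
    · simp [h]

/-! ## Mertens from below -/

lemma recip_primesTo_ge : ∃ C : ℝ, 0 < C ∧ ∀ w : ℝ, 0 ≤ w →
    w - C ≤ ∑ q ∈ primesTo w, (1:ℝ) / q := by
  obtain ⟨C, hC, h⟩ := mertens_window
  have hs : Summable fun n : ℕ => (1:ℝ) / (n:ℝ) ^ 2 := summable_one_div_nat_pow.mpr (by norm_num)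
  have hnn : 0 ≤ ∑' n : ℕ, (1:ℝ) / (n:ℝ) ^ 2 := tsum_nonneg fun n => by positivity
  refine ⟨C + 2 * ∑' n : ℕ, (1:ℝ) / (n:ℝ) ^ 2, by linarith, fun w hw => ?_⟩
  have h1 := (abs_le.mp (h 0 w le_rfl hw)).1
  rw [neg_zero, exp_zero, mul_one, sub_zero] at h1
  have h2 : ∑ p ∈ primesIn 0 w, (1:ℝ) / ((p:ℝ) - 1)
      ≤ (∑ p ∈ primesIn 0 w, (1:ℝ) / p) + 2 * ∑' n : ℕ, (1:ℝ) / (n:ℝ) ^ 2 := by
    calc ∑ p ∈ primesIn 0 w, (1:ℝ) / ((p:ℝ) - 1)
        ≤ ∑ p ∈ primesIn 0 w, ((1:ℝ) / p + 2 * ((1:ℝ) / (p:ℝ) ^ 2)) := Finset.sum_le_sum fun p hp => by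
          have hp2 : (2:ℝ) ≤ p := by exact_mod_cast (Finset.mem_filter.mp hp).2.1.two_le
          have e : (1:ℝ) / p + 2 * ((1:ℝ) / (p:ℝ) ^ 2) = ((p:ℝ) + 2) / (p:ℝ) ^ 2 := by field_simp
          rw [e, div_le_div_iff₀ (by linarith) (by positivity)]
          nlinarith
      _ ≤ _ := by
          rw [Finset.sum_add_distrib, ← Finset.mul_sum]
          gcongr
          exact hs.sum_le_tsum _ fun n _ => by positivity
  have h3 : ∑ p ∈ primesIn 0 w, (1:ℝ) / p ≤ ∑ q ∈ primesTo w, (1:ℝ) / q := by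
    refine Finset.sum_le_sum_of_subset_of_nonneg (fun p hp => ?_) (fun p _ _ => by positivity)
    exact mem_primesTo.mpr ⟨(Finset.mem_filter.mp hp).2.1, (Finset.mem_filter.mp hp).2.2.2⟩
  linarith

/-! ## Large deviations of `Nle` -/

lemma step_weight_sum : ∃ C : ℝ, 0 < C ∧ ∀ L j z : ℝ, 0 ≤ L → 0 ≤ j → j ≤ L + 1 →
    1 / 2 ≤ z → z ≤ 3 / 2 → ∀ S : Finset ℕ, (∀ k ∈ S, Smooth L k) →
    ∑ k ∈ S, z ^ Nle k j / k ≤ exp (L + (z - 1) * j + C) := by
  obtain ⟨C1, hC1, hup⟩ := mertens_upper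
  obtain ⟨C2, hC2, hlow⟩ := recip_primesTo_ge
  have hs : Summable fun n : ℕ => (1:ℝ) / (n:ℝ) ^ 2 := summable_one_div_nat_pow.mpr (by norm_num)
  have hnn : 0 ≤ ∑' n : ℕ, (1:ℝ) / (n:ℝ) ^ 2 := tsum_nonneg fun n => by positivity
  refine ⟨2 * C1 + C2 + 1 + 9 * ∑' n : ℕ, (1:ℝ) / (n:ℝ) ^ 2, by linarith,
    fun L j z hL hj hjL hz1 hz2 S hS => ?_⟩
  set g : ℕ → ℝ := fun q => if sc q ≤ j then z else 1 with hg
  have hgb : ∀ q, 0 ≤ g q ∧ g q ≤ 3 / 2 := fun q => by
    simp only [hg]; split_ifs <;> constructor <;> linarith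
  have h1 := smooth_weight_sum L g (fun q hq => ⟨(hgb q).1, by
    have := one_lt_of_mem_primesTo hq; linarith [(hgb q).2]⟩) S hS
  simp only [hg, wt_step] at h1
  refine h1.trans (exp_le_exp.mpr ?_)
  set w := min j L with hw
  have hw0 : 0 ≤ w := le_min hj hL
  have hfil : (primesTo L).filter (fun q => sc q ≤ j) = primesTo w := by
    ext q; simp only [Finset.mem_filter, mem_primesTo, hw, le_min_iff]; tauto
  have hsplit : ∀ q ∈ primesTo L, g q / q + 4 * (g q / q) ^ 2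
      ≤ 1 / (q:ℝ) + (z - 1) * (if sc q ≤ j then 1 / (q:ℝ) else 0) + 9 * (1 / (q:ℝ) ^ 2) := by
    intro q hq
    have hq2 := one_lt_of_mem_primesTo hq
    have hsq : (g q / q) ^ 2 ≤ 9 / 4 * (1 / (q:ℝ) ^ 2) := by
      rw [div_pow, mul_one_div]
      exact div_le_div_of_nonneg_right (by nlinarith [(hgb q).1, (hgb q).2]) (by positivity)
    have e : g q / q = 1 / (q:ℝ) + (z - 1) * (if sc q ≤ j then 1 / (q:ℝ) else 0) := by
      simp only [hg]; split_ifs <;> ring
    linarith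
  refine (Finset.sum_le_sum hsplit).trans ?_
  rw [Finset.sum_add_distrib, Finset.sum_add_distrib, ← Finset.mul_sum, ← Finset.mul_sum,
    ← Finset.sum_filter, hfil]
  have b1 := hup L hL
  have b2 : (z - 1) * ∑ q ∈ primesTo w, 1 / (q:ℝ) ≤ (z - 1) * j + (C1 + C2 + 1) := by
    have u1 := hup w hw0
    have l1 := hlow w hw0
    have w1 : j - 1 ≤ w := le_min (by linarith) (by linarith)
    have w2 : w ≤ j := min_le_left _ _
    set P := ∑ q ∈ primesTo w, 1 / (q:ℝ)
    have hP : |P - j| ≤ C1 + C2 + 1 := abs_le.mpr ⟨by linarith, by linarith⟩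
    have : (z - 1) * (P - j) ≤ C1 + C2 + 1 :=
      (le_abs_self _).trans (by
        rw [abs_mul]
        calc |z - 1| * |P - j| ≤ 1 * (C1 + C2 + 1) :=
              mul_le_mul (abs_le.mpr ⟨by linarith, by linarith⟩) hP (abs_nonneg _) zero_le_one
          _ = _ := one_mul _)
    linarith
  have b3 : ∑ q ∈ primesTo L, 1 / (q:ℝ) ^ 2 ≤ ∑' n : ℕ, (1:ℝ) / (n:ℝ) ^ 2 :=
    hs.sum_le_tsum _ fun n _ => by positivity
  linarith

lemma deviation_sum : ∃ C : ℝ, 0 < C ∧ ∀ L j δ E : ℝ, 0 ≤ L → 0 ≤ j → j ≤ L + 1 → 0 ≤ E →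
    0 < δ → δ ≤ 1 / 2 → ∀ S : Finset ℕ,
    (∀ k ∈ S, Smooth L k ∧ E ≤ |(Nle k j : ℝ) - j|) →
    ∑ k ∈ S, (1:ℝ) / k ≤ 2 * exp (L + C - E * δ + 2 * δ ^ 2 * (j + E)) := by
  obtain ⟨C, hC, h⟩ := step_weight_sum
  refine ⟨C, hC, fun L j δ E hL hj hjL hE hδ hδ2 S hS => ?_⟩
  set P := fun k : ℕ => j + E ≤ (Nle k j : ℝ)
  rw [← Finset.sum_filter_add_sum_filter_not S P, two_mul]
  refine add_le_add ?_ ?_
  · have hlog : δ - δ ^ 2 ≤ log (1 + δ) := by
      have h1 := one_sub_inv_le_log_of_pos (show 0 < 1 + δ by linarith)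
      refine le_trans ?_ h1
      rw [le_sub_iff_add_le, ← le_sub_iff_add_le', inv_le_iff_one_le_mul₀ (by linarith)]
      nlinarith [pow_nonneg hδ.le 3]
    have hpt : ∀ k ∈ S.filter P,
        (1:ℝ) / k ≤ exp (-((j + E) * (δ - δ ^ 2))) * ((1 + δ) ^ Nle k j / k) := by
      intro k hk
      have hk2 : j + E ≤ (Nle k j : ℝ) := (Finset.mem_filter.mp hk).2
      rw [← mul_div_assoc]
      refine div_le_div_of_nonneg_right ?_ (Nat.cast_nonneg k)
      rw [← exp_log (show 0 < 1 + δ by linarith), ← exp_nat_mul, ← exp_add]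
      refine one_le_exp ?_
      have : (j + E) * (δ - δ ^ 2) ≤ (Nle k j : ℝ) * log (1 + δ) :=
        mul_le_mul hk2 hlog (by nlinarith) (Nat.cast_nonneg _)
      linarith
    refine (Finset.sum_le_sum hpt).trans ?_
    rw [← Finset.mul_sum]
    refine (mul_le_mul_of_nonneg_left (h L j (1 + δ) hL hj hjL (by linarith) (by linarith) _
      fun k hk => (hS k (Finset.mem_filter.mp hk).1).1) (exp_pos _).le).trans ?_
    rw [← exp_add]; exact exp_le_exp.mpr (by nlinarith)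
  · have hlog : -(δ + 2 * δ ^ 2) ≤ log (1 - δ) ∧ log (1 - δ) ≤ -δ := by
      refine ⟨le_trans ?_ (one_sub_inv_le_log_of_pos (by linarith)),
        by linarith [log_le_sub_one_of_pos (show 0 < 1 - δ by linarith)]⟩
      rw [le_sub_iff_add_le, ← le_sub_iff_add_le', inv_le_iff_one_le_mul₀ (by linarith)]
      nlinarith [pow_nonneg hδ.le 3]
    have hpt : ∀ k ∈ S.filter (fun k => ¬ P k),
        (1:ℝ) / k ≤ exp (-((j - E) * log (1 - δ))) * ((1 - δ) ^ Nle k j / k) := by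
      intro k hk
      obtain ⟨hkS, hk2⟩ := Finset.mem_filter.mp hk
      have hk3 : (Nle k j : ℝ) ≤ j - E := by
        simp only [P, not_le] at hk2
        rcases le_abs.mp (hS k hkS).2 with h' | h' <;> linarith
      rw [← mul_div_assoc]
      refine div_le_div_of_nonneg_right ?_ (Nat.cast_nonneg k)
      nth_rw 2 [← exp_log (show 0 < 1 - δ by linarith)]
      rw [← exp_nat_mul, ← exp_add]
      refine one_le_exp ?_
      have : (j - E) * log (1 - δ) ≤ (Nle k j : ℝ) * log (1 - δ) :=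
        mul_le_mul_of_nonpos_right hk3 (by linarith [hlog.2])
      linarith
    rcases lt_or_ge j E with hjE | hjE
    · rw [Finset.sum_eq_zero]
      · positivity
      · intro k hk
        obtain ⟨hkS, hk2⟩ := Finset.mem_filter.mp hk
        simp only [P, not_le] at hk2
        rcases le_abs.mp (hS k hkS).2 with h' | h' <;>
          linarith [Nat.cast_nonneg (α := ℝ) (Nle k j)]
    refine (Finset.sum_le_sum hpt).trans ?_
    rw [← Finset.mul_sum]
    refine (mul_le_mul_of_nonneg_left (h L j (1 - δ) hL hj hjL (by linarith) (by linarith) _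
      fun k hk => (hS k (Finset.mem_filter.mp hk).1).1) (exp_pos _).le).trans ?_
    rw [← exp_add]
    refine exp_le_exp.mpr ?_
    have a1 : -((j - E) * log (1 - δ)) ≤ (j - E) * (δ + 2 * δ ^ 2) := by
      nlinarith [mul_le_mul_of_nonneg_left hlog.1 (sub_nonneg.mpr hjE)]
    nlinarith

/-! ## Abnormal primes -/

lemma two_pow_sum_le {Y : ℝ} {F : Finset ℕ} (h : ∀ i ∈ F, (2:ℝ) ^ i ≤ Y) (hY : 0 ≤ Y) :
    ∑ i ∈ F, (2:ℝ) ^ i ≤ 2 * Y := by
  rcases F.eq_empty_or_nonempty with rfl | hne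
  · simpa using hY
  obtain ⟨m, hm, hmax⟩ := F.exists_max_image id hne
  calc ∑ i ∈ F, (2:ℝ) ^ i ≤ ∑ i ∈ Finset.range (m + 1), (2:ℝ) ^ i :=
        Finset.sum_le_sum_of_subset_of_nonneg
          (fun i hi => Finset.mem_range.mpr (Nat.lt_succ_of_le (hmax i hi)))
          (fun i _ _ => by positivity)
    _ ≤ 2 * (2:ℝ) ^ m := by rw [geom_sum_eq (by norm_num), pow_succ]; norm_num; linarith
    _ ≤ 2 * Y := by linarith [h m hm]

lemma rpow_third_eventually (A : ℝ) (n : ℕ) {b : ℝ} (hb : 0 < b) :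
    ∀ᶠ L : ℝ in atTop, A * L ^ n ≤ exp (b * L ^ (1 / 3 : ℝ)) := by
  have h := (tendsto_exp_mul_div_rpow_atTop (3 * n : ℝ) b hb).comp
    (tendsto_rpow_atTop (show (0:ℝ) < 1 / 3 by norm_num))
  filter_upwards [h.eventually_ge_atTop A, eventually_gt_atTop (0:ℝ)] with L hL hL0
  have e : (L ^ (1 / 3 : ℝ)) ^ (3 * n : ℝ) = L ^ n := by
    rw [← Real.rpow_mul hL0.le, show (1 / 3 : ℝ) * (3 * n) = n by ring, Real.rpow_natCast]
  rw [Function.comp_apply, e, le_div_iff₀ (by positivity)] at hL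
  exact hL

/-- The cofactors with an abnormal distribution of small primes. -/
def badCof (X : ℕ) : Finset ℕ :=
  (Finset.Icc 1 X).filter fun k => ∃ j : ℕ, j ≤ ⌈LL X⌉₊ ∧
    Dv (LL X - 1) - 2 ≤ |(Nle k j : ℝ) - j|

lemma badCof_sum : ∃ U : ℝ, ∀ X : ℕ, U ≤ LL X →
    ∑ k ∈ badCof X, (1:ℝ) / k
      ≤ exp (LL X - LL X ^ (1 / 3 : ℝ) / 256) := by
  obtain ⟨C, hC, hdev⟩ := deviation_sum
  obtain ⟨U1, hU1⟩ := eventually_atTop.mp
    (rpow_third_eventually (6 * exp C) 1 (show (0:ℝ) < 1 / 256 by norm_num))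
  refine ⟨max U1 512, fun X hX => ?_⟩
  set L := LL X with hL
  have hL512 : 512 ≤ L := (le_max_right _ _).trans hX
  set r := L ^ (1 / 3 : ℝ) with hr
  have hr8 : 8 ≤ r := by
    calc (8:ℝ) = (512:ℝ) ^ (1 / 3 : ℝ) := by
          rw [show (512:ℝ) = 8 ^ (3:ℕ) by norm_num, ← Real.rpow_natCast, ← Real.rpow_mul (by norm_num)]
          norm_num
      _ ≤ r := Real.rpow_le_rpow (by norm_num) hL512 (by norm_num)
  have hr3 : r ^ 3 = L := by
    rw [hr, ← Real.rpow_natCast, ← Real.rpow_mul (by linarith)]; norm_num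
  have hr2 : L ^ (2 / 3 : ℝ) = r ^ 2 := by
    rw [hr, ← Real.rpow_natCast (L ^ (1 / 3 : ℝ)), ← Real.rpow_mul (by linarith)]; norm_num
  set E := Dv (L - 1) - 2 with hEdef
  set δ := 1 / (16 * r) with hδ
  have hδ0 : 0 < δ := by rw [hδ]; positivity
  have hδ2 : δ ≤ 1 / 2 := by
    rw [hδ, div_le_div_iff₀ (by positivity) (by norm_num)]; linarith
  have hElow : r ^ 2 / 2 ≤ E := by
    have h1 : (3 / 4 * L) ^ (2 / 3 : ℝ) ≤ Dv (L - 1) :=
      Real.rpow_le_rpow (by linarith) (by linarith) (by norm_num)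
    rw [Real.mul_rpow (by norm_num) (by linarith), hr2] at h1
    have h2 : (3 / 4 : ℝ) ≤ (3 / 4 : ℝ) ^ (2 / 3 : ℝ) :=
      Real.self_le_rpow_of_le_one (by norm_num) (by norm_num) (by norm_num)
    have h3 := mul_le_mul_of_nonneg_right h2 (sq_nonneg r)
    rw [hEdef]; nlinarith
  have hEup : E ≤ L := by
    have h1 : Dv (L - 1) ≤ L - 1 := Real.rpow_le_self_of_one_le (by linarith) (by norm_num)
    rw [hEdef]; linarith
  have hexpo : ∀ j : ℝ, j ≤ L + 1 →
      L + C - E * δ + 2 * δ ^ 2 * (j + E) ≤ L + C - r / 128 := by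
    intro j hj
    have e1 : r ^ 2 / 2 * δ = r / 32 := by rw [hδ]; field_simp; ring
    have e2 : 2 * δ ^ 2 * (3 * r ^ 3) = 6 * r / 256 := by rw [hδ]; field_simp; ring
    have i1 := mul_le_mul_of_nonneg_right hElow hδ0.le
    have i2 : 2 * δ ^ 2 * (j + E) ≤ 2 * δ ^ 2 * (3 * r ^ 3) :=
      mul_le_mul_of_nonneg_left (by rw [hr3]; linarith) (by positivity)
    linarith
  have hcover : ∑ k ∈ badCof X, (1:ℝ) / k ≤
      ∑ j ∈ Finset.range (⌈L⌉₊ + 1),
        ∑ k ∈ (Finset.Icc 1 X).filter (fun k => E ≤ |(Nle k (j:ℕ) : ℝ) - (j:ℕ)|), (1:ℝ) / k := by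
    simp only [Finset.sum_filter]
    rw [Finset.sum_comm, badCof, Finset.sum_filter]
    refine Finset.sum_le_sum fun k _ => ?_
    split_ifs with h
    · obtain ⟨j, hj1, hj2⟩ := h
      refine le_trans ?_ (Finset.single_le_sum (f := fun j : ℕ =>
        if E ≤ |(Nle k (j:ℕ) : ℝ) - (j:ℕ)| then (1:ℝ) / k else 0)
        (fun i _ => by split_ifs <;> positivity) (Finset.mem_range.mpr (Nat.lt_succ_of_le hj1)))
      exact le_of_eq (if_pos hj2).symm
    · exact Finset.sum_nonneg fun i _ => by split_ifs <;> positivity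
  refine hcover.trans ?_
  have hceil : (⌈L⌉₊ : ℝ) < L + 1 := Nat.ceil_lt_add_one (by linarith)
  calc ∑ j ∈ Finset.range (⌈L⌉₊ + 1),
        ∑ k ∈ (Finset.Icc 1 X).filter (fun k => E ≤ |(Nle k (j:ℕ) : ℝ) - (j:ℕ)|), (1:ℝ) / k
      ≤ ∑ _j ∈ Finset.range (⌈L⌉₊ + 1), 2 * exp (L + C - r / 128) := by
        refine Finset.sum_le_sum fun j hj => ?_
        have hj' : (j:ℝ) ≤ L + 1 := by
          have : (j:ℝ) ≤ ⌈L⌉₊ := by exact_mod_cast Nat.le_of_lt_succ (Finset.mem_range.mp hj)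
          linarith
        refine (hdev L j δ E (by linarith) (Nat.cast_nonneg j) hj' (le_trans (by positivity) hElow)
          hδ0 hδ2 _ fun k hk => ?_).trans ?_
        · obtain ⟨hk1, hk2⟩ := Finset.mem_filter.mp hk
          refine ⟨⟨(Finset.mem_Icc.mp hk1).1 |> fun h => by omega, fun q hq hqk => ?_⟩, hk2⟩
          exact sc_le_LL hq.two_le
            ((Nat.le_of_dvd (Finset.mem_Icc.mp hk1).1 hqk).trans (Finset.mem_Icc.mp hk1).2)
        · gcongr 2 * ?_
          exact exp_le_exp.mpr (hexpo j hj')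
    _ = ((⌈L⌉₊ : ℝ) + 1) * (2 * exp (L + C - r / 128)) := by simp
    _ ≤ 6 * exp C * L * exp (L - r / 128) := by
        rw [show L + C - r / 128 = C + (L - r / 128) by ring, exp_add]
        have : 0 ≤ exp C * exp (L - r / 128) := by positivity
        nlinarith
    _ ≤ exp (1 / 256 * r) * exp (L - r / 128) := by
        refine mul_le_mul_of_nonneg_right ?_ (exp_pos _).le
        have := hU1 L ((le_max_left _ _).trans hX)
        rw [pow_one, ← hr] at this
        exact this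
    _ = exp (L - r / 256) := by rw [← exp_add]; ring_nf

/-- The abnormal primes with a large prime in `p - 1`. -/
lemma abn_rough : ∃ U : ℝ, ∀ X : ℕ, U ≤ LL X →
    (((Finset.Icc 1 X).filter fun p => p.Prime ∧ Nat.sqrt X < p ∧ ¬ Normal p ∧
        ¬ Smooth (LL X - 2 * log (LL X)) (p - 1)).card : ℝ)
      ≤ X / log X * exp (-(LL X ^ (1 / 3 : ℝ) / 512)) := by
  obtain ⟨C, hsieve⟩ := sieve_two
  obtain ⟨U1, hbad⟩ := badCof_sum
  obtain ⟨U2, hU2⟩ := eventually_atTop.mp
    (rpow_third_eventually ((C:ℝ) * 2 ^ C * 8) (C + 4) (show (0:ℝ) < 1 / 512 by norm_num))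
  refine ⟨max (max U1 U2) 64, fun X hX => ?_⟩
  set L := LL X with hL
  have hL64 : 64 ≤ L := (le_max_right _ _).trans hX
  obtain ⟨hlog, hX1⟩ := exp_LL (X := X) (by linarith)
  have hexpL : L ^ 2 * 4 ≤ exp L := by
    have h := pow_div_factorial_le_exp L (by linarith) 3
    simp only [Nat.factorial] at h
    push_cast at h
    nlinarith
  set S := (Finset.Icc 1 X).filter fun p => p.Prime ∧ Nat.sqrt X < p ∧ ¬ Normal p ∧
    ¬ Smooth (L - 2 * log L) (p - 1) with hS
  set P := (badCof X ×ˢ Finset.range (X + 1)).filter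
    fun x : ℕ × ℕ => (x.1:ℝ) * 2 ^ x.2 ≤ X ∧ exp L / L ^ 2 ≤ (((x.2:ℝ) + 1) * log 2) with hP
  set T : ℕ × ℕ → Finset ℕ := fun x => ((Finset.Ioc (2 ^ x.2) (2 * 2 ^ x.2)).filter
    fun t => t.Prime ∧ (x.1 * t + 1).Prime).image fun t => x.1 * t + 1 with hT
  have hsub : S ⊆ P.biUnion T := by
    intro p hp
    obtain ⟨hpX, hpp, hsqrt, hnorm, hns⟩ := Finset.mem_filter.mp hp
    have hpX' : p ≤ X := (Finset.mem_Icc.mp hpX).2
    have hp2 := hpp.two_le
    obtain ⟨t, ht, htd, hsct⟩ : ∃ t : ℕ, t.Prime ∧ t ∣ p - 1 ∧ L - 2 * log L < sc t := by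
      by_contra hcon
      push Not at hcon
      exact hns ⟨by omega, fun q hq hqd => hcon q hq hqd⟩
    obtain ⟨k, hk⟩ := htd
    have hk0 : k ≠ 0 := by rintro rfl; simp at hk; omega
    have hkX : k ≤ X := by
      have : 1 * k ≤ t * k := Nat.mul_le_mul_right k ht.one_le
      omega
    set u := sc p with hu
    have huL : u ≤ L := sc_le_LL hp2 hpX'
    have huL1 : L - 1 ≤ u := by
      have h1 : X < p * p := Nat.sqrt_lt.mp hsqrt
      have h2 : log (X:ℝ) ≤ 2 * log (p:ℝ) := by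
        have h3 : (X:ℝ) ≤ (p:ℝ) * p := by exact_mod_cast h1.le
        have := log_le_log (by linarith : (0:ℝ) < X) h3
        rw [log_mul (by positivity) (by positivity)] at this
        linarith
      have hp2' : (2:ℝ) ≤ p := by exact_mod_cast hp2
      have hlp : 0 < log (p:ℝ) := log_pos (by linarith)
      have : L ≤ log 2 + u := by
        rw [hL, hu, LL, sc, ← log_mul (by norm_num) hlp.ne']
        exact log_le_log (by rw [← hlog]; exact exp_pos _) h2
      linarith [log_two_lt_d9]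
    have hgood : ∃ q : ℕ, q.Prime ∧ q ∣ p - 1 ∧ u - 3 * log (u + 2) ≤ sc q := by
      refine ⟨t, ht, ⟨k, hk⟩, le_trans ?_ hsct.le⟩
      have h1 : log L ≤ log (u + 2) := log_le_log (by linarith) (by linarith)
      linarith [log_nonneg (show (1:ℝ) ≤ L by linarith)]
    obtain ⟨v, hv0, hvu, hv⟩ : ∃ v : ℝ, 0 ≤ v ∧ v ≤ u ∧
        Dv u < |(Nle (p - 1) v : ℝ) - v| := by
      by_contra hcon
      push Not at hcon
      exact hnorm ⟨fun v h0 h1 => hcon v h0 h1, hgood⟩
    have hDv : Dv (L - 1) ≤ Dv u := Real.rpow_le_rpow (by linarith) huL1 (by norm_num)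
    rw [hk, mul_comm, Nle_mul_prime hk0 ht] at hv
    have hkbad : k ∈ badCof X := by
      refine Finset.mem_filter.mpr ⟨Finset.mem_Icc.mpr ⟨by omega, hkX⟩, ?_⟩
      have hv' : Dv (L - 1) - 1 < |(Nle k v : ℝ) - v| := by
        push_cast at hv
        have : |(Nle k v : ℝ) + (if sc t ≤ v then (1:ℝ) else 0) - v| ≤ |(Nle k v : ℝ) - v| + 1 := by
          split_ifs
          · calc |(Nle k v : ℝ) + 1 - v| = |((Nle k v : ℝ) - v) + 1| := by ring_nf
              _ ≤ |(Nle k v : ℝ) - v| + |(1:ℝ)| := abs_add_le _ _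
              _ = _ := by rw [abs_one]
          · simp
        linarith
      rcases le_or_gt v (Nle k v : ℝ) with h | h
      · rw [abs_of_nonneg (by linarith)] at hv'
        refine ⟨⌈v⌉₊, Nat.ceil_mono (hvu.trans huL), le_trans ?_ (le_abs_self _)⟩
        have := Nat.ceil_lt_add_one hv0
        have : (Nle k v : ℝ) ≤ Nle k (⌈v⌉₊ : ℝ) := by exact_mod_cast Nle_mono k (Nat.le_ceil v)
        linarith
      · rw [abs_of_neg (by linarith)] at hv'
        refine ⟨⌊v⌋₊, (Nat.floor_le_ceil v).trans (Nat.ceil_mono (hvu.trans huL)),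
          le_trans ?_ (neg_le_abs _)⟩
        have := Nat.lt_floor_add_one v
        have : (Nle k (⌊v⌋₊ : ℝ) : ℝ) ≤ Nle k v := by exact_mod_cast Nle_mono k (Nat.floor_le hv0)
        linarith
    have ht2 := ht.two_le
    obtain ⟨i, hi1, hi2⟩ : ∃ i : ℕ, 2 ^ i < t ∧ t ≤ 2 * 2 ^ i :=
      ⟨Nat.log 2 (t - 1), by have := Nat.pow_log_le_self 2 (show t - 1 ≠ 0 by omega); omega, by
        have := Nat.lt_pow_succ_log_self (show 1 < 2 by norm_num) (t - 1)
        rw [pow_succ] at this; omega⟩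
    have hk2 : k * 2 ^ i ≤ X := by
      have := Nat.mul_le_mul_left k hi1.le
      rw [mul_comm k t] at this
      omega
    refine Finset.mem_biUnion.mpr ⟨(k, i), Finset.mem_filter.mpr ⟨Finset.mem_product.mpr
      ⟨hkbad, Finset.mem_range.mpr ?_⟩, by dsimp only; exact_mod_cast hk2, ?_⟩, ?_⟩
    · have := Nat.lt_two_pow_self (n := i)
      have : 1 * 2 ^ i ≤ k * 2 ^ i := Nat.mul_le_mul_right _ (by omega)
      omega
    · have hltpos : 0 < log (t:ℝ) := log_pos (by exact_mod_cast ht.one_lt)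
      have hlt : exp L / L ^ 2 ≤ log (t:ℝ) := by
        have e : log (t:ℝ) = exp (sc t) := by rw [sc, exp_log hltpos]
        rw [e]
        refine le_trans (le_of_eq ?_) (exp_le_exp.mpr hsct.le)
        rw [exp_sub, show 2 * log L = log (L ^ 2) by rw [log_pow]; push_cast; ring,
          exp_log (by positivity)]
      refine hlt.trans ?_
      have h3 : (t:ℝ) ≤ (2:ℝ) ^ (i + 1) := by
        rw [pow_succ']; exact_mod_cast hi2
      have := log_le_log (by exact_mod_cast ht.pos) h3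
      rw [log_pow] at this
      push_cast at this
      exact this
    · refine Finset.mem_image.mpr ⟨t, Finset.mem_filter.mpr ⟨Finset.mem_Ioc.mpr ⟨hi1, hi2⟩, ht, ?_⟩,
        ?_⟩
      all_goals dsimp only
      all_goals rw [mul_comm, ← hk, Nat.sub_add_cancel (by omega)]
      exact hpp
  set B := (C:ℝ) * (2 * L) ^ C * (4 * L ^ 4) / exp L ^ 2 with hB
  have hB0 : 0 ≤ B := by positivity
  have hterm : ∀ x ∈ P, ((T x).card : ℝ) ≤ B * 2 ^ x.2 := by
    intro x hx
    obtain ⟨hx1, hx2, hx3⟩ := Finset.mem_filter.mp hx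
    obtain ⟨hxb, -⟩ := Finset.mem_product.mp hx1
    have hk1 : 1 ≤ x.1 := (Finset.mem_Icc.mp (Finset.mem_filter.mp hxb).1).1
    have hk1' : (1:ℝ) ≤ x.1 := by exact_mod_cast hk1
    have hkX : (x.1:ℝ) ≤ X := by
      exact_mod_cast (Finset.mem_Icc.mp (Finset.mem_filter.mp hxb).1).2
    have hM : (2:ℝ) ^ x.2 ≤ X :=
      (le_mul_of_one_le_left (by positivity) hk1').trans hx2
    have hlM : exp L / (2 * L ^ 2) ≤ log ((2:ℝ) ^ x.2) := by
      rw [log_pow]
      have h2 : (2:ℝ) ≤ exp L / (2 * L ^ 2) := by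
        rw [le_div_iff₀ (by positivity)]; linarith
      have h3 : exp L / L ^ 2 = 2 * (exp L / (2 * L ^ 2)) := by field_simp
      nlinarith [log_two_lt_d9]
    have hi2 : 2 ≤ x.2 := by
      by_contra hcon
      have : (x.2:ℝ) ≤ 1 := by exact_mod_cast (show x.2 ≤ 1 by omega)
      have h2 : (2:ℝ) ≤ exp L / (2 * L ^ 2) := by
        rw [le_div_iff₀ (by positivity)]; linarith
      rw [log_pow] at hlM
      nlinarith [log_two_lt_d9, log_pos (show (1:ℝ) < 2 by norm_num)]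
    have hM3 : 3 ≤ 2 ^ x.2 := by
      calc 3 ≤ 2 ^ 2 := by norm_num
        _ ≤ 2 ^ x.2 := Nat.pow_le_pow_right (by norm_num) hi2
    have hc : ((T x).card : ℝ) ≤ (C:ℝ) * ((2 ^ x.2 : ℕ) : ℝ) * Wl (2 ^ x.2) x.1 x.1 ^ C
        / log ((2 ^ x.2 : ℕ) : ℝ) ^ 2 :=
      le_trans (Nat.cast_le.mpr Finset.card_image_le) (hsieve _ _ hM3 hk1)
    push_cast at hc
    refine hc.trans ?_
    have hl0 : 0 ≤ log ((2:ℝ) ^ x.2) := le_trans (by positivity) hlM
    have hl2 : 0 ≤ log ((x.1:ℝ) + x.1) := log_nonneg (by linarith)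
    have hW : Wl (2 ^ x.2) x.1 x.1 ≤ 2 * L ∧ 0 ≤ Wl (2 ^ x.2) x.1 x.1 := by
      simp only [Wl]; push_cast
      refine ⟨?_, add_nonneg (log_nonneg (by linarith)) zero_le_one⟩
      have h1 : log ((2:ℝ) ^ x.2) + log ((x.1:ℝ) + x.1) + 3 ≤ exp (L + 2) := by
        have a1 := log_le_log (show (0:ℝ) < (2:ℝ) ^ x.2 by positivity) hM
        have a2 := log_le_log (show (0:ℝ) < (x.1:ℝ) + x.1 by linarith)
          (show (x.1:ℝ) + x.1 ≤ 2 * X by linarith)
        rw [log_mul (by norm_num) (by linarith)] at a2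
        rw [exp_add, hlog]
        have a3 : (7:ℝ) ≤ exp 2 := by
          rw [show (2:ℝ) = 1 + 1 by norm_num, exp_add]; nlinarith [exp_one_gt_d9]
        have a4 : (4:ℝ) ≤ log (X:ℝ) := by rw [← hlog]; nlinarith
        nlinarith [log_two_lt_d9]
      have := log_le_log (by linarith) h1
      rw [log_exp] at this
      linarith
    calc (C:ℝ) * 2 ^ x.2 * Wl (2 ^ x.2) x.1 x.1 ^ C / log ((2:ℝ) ^ x.2) ^ 2
        ≤ (C:ℝ) * 2 ^ x.2 * (2 * L) ^ C / (exp L / (2 * L ^ 2)) ^ 2 := by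
          refine div_le_div₀ (by positivity) ?_ (by positivity)
            (pow_le_pow_left₀ (by positivity) hlM 2)
          exact mul_le_mul_of_nonneg_left (pow_le_pow_left₀ hW.2 hW.1 C) (by positivity)
      _ = B * 2 ^ x.2 := by rw [hB]; field_simp; ring
  have h1 : (S.card : ℝ) ≤ ∑ x ∈ P, B * 2 ^ x.2 := by
    refine le_trans ?_ (Finset.sum_le_sum hterm)
    exact_mod_cast (Finset.card_le_card hsub).trans Finset.card_biUnion_le
  refine h1.trans ?_
  have h2 : ∑ x ∈ P, B * 2 ^ x.2 ≤ B * (2 * X) * ∑ k ∈ badCof X, (1:ℝ) / k := by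
    rw [← Finset.mul_sum, hP, Finset.sum_filter, Finset.sum_product, mul_assoc]
    refine mul_le_mul_of_nonneg_left ?_ hB0
    rw [Finset.mul_sum]
    refine Finset.sum_le_sum fun k hk => ?_
    have hk1 : (1:ℝ) ≤ k := by
      exact_mod_cast (Finset.mem_Icc.mp (Finset.mem_filter.mp hk).1).1
    rw [← Finset.sum_filter, show 2 * (X:ℝ) * (1 / k) = 2 * (X / k) by ring]
    refine two_pow_sum_le (fun i hi => ?_) (by positivity)
    rw [le_div_iff₀ (by linarith), mul_comm]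
    exact (Finset.mem_filter.mp hi).2.1
  refine h2.trans ?_
  refine (mul_le_mul_of_nonneg_left (hbad X ((le_max_left _ _).trans ((le_max_left _ _).trans hX)))
    (by positivity)).trans ?_
  have h3 := hU2 L ((le_max_right _ _).trans ((le_max_left _ _).trans hX))
  rw [← hlog]
  calc B * (2 * X) * exp (L - L ^ (1 / 3 : ℝ) / 256)
      = (X:ℝ) / exp L * ((C:ℝ) * 2 ^ C * 8 * L ^ (C + 4)) * exp (-(L ^ (1 / 3 : ℝ) / 256)) := by
        rw [hB, exp_sub, exp_neg, mul_pow, pow_add]; field_simp; ring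
    _ ≤ (X:ℝ) / exp L * exp (1 / 512 * L ^ (1 / 3 : ℝ)) * exp (-(L ^ (1 / 3 : ℝ) / 256)) := by
        gcongr
    _ = _ := by rw [mul_assoc, ← exp_add, hL]; ring_nf

theorem abn_count : ∃ c U : ℝ, 0 < c ∧ ∀ X : ℕ, U ≤ LL X →
    (((Finset.Icc 1 X).filter fun p => p.Prime ∧ ¬ Normal p).card : ℝ)
      ≤ X / log X * exp (-c * LL X ^ (1 / 3 : ℝ)) := by
  obtain ⟨U1, h1⟩ := smooth_count
  obtain ⟨U2, h2⟩ := abn_rough
  obtain ⟨U3, hU3⟩ := eventually_atTop.mp
    (rpow_third_eventually 3 0 (show (0:ℝ) < 1 / 1024 by norm_num))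
  refine ⟨1 / 1024, max (max U1 U2) (max U3 64), by norm_num, fun X hX => ?_⟩
  set L := LL X with hL
  have hL64 : 64 ≤ L := (le_max_right _ _).trans ((le_max_right _ _).trans hX)
  obtain ⟨hlog, hX1⟩ := exp_LL (X := X) (by linarith)
  set r := L ^ (1 / 3 : ℝ) with hr
  have hr0 : 0 ≤ r := rpow_nonneg (by linarith) _
  have hrL : r ≤ L := Real.rpow_le_self_of_one_le (by linarith) (by norm_num)
  have hlp : 0 < log (X:ℝ) := by rw [← hlog]; exact exp_pos _
  set Z := (X:ℝ) / log X * exp (-(r / 512)) with hZ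
  set S := (Finset.Icc 1 X).filter fun p => p.Prime ∧ ¬ Normal p with hS
  set A := Finset.Icc 1 (Nat.sqrt X)
  set B := (Finset.Icc 1 (X * ⌈log (X : ℝ)⌉₊ ^ 2)).filter fun n => Smooth (L - 2 * log L) n with hB
  set R := (Finset.Icc 1 X).filter fun p => p.Prime ∧ Nat.sqrt X < p ∧ ¬ Normal p ∧
        ¬ Smooth (L - 2 * log L) (p - 1)
  have hcard : S.card ≤ A.card + B.card + R.card := by
    calc S.card ≤ (A ∪ B.image (· + 1) ∪ R).card := by
          refine Finset.card_le_card fun p hp => ?_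
          obtain ⟨hp1, hpp, hn⟩ := Finset.mem_filter.mp hp
          simp only [Finset.mem_union]
          by_cases h : p ≤ Nat.sqrt X
          · exact Or.inl (Or.inl (Finset.mem_Icc.mpr ⟨hpp.one_le, h⟩))
          by_cases hs : Smooth (L - 2 * log L) (p - 1)
          · refine Or.inl (Or.inr (Finset.mem_image.mpr ⟨p - 1,
              Finset.mem_filter.mpr ⟨Finset.mem_Icc.mpr ⟨?_, ?_⟩, hs⟩, ?_⟩))
            · have := hpp.two_le; omega
            · refine le_trans ((Nat.sub_le _ _).trans (Finset.mem_Icc.mp hp1).2) ?_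
              exact Nat.le_mul_of_pos_right X (pow_pos (Nat.ceil_pos.mpr hlp) 2)
            · have := hpp.two_le; omega
          · exact Or.inr (Finset.mem_filter.mpr ⟨hp1, hpp, Nat.lt_of_not_le h, hn, hs⟩)
      _ ≤ (A ∪ B.image (· + 1)).card + R.card := Finset.card_union_le _ _
      _ ≤ A.card + (B.image (· + 1)).card + R.card := by
          have := Finset.card_union_le A (B.image (· + 1)); omega
      _ ≤ _ := by have := Finset.card_image_le (s := B) (f := (· + 1)); omega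
  have hexp : L * 8 ≤ exp L := by
    have h := pow_div_factorial_le_exp L (by linarith) 2
    simp only [Nat.factorial] at h
    push_cast at h
    nlinarith
  have hA : (A.card : ℝ) ≤ Z := by
    have e : (X:ℝ) = exp (exp L) := by rw [hlog, exp_log (by linarith)]
    have h3 : (Nat.sqrt X : ℝ) ≤ exp (exp L / 2) := by
      rw [exp_half, ← e]; exact Real.nat_sqrt_le_real_sqrt
    simp only [A, Nat.card_Icc, add_tsub_cancel_right]
    refine h3.trans ?_
    rw [hZ, ← hlog, e, ← exp_sub, ← exp_add]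
    exact exp_le_exp.mpr (by linarith)
  have hBc : (B.card : ℝ) ≤ Z := by
    refine (h1 X ((le_max_left _ _).trans ((le_max_left _ _).trans hX))).trans ?_
    rw [hZ, ← hlog, pow_two, ← div_div, div_eq_mul_inv ((X:ℝ) / exp L), ← exp_neg]
    refine mul_le_mul_of_nonneg_left (exp_le_exp.mpr (by linarith)) (by positivity)
  have hR : (R.card : ℝ) ≤ Z :=
    h2 X ((le_max_right _ _).trans ((le_max_left _ _).trans hX))
  have h3 := hU3 L ((le_max_left _ _).trans ((le_max_right _ _).trans hX))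
  rw [pow_zero, mul_one] at h3
  calc (S.card : ℝ) ≤ (A.card : ℝ) + B.card + R.card := by exact_mod_cast hcard
    _ ≤ 3 * Z := by linarith
    _ ≤ exp (1 / 1024 * r) * Z := mul_le_mul_of_nonneg_right h3 (by positivity)
    _ = _ := by rw [hZ, mul_comm, mul_assoc, ← exp_add]; ring_nf

theorem abn_recip : ∃ c U : ℝ, 0 < c ∧ ∀ v : ℝ, U ≤ v →
    ∑ p ∈ (primesIn v (v + 1)).filter (fun p => ¬ Normal p), (1 : ℝ) / p
      ≤ exp (-c * v ^ (1 / 3 : ℝ)) := by
  obtain ⟨c, U, hc, hcount⟩ := abn_count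
  obtain ⟨U2, hU2⟩ := eventually_atTop.mp
    (rpow_third_eventually 12 0 (show (0:ℝ) < c / 2 by positivity))
  refine ⟨c / 2, max (max U U2) 1, by positivity, fun v hv => ?_⟩
  have hv1 : 1 ≤ v := (le_max_right _ _).trans hv
  set S := (primesIn v (v + 1)).filter (fun p => ¬ Normal p) with hS
  set r := v ^ (1 / 3 : ℝ) with hr
  have hmem : ∀ p ∈ S, p.Prime ∧ v < sc p ∧ sc p ≤ v + 1 ∧ ¬ Normal p := fun p hp => by
    obtain ⟨h1, h2⟩ := Finset.mem_filter.mp hp
    exact ⟨(Finset.mem_filter.mp h1).2.1, (Finset.mem_filter.mp h1).2.2.1,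
      (Finset.mem_filter.mp h1).2.2.2, h2⟩
  have hfib : ∀ i ∈ S.image (Nat.log 2),
      ∑ p ∈ S.filter (fun p => Nat.log 2 p = i), (1:ℝ) / p ≤ 2 * exp (-v) * exp (-c * r) := by
    intro i hi
    obtain ⟨p0, hp0, hp0i⟩ := Finset.mem_image.mp hi
    obtain ⟨hpp0, hv0, -, -⟩ := hmem p0 hp0
    set X := 2 ^ (i + 1) with hX
    have hpX : ∀ p, p ≠ 0 → Nat.log 2 p = i → p ≤ X ∧ X ≤ 2 * p := by
      intro p hp h
      rw [hX, ← h]
      refine ⟨(Nat.lt_pow_succ_log_self (by norm_num) p).le, ?_⟩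
      rw [pow_succ']
      exact Nat.mul_le_mul_left 2 (Nat.pow_log_le_self 2 hp)
    have hp0X := hpX p0 hpp0.ne_zero hp0i
    have hLX : v ≤ LL X := hv0.le.trans (sc_le_LL hpp0.two_le hp0X.1)
    obtain ⟨hlog, hX1⟩ := exp_LL (X := X) (by linarith)
    have hX0 : (0:ℝ) < X := by linarith
    calc ∑ p ∈ S.filter (fun p => Nat.log 2 p = i), (1:ℝ) / p
        ≤ ∑ _p ∈ S.filter (fun p => Nat.log 2 p = i), 2 / (X:ℝ) := by
          refine Finset.sum_le_sum fun p hp => ?_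
          obtain ⟨hp1, hp2⟩ := Finset.mem_filter.mp hp
          have hpp := (hmem p hp1).1
          have : (X:ℝ) ≤ 2 * p := by exact_mod_cast (hpX p hpp.ne_zero hp2).2
          rw [div_le_div_iff₀ (by exact_mod_cast hpp.pos) hX0]
          linarith
      _ = ((S.filter (fun p => Nat.log 2 p = i)).card : ℝ) * (2 / (X:ℝ)) := by simp
      _ ≤ ((X:ℝ) / log X * exp (-c * LL X ^ (1 / 3 : ℝ))) * (2 / (X:ℝ)) := by
          refine mul_le_mul_of_nonneg_right (le_trans (Nat.cast_le.mpr (Finset.card_le_card ?_))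
            (hcount X (((le_max_left _ _).trans ((le_max_left _ _).trans hv)).trans hLX)))
            (by positivity)
          intro p hp
          obtain ⟨hp1, hp2⟩ := Finset.mem_filter.mp hp
          obtain ⟨hpp, -, -, hn⟩ := hmem p hp1
          exact Finset.mem_filter.mpr
            ⟨Finset.mem_Icc.mpr ⟨hpp.one_le, (hpX p hpp.ne_zero hp2).1⟩, hpp, hn⟩
      _ = 2 * exp (-LL X) * exp (-c * LL X ^ (1 / 3 : ℝ)) := by
          rw [exp_neg, hlog]; field_simp
      _ ≤ 2 * exp (-v) * exp (-c * r) := by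
          have h5 : r ≤ LL X ^ (1 / 3 : ℝ) := Real.rpow_le_rpow (by linarith) hLX (by norm_num)
          have h6 : exp (-LL X) ≤ exp (-v) := exp_le_exp.mpr (by linarith)
          have h7 : exp (-c * LL X ^ (1 / 3 : ℝ)) ≤ exp (-c * r) :=
            exp_le_exp.mpr (by nlinarith)
          exact mul_le_mul (by linarith) h7 (exp_pos _).le (by positivity)
  have hnum : ((S.image (Nat.log 2)).card : ℝ) ≤ 6 * exp v := by
    have hsub : S.image (Nat.log 2) ⊆ Finset.range (⌊exp (v + 1) / log 2⌋₊ + 1) := by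
      intro i hi
      obtain ⟨p, hp, rfl⟩ := Finset.mem_image.mp hi
      obtain ⟨hpp, -, hle, -⟩ := hmem p hp
      refine Finset.mem_range.mpr (Nat.lt_succ_of_le (Nat.le_floor ?_))
      have hlp : 0 < log (p:ℝ) := log_pos (by exact_mod_cast hpp.one_lt)
      rw [le_div_iff₀ (log_pos (by norm_num))]
      calc (Nat.log 2 p : ℝ) * log 2 = log ((2:ℝ) ^ Nat.log 2 p) := by rw [log_pow]
        _ ≤ log (p:ℝ) := log_le_log (by positivity)
            (by exact_mod_cast Nat.pow_log_le_self 2 hpp.ne_zero)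
        _ = exp (sc p) := by rw [sc, exp_log hlp]
        _ ≤ _ := exp_le_exp.mpr hle
    have h1 : ((S.image (Nat.log 2)).card : ℝ) ≤ (⌊exp (v + 1) / log 2⌋₊ : ℝ) + 1 := by
      have := Finset.card_le_card hsub
      rw [Finset.card_range] at this
      exact_mod_cast this
    have h2 : (⌊exp (v + 1) / log 2⌋₊ : ℝ) ≤ 5 * exp v := by
      refine (Nat.floor_le (div_nonneg (exp_pos _).le (log_nonneg (by norm_num)))).trans ?_
      rw [div_le_iff₀ (log_pos (by norm_num)), exp_add]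
      nlinarith [exp_pos v, exp_one_lt_d9, log_two_gt_d9]
    linarith [one_le_exp (show (0:ℝ) ≤ v by linarith)]
  calc ∑ p ∈ S, (1:ℝ) / p
      = ∑ i ∈ S.image (Nat.log 2), ∑ p ∈ S.filter (fun p => Nat.log 2 p = i), (1:ℝ) / p :=
        (Finset.sum_fiberwise_of_maps_to (fun p hp => Finset.mem_image_of_mem _ hp) _).symm
    _ ≤ ∑ _i ∈ S.image (Nat.log 2), 2 * exp (-v) * exp (-c * r) := Finset.sum_le_sum hfib
    _ = ((S.image (Nat.log 2)).card : ℝ) * (2 * exp (-v) * exp (-c * r)) := by simp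
    _ ≤ 6 * exp v * (2 * exp (-v) * exp (-c * r)) :=
        mul_le_mul_of_nonneg_right hnum (by positivity)
    _ = 12 * exp (-c * r) := by rw [exp_neg]; field_simp; ring
    _ ≤ exp (c / 2 * r) * exp (-c * r) := by
        refine mul_le_mul_of_nonneg_right ?_ (exp_pos _).le
        have := hU2 v ((le_max_right _ _).trans ((le_max_left _ _).trans hv))
        rw [pow_zero, mul_one, ← hr] at this
        exact this
    _ = _ := by rw [← exp_add]; ring_nf

end Vale.Agent.P031
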