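import Vale.Agent.P031.Decay
import Vale.Agent.P031.NormalPrimes

/-!
# Totient values: integers with a bad node have tiny reciprocal mass
-/

open Finset Real Filter
open scoped Classical

noncomputable section

namespace Vale.Agent.P031

/-! ### counting prime factors -/

lemma Nbt_mul {a b : ℕ} (ha : a ≠ 0) (hb : b ≠ 0) (s v : ℝ) :
    Nbt (a * b) s v = Nbt a s v + Nbt b s v := by
  rw [Nbt, Nbt, Nbt, ((Nat.perm_primeFactorsList_mul ha hb).filter _).length_eq,
    List.filter_append, List.length_append]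

lemma Nle_mono' (m : ℕ) {v w : ℝ} (h : v ≤ w) : Nle m v ≤ Nle m w := by
  rw [Nle, Nle, ← List.countP_eq_length_filter, ← List.countP_eq_length_filter]
  refine List.countP_mono_left fun q _ hq => ?_
  simp only [decide_eq_true_eq] at hq ⊢
  linarith

lemma Nbt_add_Nle (m : ℕ) {s v : ℝ} (h : s ≤ v) : Nbt m s v + Nle m s = Nle m v := by
  rw [Nbt, Nle, Nle]
  induction m.primeFactorsList with
  | nil => simp
  | cons a t ih =>
    by_cases h1 : sc a ≤ s
    · have h2 : sc a ≤ v := h1.trans h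
      simp [h1, h2, not_lt.2 h1] at ih ⊢; omega
    · by_cases h2 : sc a ≤ v
      · simp [h1, h2, not_le.1 h1] at ih ⊢; omega
      · simp [h1, h2] at ih ⊢; omega

lemma Nle_pred_const {p : ℕ} (hp : p.Prime) {v : ℝ} (h : sc p ≤ v) :
    Nle (p - 1) v = Nle (p - 1) (sc p) := by
  have h2 := hp.two_le
  rw [Nle, Nle]
  congr 1
  refine List.filter_congr fun q hq => ?_
  have hqp : q ≤ p := (Nat.le_of_dvd (by omega) (Nat.dvd_of_mem_primeFactorsList hq)).trans
    (Nat.sub_le _ _)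
  have hq2 := (Nat.prime_of_mem_primeFactorsList hq).two_le
  simp [sc_mono hq2 hqp, (sc_mono hq2 hqp).trans h]

lemma Normal.lower {p : ℕ} (hN : Normal p) (hp : p.Prime) (h0 : 0 ≤ sc p)
    {v v0 : ℝ} (hv : 0 ≤ v) (hv0 : 0 ≤ v0) :
    min v (sc p) - 2 * Dv (sc p) - v0 ≤ (Nbt (p - 1) v0 v : ℝ) := by
  have hD : 0 ≤ Dv (sc p) := rpow_nonneg h0 _
  rcases lt_or_ge v v0 with h | h
  · have := min_le_left v (sc p)
    have : (0 : ℝ) ≤ (Nbt (p - 1) v0 v : ℝ) := Nat.cast_nonneg _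
    linarith
  have h1 : min v (sc p) - Dv (sc p) ≤ (Nle (p - 1) v : ℝ) := by
    have := abs_le.1 (hN.1 (min v (sc p)) (le_min hv h0) (min_le_right _ _))
    have h2 : (Nle (p - 1) (min v (sc p)) : ℝ) ≤ Nle (p - 1) v := by
      exact_mod_cast Nle_mono' _ (min_le_left _ _)
    linarith [this.1]
  have h2 : (Nle (p - 1) v0 : ℝ) ≤ v0 + Dv (sc p) := by
    rcases le_or_gt v0 (sc p) with hle | hgt
    · linarith [(abs_le.1 (hN.1 v0 hv0 hle)).2]
    · rw [Nle_pred_const hp hgt.le]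
      linarith [(abs_le.1 (hN.1 (sc p) h0 le_rfl)).2]
  have h3 : (Nbt (p - 1) v0 v : ℝ) + Nle (p - 1) v0 = Nle (p - 1) v := by
    exact_mod_cast Nbt_add_Nle (p - 1) h
  linarith

lemma Nbt_one (s v : ℝ) : Nbt 1 s v = 0 := by simp [Nbt]

lemma pred_prod_ne_zero {l : List ℕ} (h : ∀ q ∈ l, q.Prime) :
    (l.map fun q => q - 1).prod ≠ 0 := by
  refine List.prod_ne_zero ?_
  simp only [List.mem_map, not_exists, not_and]
  intro q hq
  have := (h q hq).two_le
  omega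

lemma Normal.lower_list {l : List ℕ} {u v v0 : ℝ} (hv : 0 ≤ v) (hv0 : 0 ≤ v0)
    (h : ∀ q ∈ l, q.Prime ∧ Normal q ∧ 0 ≤ sc q ∧ sc q ≤ u) :
    (l.map fun q => min v (sc q)).sum - (l.length : ℝ) * (2 * Dv u + v0)
      ≤ (Nbt (l.map fun q => q - 1).prod v0 v : ℝ) := by
  induction l with
  | nil => simp [Nbt_one]
  | cons q t ih =>
    obtain ⟨hq, hN, h0, hu⟩ := h q (List.mem_cons_self)
    have ht := ih fun r hr => h r (List.mem_cons_of_mem _ hr)
    have h1 := hN.lower hq h0 hv hv0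
    have hD : Dv (sc q) ≤ Dv u := rpow_le_rpow h0 hu (by norm_num)
    have hne : q - 1 ≠ 0 := by have := hq.two_le; omega
    have hne' := pred_prod_ne_zero (l := t) fun r hr => (h r (List.mem_cons_of_mem _ hr)).1
    simp only [List.map_cons, List.prod_cons, List.sum_cons, List.length_cons,
      Nbt_mul hne hne', Nat.cast_add, Nat.cast_one]
    linarith

/-- Split off simple prime factors from the totient. -/
lemma totient_split {n : ℕ} (hn : n ≠ 0) {l : List ℕ} (hd : l.Nodup)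
    (h : ∀ q ∈ l, q.Prime ∧ q ∣ n ∧ ¬ q ^ 2 ∣ n) :
    ∃ r, r ∣ n ∧ Nat.totient n = (l.map fun q => q - 1).prod * Nat.totient r ∧
      (∀ q ∈ l, ¬ q ∣ r) ∧ (∀ q : ℕ, q.Prime → q ∣ n → q ∉ l → q ∣ r) ∧ n = l.prod * r := by
  induction l generalizing n with
  | nil => exact ⟨n, dvd_rfl, by simp, by simp, fun q _ hq _ => hq, by simp⟩
  | cons q t ih =>
    obtain ⟨hq, hqn, hq2⟩ := h q List.mem_cons_self
    obtain ⟨hqt, htd⟩ := List.nodup_cons.1 hd
    obtain ⟨m, rfl⟩ := hqn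
    have hqm : ¬ q ∣ m := fun hqm => hq2 (by rw [pow_two]; exact mul_dvd_mul_left q hqm)
    have hm : m ≠ 0 := fun h0 => hn (by simp [h0])
    have ht : ∀ r ∈ t, r.Prime ∧ r ∣ m ∧ ¬ r ^ 2 ∣ m := by
      intro r hr
      obtain ⟨h1, h2, h3⟩ := h r (List.mem_cons_of_mem _ hr)
      have hne : r ≠ q := fun e => hqt (e ▸ hr)
      refine ⟨h1, ?_, fun hh => h3 (hh.mul_left q)⟩
      rcases h1.dvd_mul.1 h2 with h4 | h4
      · exact absurd ((Nat.prime_dvd_prime_iff_eq h1 hq).1 h4) hne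
      · exact h4
    obtain ⟨r, hr1, hr2, hr3, hr4, hr5⟩ := ih hm htd ht
    refine ⟨r, hr1.mul_left q, ?_, ?_, ?_, by rw [List.prod_cons, mul_assoc, ← hr5]⟩
    · rw [Nat.totient_mul ((hq.coprime_iff_not_dvd).2 hqm), Nat.totient_prime hq, hr2,
        List.map_cons, List.prod_cons]
      ring
    · intro s hs
      rcases List.mem_cons.1 hs with rfl | hs
      · exact fun hh => hqm (hh.trans hr1)
      · exact hr3 s hs
    · intro s hs hsn hsl
      rw [List.mem_cons, not_or] at hsl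
      rcases hs.dvd_mul.1 hsn with h4 | h4
      · exact absurd ((Nat.prime_dvd_prime_iff_eq hs hq).1 h4) hsl.1
      · exact hr4 s hs h4 hsl.2

lemma smooth_pred_prod {u : ℝ} {l : List ℕ} (h : ∀ q ∈ l, q.Prime ∧ sc q ≤ u) :
    Smooth u (l.map fun q => q - 1).prod := by
  induction l with
  | nil => simpa using smooth_one u
  | cons q t ih =>
    obtain ⟨hq, hu⟩ := h q List.mem_cons_self
    rw [List.map_cons, List.prod_cons]
    refine Smooth.mul ⟨by have := hq.two_le; omega, fun r hr hd => ?_⟩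
      (ih fun r hr => h r (List.mem_cons_of_mem _ hr))
    have h2 := hq.two_le
    exact (sc_mono hr.two_le ((Nat.le_of_dvd (by omega) hd).trans (Nat.sub_le _ _))).trans hu

lemma below_mem {n p q : ℕ} (h : q ∈ below n p) :
    q.Prime ∧ q ∣ n ∧ Y0 (sc p) < sc q ∧ q < p := by
  have h1 := List.mem_filter.1 (List.mem_of_mem_take h)
  obtain ⟨a, b, -, d⟩ := mem_bigs.1 h1.1
  exact ⟨a, b, d, by simpa using h1.2⟩

lemma below_pairwise (n p : ℕ) : (below n p).Pairwise fun a b => b < a :=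
  ((bigs_pairwise _ n).filter _).sublist (List.take_sublist _ _)

/-- An overfull node with normal levels gives an overfull divisor. -/
lemma hasOver_node : ∀ᶠ u : ℝ in atTop, ∀ n p : ℕ, p.Prime → Normal p →
    (∀ q ∈ below n p, Normal q) → sc p ≤ u → u - 4 * log (u + 3) - 4 ≤ sc p →
    sc p + Del (sc p) < EntS (below n p) →
    HasOver u ((p - 1) * ((below n p).map fun q => q - 1).prod) := by
  filter_upwards [eventually_ge_atTop (100 : ℝ), eventually_Del_le (show (0:ℝ) < 1/2 by norm_num),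
    polylog_le_rpow 1 (show (0 : ℝ) < 3 / 4 by norm_num) 64,
    polylog_le_rpow 1 (show (0 : ℝ) < 2 / 3 by norm_num) 8,
    polylog_le_rpow 1 (show (0 : ℝ) < 1 by norm_num) 16] with u hu hDu hlog hlogD hlin
  intro n p hp hN hbel hpu hpl hE
  simp only [pow_one, rpow_one] at hlog hlogD hlin
  have hL1 := log_ge_one (show (0 : ℝ) ≤ u by linarith)
  have hs : u / 2 ≤ sc p := by linarith
  have hmem : ∀ q ∈ below n p, q.Prime ∧ Normal q ∧ 0 ≤ sc q ∧ sc q ≤ u := fun q hq => by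
    obtain ⟨h1, h2, h3, h4⟩ := below_mem hq
    exact ⟨h1, hbel q hq, (Y0_nonneg (by linarith)).trans h3.le,
      (sc_mono h1.two_le h4.le).trans hpu⟩
  refine ⟨?_, (below n p).length, ?_, fun l => sc ((below n p).get l), ?_, ?_, ?_, ?_⟩
  · exact Smooth.mul (by simpa using smooth_pred_prod (l := [p]) (by simpa using ⟨hp, hpu⟩))
      (smooth_pred_prod fun q hq => ⟨(hmem q hq).1, (hmem q hq).2.2.2⟩)
  · exact (List.length_take_le _ _).trans (Kb_mono (by linarith) hpu)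
  · intro a b hab
    rcases hab.eq_or_lt with rfl | h
    · exact le_rfl
    · exact sc_mono (hmem _ (List.get_mem _ b)).1.two_le
        ((List.pairwise_iff_get.1 (below_pairwise n p)) a b h).le
  · exact fun l => ⟨(hmem _ (List.get_mem _ l)).2.2.1, (hmem _ (List.get_mem _ l)).2.2.2⟩
  · have h1 : EntF (fun l => sc ((below n p).get l)) = EntS (below n p) := rfl
    have h2 : Del u / 2 ≤ Del (sc p) := by
      calc Del u / 2 ≤ (1 / 2 : ℝ) ^ (3 / 4 : ℝ) * Del u := by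
            have : (1 / 2 : ℝ) ≤ (1 / 2 : ℝ) ^ (3 / 4 : ℝ) := by
              conv_lhs => rw [← rpow_one (1 / 2 : ℝ)]
              exact rpow_le_rpow_of_exponent_ge (by norm_num) (by norm_num) (by norm_num)
            nlinarith [Del_nonneg' (show (0:ℝ) ≤ u by linarith)]
        _ = Del (u / 2) := by rw [Del, Del, ← mul_rpow (by norm_num) (by linarith)]; ring_nf
        _ ≤ _ := Del_mono' (by linarith) hs
    have h3 : 64 * log (u + 3) ≤ Del u := hlog
    linarith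
  · intro v hv hvu
    have h0 : 0 ≤ sc p := by linarith
    have hv0 : (0 : ℝ) ≤ log (u + 3) := by linarith
    have hne : p - 1 ≠ 0 := by have := hp.two_le; omega
    rw [Nbt_mul hne (pred_prod_ne_zero fun q hq => (hmem q hq).1)]
    have h1 := hN.lower hp h0 hv hv0
    have h2 := Normal.lower_list hv hv0 hmem
    have hsum : ((below n p).map fun q => min v (sc q)).sum
        = ∑ l : Fin (below n p).length, min v (sc ((below n p).get l)) := by
      rw [← Fin.sum_univ_fun_getElem (below n p) fun q => min v (sc q)]; simp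
    have hk : ((below n p).length : ℝ) ≤ Kb u := by
      exact_mod_cast (List.length_take_le _ _).trans (Kb_mono h0 hpu)
    have hD : Dv (sc p) ≤ Dv u := rpow_le_rpow h0 hpu (by norm_num)
    have hmin : v - (4 * log (u + 3) + 4) ≤ min v (sc p) :=
      le_min (by linarith) (by linarith)
    have hlogD' : 8 * log (u + 3) ≤ Dv u := hlogD
    have hk2 := mul_le_mul_of_nonneg_right hk (show (0 : ℝ) ≤ 2 * Dv u + log (u + 3) by linarith)
    have hk3 := mul_le_mul_of_nonneg_left (show log (u + 3) ≤ Dv u by linarith)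
      (Nat.cast_nonneg (α := ℝ) (Kb u))
    push_cast
    rw [← hsum]
    linarith

/-! ### mass of bad nodes -/

lemma sum_union_nonneg {α : Type*} [DecidableEq α] {s t : Finset α} {f : α → ℝ}
    (hf : ∀ a, 0 ≤ f a) : ∑ a ∈ s ∪ t, f a ≤ ∑ a ∈ s, f a + ∑ a ∈ t, f a := by
  rw [← Finset.sum_union_inter]
  exact le_add_of_nonneg_right (Finset.sum_nonneg fun a _ => hf a)

lemma sum_biUnion_nonneg {α β : Type*} [DecidableEq β] {s : Finset α} {t : α → Finset β}
    {f : β → ℝ} (hf : ∀ a, 0 ≤ f a) : ∑ b ∈ s.biUnion t, f b ≤ ∑ a ∈ s, ∑ b ∈ t a, f b := by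
  classical
  induction s using Finset.induction_on with
  | empty => simp
  | @insert a s ha ih =>
    rw [Finset.biUnion_insert, Finset.sum_insert ha]
    exact (sum_union_nonneg hf).trans (add_le_add le_rfl ih)

lemma exp_neg_third_le {c x : ℝ} (hc : 0 < c) (hx : 0 < x) :
    exp (-c * x ^ (1 / 3 : ℝ)) ≤ 720 / c ^ 6 * (1 / x ^ 2) := by
  have h := pow_div_factorial_le_exp (c * x ^ (1 / 3 : ℝ)) (by positivity) 6
  have h1 : (c * x ^ (1 / 3 : ℝ)) ^ 6 = c ^ 6 * x ^ 2 := by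
    rw [mul_pow, ← rpow_natCast (x ^ (1 / 3 : ℝ)) 6, ← rpow_mul hx.le]
    norm_num
  rw [h1, show ((Nat.factorial 6 : ℕ) : ℝ) = 720 by norm_num [Nat.factorial]] at h
  rw [neg_mul, exp_neg]
  calc (exp (c * x ^ (1 / 3 : ℝ)))⁻¹ ≤ (c ^ 6 * x ^ 2 / 720)⁻¹ := inv_anti₀ (by positivity) h
    _ = _ := by field_simp

lemma sum_exp_third {c : ℝ} (hc : 0 < c) : ∃ C : ℝ, 0 < C ∧ ∀ Z : ℝ, 1 ≤ Z → ∀ M : ℕ,
    ∑ j ∈ Finset.range M, exp (-c * (Z + j) ^ (1 / 3 : ℝ)) ≤ C * exp (-(c / 2) * Z ^ (1/3:ℝ)) := by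
  refine ⟨720 / (c / 2) ^ 6 * 3, by positivity, fun Z hZ M => ?_⟩
  have hterm : ∀ j : ℕ, exp (-c * (Z + j) ^ (1 / 3 : ℝ))
      ≤ exp (-(c / 2) * Z ^ (1/3:ℝ)) * (720 / (c / 2) ^ 6 * (1 / ((j : ℝ) + 1) ^ 2)) := by
    intro j
    refine le_trans ?_ (mul_le_mul_of_nonneg_left
      (exp_neg_third_le (x := (j : ℝ) + 1) (half_pos hc) (by positivity)) (exp_nonneg _))
    rw [← exp_add, exp_le_exp]
    have h1 : Z ^ (1 / 3 : ℝ) ≤ (Z + j) ^ (1 / 3 : ℝ) :=
      rpow_le_rpow (by linarith) (le_add_of_nonneg_right j.cast_nonneg) (by norm_num)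
    have h2 : ((j : ℝ) + 1) ^ (1 / 3 : ℝ) ≤ (Z + j) ^ (1 / 3 : ℝ) :=
      rpow_le_rpow (by positivity) (by linarith) (by norm_num)
    nlinarith
  refine le_trans (Finset.sum_le_sum fun j _ => hterm j) ?_
  rw [← Finset.mul_sum, ← Finset.mul_sum, mul_comm (720 / (c / 2) ^ 6 * 3)]
  refine mul_le_mul_of_nonneg_left (mul_le_mul_of_nonneg_left ?_ (by positivity)) (exp_nonneg _)
  calc ∑ j ∈ Finset.range M, 1 / ((j : ℝ) + 1) ^ 2
      = ∑ i ∈ Finset.Ioc 0 M, ((i : ℝ) ^ 2)⁻¹ := by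
        refine Finset.sum_bij (fun j _ => j + 1) (fun j hj => ?_) (fun a _ b _ h => by simpa using h)
          (fun i hi => ⟨i - 1, ?_, ?_⟩) (fun j _ => by push_cast; simp)
        · simp at hj ⊢; omega
        · simp at hi ⊢; omega
        · simp at hi; omega
    _ ≤ ∑ i ∈ Finset.Ioo 0 (M + 1), ((i : ℝ) ^ 2)⁻¹ := le_of_eq (by congr 1)
    _ ≤ 2 / ((0 : ℕ) + 1) := sum_Ioo_inv_sq_le 0 (M + 1)
    _ ≤ 3 := by norm_num

/-- Values `φ (q ^ e)` of repeated or abnormal primes. -/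
def Fbad (Z u : ℝ) (N : ℕ) : Finset ℕ :=
  (Finset.Icc 1 N).filter fun a => ∃ q e : ℕ, q.Prime ∧ 1 ≤ e ∧ Z < sc q ∧ sc q ≤ u ∧
    (2 ≤ e ∨ ¬ Normal q) ∧ Nat.totient (q ^ e) = a

lemma primesIn_subset_cells {Z u : ℝ} :
    primesIn Z u ⊆ (Finset.range (⌊u - Z⌋₊ + 1)).biUnion
      fun j => primesIn (Z + j) (Z + j + 1) := by
  intro q hq
  obtain ⟨hp, h1, h2⟩ := mem_primesIn.1 hq
  have hc : 1 ≤ ⌈sc q - Z⌉₊ := Nat.one_le_ceil_iff.2 (by linarith)
  have h3 := Nat.le_ceil (sc q - Z)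
  have h4 := Nat.ceil_lt_add_one (show 0 ≤ sc q - Z by linarith)
  refine Finset.mem_biUnion.2 ⟨⌈sc q - Z⌉₊ - 1, Finset.mem_range.2 ?_,
    mem_primesIn.2 ⟨hp, ?_, ?_⟩⟩
  · have : ⌈sc q - Z⌉₊ - 1 ≤ ⌊u - Z⌋₊ := by
      refine Nat.le_floor ?_
      rw [Nat.cast_sub hc]; push_cast; linarith
    omega
  · rw [Nat.cast_sub hc]; push_cast; linarith
  · rw [Nat.cast_sub hc]; push_cast; linarith

lemma Fbad_mass : ∃ U : ℝ, ∀ Z u : ℝ, U ≤ Z → ∀ N : ℕ,
    ∑ a ∈ Fbad Z u N, (1 : ℝ) / a ≤ exp (-Z ^ (1 / 6 : ℝ)) := by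
  obtain ⟨c, U₀, hc, hA⟩ := abn_recip
  obtain ⟨C, hC, hsum⟩ := sum_exp_third hc
  obtain ⟨U₁, hU₁⟩ := eventually_atTop.1
    ((tendsto_rpow_atTop (show (0 : ℝ) < 1 / 6 by norm_num)).eventually_ge_atTop
      (max (6 / c) (log (2 * C + 8))))
  refine ⟨max (max U₀ U₁) 4, fun Z u hZ N => ?_⟩
  simp only [max_le_iff] at hZ
  obtain ⟨⟨hZ0, hZ1⟩, hZ4⟩ := hZ
  obtain ⟨hr1, hr2⟩ := max_le_iff.1 (hU₁ Z hZ1)
  set P := primesIn Z u with hP
  set P1 := P.filter fun q => ¬ Normal q with hP1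
  set E := Finset.Icc 2 (N + 1) with hE
  have hsub : Fbad Z u N ⊆ (P1.image fun q => Nat.totient q)
      ∪ ((P ×ˢ E).image fun x => Nat.totient (x.1 ^ x.2)) := by
    intro a ha
    simp only [Fbad, Finset.mem_filter, Finset.mem_Icc] at ha
    obtain ⟨⟨ha1, haN⟩, q, e, hq, he, hZq, hqu, hbad, hval⟩ := ha
    have hqP : q ∈ P := mem_primesIn.2 ⟨hq, hZq, hqu⟩
    rcases le_or_gt 2 e with h2 | h2
    · refine Finset.mem_union_right _ (Finset.mem_image.2 ⟨(q, e), ?_, hval⟩)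
      refine Finset.mem_product.2 ⟨hqP, Finset.mem_Icc.2 ⟨h2, ?_⟩⟩
      rw [Nat.totient_prime_pow hq (by omega)] at hval
      have h3 : e - 1 < q ^ (e - 1) := Nat.lt_pow_self hq.one_lt
      have h4 : q ^ (e - 1) ≤ a := by
        rw [← hval]; exact Nat.le_mul_of_pos_right _ (by have := hq.two_le; omega)
      omega
    · have he1 : e = 1 := by omega
      subst he1
      rw [pow_one] at hval
      exact Finset.mem_union_left _ (Finset.mem_image.2
        ⟨q, Finset.mem_filter.2 ⟨hqP, hbad.resolve_left (by omega)⟩, hval⟩)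
  have hrec : ∀ q ∈ P, (1 : ℝ) / Nat.totient q ≤ 2 * (1 / q) := by
    intro q hq
    obtain ⟨hp, -, -⟩ := mem_primesIn.1 hq
    rw [Nat.totient_prime hp, Nat.cast_sub hp.one_le]
    have : (2 : ℝ) ≤ q := by exact_mod_cast hp.two_le
    push_cast
    rw [mul_one_div, div_le_div_iff₀ (by linarith) (by linarith)]
    linarith
  have h1 : ∑ a ∈ P1.image (fun q => Nat.totient q), (1 : ℝ) / a
      ≤ 2 * C * exp (-(c / 2) * Z ^ (1/3:ℝ)) := by
    calc _ ≤ ∑ q ∈ P1, (1 : ℝ) / Nat.totient q :=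
          Finset.sum_image_le_of_nonneg (f := fun a : ℕ => (1 : ℝ) / a) fun q _ => by positivity
      _ ≤ ∑ q ∈ P1, 2 * ((1 : ℝ) / q) :=
          Finset.sum_le_sum fun q hq => hrec q (Finset.mem_of_mem_filter q hq)
      _ ≤ ∑ j ∈ Finset.range (⌊u - Z⌋₊ + 1),
          ∑ q ∈ (primesIn (Z + j) (Z + j + 1)).filter (fun q => ¬ Normal q), 2 * ((1:ℝ) / q) := by
          refine le_trans (Finset.sum_le_sum_of_subset_of_nonneg ?_ fun q _ _ => by positivity)
            (sum_biUnion_nonneg fun q => by positivity)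
          intro q hq
          obtain ⟨hqP, hqN⟩ := Finset.mem_filter.1 hq
          obtain ⟨j, hj, hqj⟩ := Finset.mem_biUnion.1 (primesIn_subset_cells hqP)
          exact Finset.mem_biUnion.2 ⟨j, hj, Finset.mem_filter.2 ⟨hqj, hqN⟩⟩
      _ ≤ ∑ j ∈ Finset.range (⌊u - Z⌋₊ + 1), 2 * exp (-c * (Z + j) ^ (1/3:ℝ)) := by
          refine Finset.sum_le_sum fun j _ => ?_
          rw [← Finset.mul_sum]
          exact mul_le_mul_of_nonneg_left
            (hA _ (hZ0.trans (le_add_of_nonneg_right j.cast_nonneg))) zero_le_two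
      _ ≤ _ := by
          rw [← Finset.mul_sum, mul_assoc 2 C]
          exact mul_le_mul_of_nonneg_left (hsum Z (by linarith) _) zero_le_two
  have h2 : ∑ a ∈ (P ×ˢ E).image (fun x => Nat.totient (x.1 ^ x.2)), (1 : ℝ) / a
      ≤ 8 * exp (-exp Z) := by
    calc _ ≤ ∑ x ∈ P ×ˢ E, (1 : ℝ) / Nat.totient (x.1 ^ x.2) :=
          Finset.sum_image_le_of_nonneg (f := fun a : ℕ => (1 : ℝ) / a) fun x _ => by positivity
      _ = ∑ q ∈ P, ∑ e ∈ E, (1 : ℝ) / Nat.totient (q ^ e) := Finset.sum_product ..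
      _ ≤ ∑ q ∈ P, 4 * ((q : ℝ) ^ 2)⁻¹ := by
          refine Finset.sum_le_sum fun q hq => ?_
          obtain ⟨hp, -, -⟩ := mem_primesIn.1 hq
          have h2' : (2 : ℝ) ≤ q := by exact_mod_cast hp.two_le
          have heq : ∀ e ∈ E, (1 : ℝ) / Nat.totient (q ^ e)
              = (1 / ((q : ℝ) - 1)) * (((q : ℝ)⁻¹) ^ (e - 1)) := by
            intro e he
            rw [Nat.totient_prime_pow hp (by have := (Finset.mem_Icc.1 he).1; omega)]
            rw [Nat.cast_mul, Nat.cast_pow, Nat.cast_sub hp.one_le, inv_pow]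
            push_cast; field_simp
          rw [Finset.sum_congr rfl heq, ← Finset.mul_sum]
          have hg : ∑ e ∈ E, ((q : ℝ)⁻¹) ^ (e - 1) ≤ 2 * (q : ℝ)⁻¹ := by
            calc ∑ e ∈ E, ((q : ℝ)⁻¹) ^ (e - 1)
                = ∑ i ∈ Finset.Ico 1 (N + 1), ((q : ℝ)⁻¹) ^ i := by
                  refine Finset.sum_bij (fun e _ => e - 1) (fun e he => ?_)
                    (fun a ha b hb h => ?_) (fun i hi => ⟨i + 1, ?_, ?_⟩) (fun e _ => rfl)
                  · simp [hE] at he ⊢; omega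
                  · simp [hE] at ha hb; omega
                  · simp [hE] at hi ⊢; omega
                  · simp
              _ ≤ (q : ℝ)⁻¹ ^ 1 / (1 - (q : ℝ)⁻¹) :=
                  geom_sum_Ico_le_of_lt_one (by positivity) (inv_lt_one_of_one_lt₀ (by linarith))
              _ ≤ _ := by
                  have : (q : ℝ)⁻¹ ≤ 1 / 2 := by rw [one_div]; exact inv_anti₀ two_pos h2'
                  rw [pow_one, div_le_iff₀ (by linarith)]
                  nlinarith [inv_nonneg.2 (show (0:ℝ) ≤ q by linarith)]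
          calc 1 / ((q : ℝ) - 1) * _ ≤ (2 * (q : ℝ)⁻¹) * (2 * (q : ℝ)⁻¹) := by
                refine mul_le_mul ?_ hg (Finset.sum_nonneg fun e _ => by positivity) (by positivity)
                rw [← div_eq_mul_inv, div_le_div_iff₀ (by linarith) (by linarith)]
                linarith
            _ = _ := by field_simp; ring
      _ ≤ ∑ q ∈ Finset.Ioo ⌊exp (exp Z)⌋₊ (⌊exp (exp u)⌋₊ + 1), 4 * ((q : ℝ) ^ 2)⁻¹ := by
          refine Finset.sum_le_sum_of_subset_of_nonneg ?_ fun q _ _ => by positivity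
          intro q hq
          obtain ⟨hp, hlo, hhi⟩ := mem_primesIn.1 hq
          exact Finset.mem_Ioo.2 ⟨(Nat.floor_lt (exp_nonneg _)).2 ((lt_sc_iff hp.two_le).1 hlo),
            Nat.lt_succ_of_le (Nat.le_floor ((sc_le_exp_iff hp.two_le).1 hhi))⟩
      _ ≤ 4 * (2 / ((⌊exp (exp Z)⌋₊ : ℝ) + 1)) := by
          rw [← Finset.mul_sum]
          exact mul_le_mul_of_nonneg_left (sum_Ioo_inv_sq_le _ _) (by norm_num)
      _ ≤ _ := by
          have := Nat.lt_floor_add_one (exp (exp Z))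
          rw [exp_neg (exp Z), ← mul_div_assoc, show (4 : ℝ) * 2 = 8 by norm_num, div_eq_mul_inv]
          exact mul_le_mul_of_nonneg_left (inv_anti₀ (exp_pos _) this.le) (by norm_num)
  have h3 : exp (-exp Z) ≤ exp (-(c / 2) * Z ^ (1/3:ℝ)) ∨
      exp (-exp Z) ≤ exp (-2 * Z ^ (1/6:ℝ)) := by
    refine Or.inr (exp_le_exp.2 ?_)
    have h4 : Z ^ (1 / 6 : ℝ) ≤ Z := by
      conv_rhs => rw [← rpow_one Z]
      exact rpow_le_rpow_of_exponent_le (by linarith) (by norm_num)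
    have h5 := Real.quadratic_le_exp_of_nonneg (show (0:ℝ) ≤ Z by linarith)
    nlinarith
  have h4 : exp (-(c / 2) * Z ^ (1/3:ℝ)) ≤ exp (-2 * Z ^ (1/6:ℝ)) := by
    refine exp_le_exp.2 ?_
    have h5 : Z ^ (1/3:ℝ) = Z ^ (1/6:ℝ) * Z ^ (1/6:ℝ) := by
      rw [← rpow_add (by linarith)]; norm_num
    rw [div_le_iff₀ hc] at hr1
    rw [h5]
    nlinarith [rpow_nonneg (show (0:ℝ) ≤ Z by linarith) (1/6:ℝ)]
  calc ∑ a ∈ Fbad Z u N, (1 : ℝ) / a ≤ _ :=
        Finset.sum_le_sum_of_subset_of_nonneg hsub fun a _ _ => by positivity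
    _ ≤ _ + _ := sum_union_nonneg fun a => by positivity
    _ ≤ (2 * C + 8) * exp (-2 * Z ^ (1/6:ℝ)) := by
        have h5 : exp (-exp Z) ≤ exp (-2 * Z ^ (1/6:ℝ)) := h3.elim (fun h => h.trans h4) id
        nlinarith
    _ ≤ _ := by
        rw [show exp (-Z ^ (1/6:ℝ)) = exp (Z ^ (1/6:ℝ)) * exp (-2 * Z ^ (1/6:ℝ)) by
          rw [← exp_add]; ring_nf]
        refine mul_le_mul_of_nonneg_right ?_ (exp_nonneg _)
        exact (exp_log (by positivity : (0:ℝ) < 2 * C + 8)).symm.trans_le (exp_le_exp.2 hr2)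

/-- A bad node above `Z` costs a super-polylogarithmic factor. -/
theorem bad_mass : ∃ U : ℝ, ∀ Z u : ℝ, U ≤ Z → ∀ N : ℕ, ∀ S : Finset ℕ,
    (∀ a ∈ S, a ≤ N ∧ ∃ n, Smooth u n ∧ Nat.totient n = a ∧ ∃ p ∈ bigs Z n, BadNode n p) →
    ∑ a ∈ S, (1 : ℝ) / a ≤ exp (-Z ^ (1 / 64 : ℝ)) * Gsum u N := by
  obtain ⟨U₁, hF⟩ := Fbad_mass
  obtain ⟨U₂, hO⟩ := overfull_recip
  obtain ⟨U₃, hN⟩ := eventually_atTop.1 hasOver_node
  obtain ⟨C, hC, hsum⟩ := sum_exp_third (show (0 : ℝ) < 1 / 16 by norm_num)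
  obtain ⟨U₄, hU₄⟩ := eventually_atTop.1
    (((tendsto_rpow_atTop (show (0:ℝ) < 3/16 by norm_num)).eventually_ge_atTop (max U₁ 1)).and
     (((tendsto_rpow_atTop (show (0:ℝ) < 1/64 by norm_num)).eventually_ge_atTop (log (C + 1))).and
      ((rpow_le_small (show (1/64:ℝ) < 1/32 by norm_num) (show (0:ℝ) < 1/2 by norm_num)).and
       (rpow_le_small (show (1/64:ℝ) < 1/3 by norm_num) (show (0:ℝ) < 1/64 by norm_num)))))
  refine ⟨max (max U₄ 4) (max U₂ U₃), fun Z u hZ N S hS => ?_⟩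
  simp only [max_le_iff] at hZ
  obtain ⟨⟨hZ4, hZ4'⟩, hZ2, hZ3⟩ := hZ
  obtain ⟨hA, hB, hD1, hD2⟩ := hU₄ Z hZ4
  obtain ⟨hA1, hA2⟩ := max_le_iff.1 hA
  set M := ⌊u - Z⌋₊ + 1
  set Bset := (Finset.range M).biUnion fun j : ℕ =>
    (Finset.Icc 1 N).filter fun b => HasOver (Z + j + 1) b with hBset
  have hkey : ∀ a ∈ S, ∃ x ∈ Fbad (Y0 Z) u N ∪ Bset, ∃ y ∈ Gset u N, a = x * y := by
    intro a ha
    obtain ⟨haN, n, hn, rfl, p, hp, hbad⟩ := hS a ha
    obtain ⟨hpp, hpn, -, hpZ⟩ := mem_bigs.1 hp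
    have hY : Y0 Z ≤ Y0 (sc p) := Y0_mono (by linarith) hpZ.le
    have hpY : Y0 Z < sc p := lt_of_le_of_lt (by
      calc Y0 Z ≤ Z ^ (1 : ℝ) := rpow_le_rpow_of_exponent_le (by linarith) (by norm_num)
        _ = Z := rpow_one Z) hpZ
    by_cases hex : ∃ q, q.Prime ∧ q ∣ n ∧ Y0 Z < sc q ∧ Bad1 n q
    · obtain ⟨q, hq, hqn, hqZ, hq1⟩ := hex
      obtain ⟨e, r, hqr, hner⟩ := Nat.exists_eq_pow_mul_and_not_dvd hn.1 q hq.ne_one
      have he : 1 ≤ e := by
        by_contra h0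
        have : e = 0 := by omega
        subst this; exact hqr (by simpa [hner] using hqn)
      have hmul : Nat.totient n = Nat.totient (q ^ e) * Nat.totient r := by
        rw [hner, Nat.totient_mul ((Nat.coprime_pow_left_iff (by omega) _ _).2
          ((hq.coprime_iff_not_dvd).2 hqr))]
      have hr : Smooth u r := hn.of_dvd (hner ▸ dvd_mul_left _ _)
      have hpos : 0 < Nat.totient r := Nat.totient_pos.2 (Nat.pos_of_ne_zero hr.1)
      have hpos' : 0 < Nat.totient (q ^ e) := Nat.totient_pos.2 (pow_pos hq.pos _)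
      refine ⟨_, Finset.mem_union_left _ ?_, _, totient_mem_Gset hr ?_, hmul⟩
      · simp only [Fbad, Finset.mem_filter, Finset.mem_Icc]
        refine ⟨⟨hpos', le_trans (Nat.le_mul_of_pos_right _ hpos) (hmul ▸ haN)⟩,
          q, e, hq, he, hqZ, hn.2 q hq hqn, ?_, rfl⟩
        rcases hq1 with h2 | h2
        · left
          by_contra he2
          have : e = 1 := by omega
          subst this
          rw [hner, pow_one, pow_two] at h2
          exact hqr ((Nat.mul_dvd_mul_iff_left hq.pos).1 h2)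
        · exact Or.inr h2
      · exact le_trans (Nat.le_mul_of_pos_left _ hpos') (hmul ▸ haN)
    · push_neg at hex
      have hnp : ¬ Bad1 n p := hex p hpp hpn hpY
      have hov : sc p + Del (sc p) < EntS (below n p) := hbad.resolve_left hnp
      have hbel : ∀ q ∈ below n p, q.Prime ∧ q ∣ n ∧ ¬ q ^ 2 ∣ n ∧ Normal q := fun q hq => by
        obtain ⟨h1, h2, h3, -⟩ := below_mem hq
        have h4 := hex q h1 h2 (lt_of_le_of_lt hY h3)
        exact ⟨h1, h2, fun hh => h4 (Or.inl hh), not_not.1 fun hh => h4 (Or.inr hh)⟩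
      have hd : (p :: below n p).Nodup := by
        refine List.nodup_cons.2 ⟨fun hh => absurd (below_mem hh).2.2.2 (lt_irrefl _), ?_⟩
        exact (below_pairwise n p).imp fun hab => (ne_of_lt hab).symm
      obtain ⟨r, hrn, hval, -, -, -⟩ := totient_split hn.1 hd (l := p :: below n p) (by
        intro q hq
        rcases List.mem_cons.1 hq with rfl | hq
        · exact ⟨hpp, hpn, fun hh => hnp (Or.inl hh)⟩
        · exact ⟨(hbel q hq).1, (hbel q hq).2.1, (hbel q hq).2.2.1⟩)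
      rw [List.map_cons, List.prod_cons] at hval
      have hr : Smooth u r := hn.of_dvd hrn
      have hpos : 0 < Nat.totient r := Nat.totient_pos.2 (Nat.pos_of_ne_zero hr.1)
      have hposb : 0 < (p - 1) * ((below n p).map fun q => q - 1).prod :=
        Nat.mul_pos (by have := hpp.two_le; omega)
          (Nat.pos_of_ne_zero (pred_prod_ne_zero fun q hq => (hbel q hq).1))
      refine ⟨_, Finset.mem_union_right _ ?_, _, totient_mem_Gset hr ?_, hval⟩
      · have hpu : p ∈ primesIn Z u := mem_primesIn.2 ⟨hpp, hpZ, hn.2 p hpp hpn⟩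
        obtain ⟨j, hj, hpj⟩ := Finset.mem_biUnion.1 (primesIn_subset_cells hpu)
        obtain ⟨-, hj1, hj2⟩ := mem_primesIn.1 hpj
        refine Finset.mem_biUnion.2 ⟨j, hj, Finset.mem_filter.2 ⟨Finset.mem_Icc.2
          ⟨hposb, le_trans (Nat.le_mul_of_pos_right _ hpos) (hval ▸ haN)⟩, ?_⟩⟩
        have hjj : (0 : ℝ) ≤ j := Nat.cast_nonneg j
        have hl : 0 ≤ log (Z + j + 1 + 3) := log_nonneg (by linarith)
        exact hN _ (by linarith) n p hpp (not_not.1 fun hh => hnp (Or.inr hh))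
          (fun q hq => (hbel q hq).2.2.2) hj2 (by linarith) hov
      · exact le_trans (Nat.le_mul_of_pos_left _ hposb) (hval ▸ haN)
  refine le_trans (sum_recip_le_mul S _ _ hkey) (mul_le_mul_of_nonneg_right ?_ (Gsum_nonneg u N))
  have hBm : ∑ b ∈ Bset, (1 : ℝ) / b ≤ C * exp (-(1/32) * Z ^ (1/3:ℝ)) := by
    calc ∑ b ∈ Bset, (1 : ℝ) / b
        ≤ ∑ j ∈ Finset.range M,
            ∑ b ∈ (Finset.Icc 1 N).filter (fun b => HasOver (Z + j + 1) b), (1 : ℝ) / b :=
          sum_biUnion_nonneg fun b => by positivity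
      _ ≤ ∑ j ∈ Finset.range M, exp (-(1/16) * (Z + j) ^ (1/3:ℝ)) := by
          refine Finset.sum_le_sum fun j _ => ?_
          have hjj : (0 : ℝ) ≤ j := Nat.cast_nonneg j
          refine le_trans (hO _ (by linarith) _ fun b hb => (Finset.mem_filter.1 hb).2) ?_
          refine exp_le_exp.2 ?_
          have h1 : (Z + j) ^ (1/3:ℝ) ≤ Del (Z + j + 1) := by
            refine le_trans (rpow_le_rpow_of_exponent_le (by linarith) (show (1/3:ℝ) ≤ 3/4 by norm_num))
              (rpow_le_rpow (by linarith) (by linarith) (by norm_num))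
          linarith
      _ ≤ _ := by
          refine (hsum Z (by linarith) M).trans (le_of_eq ?_)
          norm_num
  have hFm := hF (Y0 Z) u hA1 N
  have hYe : (Y0 Z) ^ (1/6:ℝ) = Z ^ (1/32:ℝ) := by
    rw [Y0, ← rpow_mul (by linarith)]; norm_num
  rw [hYe] at hFm
  have e1 : exp (-Z ^ (1/32:ℝ)) ≤ exp (-2 * Z ^ (1/64:ℝ)) := exp_le_exp.2 (by linarith)
  have e2 : exp (-(1/32) * Z ^ (1/3:ℝ)) ≤ exp (-2 * Z ^ (1/64:ℝ)) := exp_le_exp.2 (by linarith)
  calc ∑ a ∈ Fbad (Y0 Z) u N ∪ Bset, (1 : ℝ) / a ≤ _ :=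
        sum_union_nonneg fun a => by positivity
    _ ≤ (C + 1) * exp (-2 * Z ^ (1/64:ℝ)) := by nlinarith
    _ ≤ _ := by
        rw [show exp (-Z ^ (1/64:ℝ)) = exp (Z ^ (1/64:ℝ)) * exp (-2 * Z ^ (1/64:ℝ)) by
          rw [← exp_add]; ring_nf]
        refine mul_le_mul_of_nonneg_right ?_ (exp_nonneg _)
        exact (exp_log (by positivity : (0:ℝ) < C + 1)).symm.trans_le (exp_le_exp.2 hB)

end Vale.Agent.P031
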