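import Vale.Agent.P031.Defs

/-!
# Totient values: elementary facts about the shared definitions
-/

open Finset Real
open scoped Classical

noncomputable section

namespace Vale.Agent.P031

lemma log_two_pos : (0 : ℝ) < log 2 := log_pos one_lt_two

lemma log_prime_pos {p : ℕ} (hp : p.Prime) : 0 < log (p : ℝ) :=
  log_pos (by exact_mod_cast hp.one_lt)

lemma sc_le_exp_iff {p : ℕ} (hp : 2 ≤ p) {u : ℝ} : sc p ≤ u ↔ (p : ℝ) ≤ exp (exp u) := by
  have hp1 : (1 : ℝ) < p := by exact_mod_cast hp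
  rw [sc, log_le_iff_le_exp (log_pos hp1), log_le_iff_le_exp (by linarith)]

lemma lt_sc_iff {p : ℕ} (hp : 2 ≤ p) {u : ℝ} : u < sc p ↔ exp (exp u) < (p : ℝ) := by
  rw [← not_le, ← not_le, sc_le_exp_iff hp]

lemma sc_mono {p q : ℕ} (hp : 2 ≤ p) (hpq : p ≤ q) : sc p ≤ sc q := by
  rw [sc_le_exp_iff hp]
  exact le_trans (by exact_mod_cast hpq) ((sc_le_exp_iff (le_trans hp hpq)).1 le_rfl)

lemma sc_lt_sc {p q : ℕ} (hp : 2 ≤ p) (hpq : p < q) : sc p < sc q := by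
  have hp1 : (1 : ℝ) < p := by exact_mod_cast hp
  exact log_lt_log (log_pos hp1) (log_lt_log (by linarith) (by exact_mod_cast hpq))

lemma le_of_sc_le {p q : ℕ} (hq : 2 ≤ q) (h : sc p ≤ sc q) : p ≤ q := by
  by_contra hh
  exact absurd h (not_le.2 (sc_lt_sc hq (not_le.1 hh)))

lemma mem_primesIn {a b : ℝ} {p : ℕ} :
    p ∈ primesIn a b ↔ p.Prime ∧ a < sc p ∧ sc p ≤ b := by
  simp only [primesIn, Finset.mem_filter, Finset.mem_range]
  constructor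
  · exact fun h => h.2
  · intro h
    exact ⟨Nat.lt_succ_of_le (Nat.le_floor ((sc_le_exp_iff h.1.two_le).1 h.2.2)), h⟩

lemma mem_primesTo_iff {u : ℝ} {p : ℕ} : p ∈ primesTo u ↔ p.Prime ∧ sc p ≤ u := by
  simp only [primesTo, Finset.mem_filter, Finset.mem_range]
  constructor
  · exact fun h => h.2
  · intro h
    exact ⟨Nat.lt_succ_of_le (Nat.le_floor ((sc_le_exp_iff h.1.two_le).1 h.2)), h⟩

lemma sc_pos_of_gt {p : ℕ} (hp : 2 ≤ p) (h : exp 1 < (p : ℝ)) : 0 < sc p := by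
  rw [lt_sc_iff hp]; simpa using h

lemma sc_le_LL' {q X : ℕ} (hq : 2 ≤ q) (h : q ≤ X) : sc q ≤ LL X := sc_mono hq h

/-! ### smoothness and totients -/

lemma Smooth.mono {u v : ℝ} {a : ℕ} (h : Smooth u a) (huv : u ≤ v) : Smooth v a :=
  ⟨h.1, fun q hq hd => (h.2 q hq hd).trans huv⟩

lemma smooth_one (u : ℝ) : Smooth u 1 :=
  ⟨one_ne_zero, fun q hq hd => absurd (Nat.dvd_one.1 hd) hq.ne_one⟩

lemma Smooth.mul {u : ℝ} {a b : ℕ} (ha : Smooth u a) (hb : Smooth u b) : Smooth u (a * b) := by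
  refine ⟨mul_ne_zero ha.1 hb.1, fun q hq hd => ?_⟩
  rcases hq.dvd_mul.1 hd with h | h
  exacts [ha.2 q hq h, hb.2 q hq h]

lemma Smooth.of_dvd {u : ℝ} {a b : ℕ} (ha : Smooth u a) (h : b ∣ a) : Smooth u b :=
  ⟨fun hb => ha.1 (Nat.eq_zero_of_zero_dvd (hb ▸ h)), fun q hq hd => ha.2 q hq (hd.trans h)⟩

/-- Every prime factor of `φ n` is at most some prime factor of `n`. -/
lemma exists_prime_ge_of_dvd_totient {n q : ℕ} (hn : n ≠ 0) (hq : q.Prime)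
    (h : q ∣ Nat.totient n) : ∃ p : ℕ, p.Prime ∧ p ∣ n ∧ q ≤ p := by
  rw [Nat.totient_eq_prod_factorization hn, Finsupp.prod] at h
  obtain ⟨p, hp, hpd⟩ := (Prime.dvd_finset_prod_iff hq.prime _).1 h
  have hpp : p.Prime := Nat.prime_of_mem_primeFactors (by simpa using hp)
  refine ⟨p, hpp, Nat.dvd_of_mem_primeFactors (by simpa using hp), ?_⟩
  rcases hq.dvd_mul.1 hpd with h1 | h1
  · exact Nat.le_of_dvd hpp.pos (hq.dvd_of_dvd_pow h1)
  · have : 0 < p - 1 := by have := hpp.two_le; omega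
    exact (Nat.le_of_dvd this h1).trans (Nat.sub_le _ _)

lemma Smooth.totient {u : ℝ} {n : ℕ} (h : Smooth u n) : Smooth u (Nat.totient n) := by
  refine ⟨fun h0 => ?_, fun q hq hd => ?_⟩
  · exact h.1 (Nat.totient_eq_zero.1 h0)
  · obtain ⟨p, hp, hpn, hqp⟩ := exists_prime_ge_of_dvd_totient h.1 hq hd
    exact (sc_mono hq.two_le hqp).trans (h.2 p hp hpn)

lemma mem_Gset {u : ℝ} {N a : ℕ} :
    a ∈ Gset u N ↔ 1 ≤ a ∧ a ≤ N ∧ ∃ n, Smooth u n ∧ Nat.totient n = a := by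
  simp [Gset, and_assoc]

lemma totient_mem_Gset {u : ℝ} {N n : ℕ} (h : Smooth u n) (hN : Nat.totient n ≤ N) :
    Nat.totient n ∈ Gset u N :=
  mem_Gset.2 ⟨Nat.totient_pos.2 (Nat.pos_of_ne_zero h.1), hN, n, h, rfl⟩

lemma Gsum_nonneg (u : ℝ) (N : ℕ) : 0 ≤ Gsum u N :=
  Finset.sum_nonneg fun a _ => by positivity

lemma Gsum_mono {u v : ℝ} (huv : u ≤ v) {M N : ℕ} (hMN : M ≤ N) : Gsum u M ≤ Gsum v N := by
  refine Finset.sum_le_sum_of_subset_of_nonneg (fun a ha => ?_) fun a _ _ => by positivity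
  obtain ⟨h1, h2, n, hn, he⟩ := mem_Gset.1 ha
  exact mem_Gset.2 ⟨h1, h2.trans hMN, n, hn.mono huv, he⟩

lemma one_le_Gsum {u : ℝ} {N : ℕ} (hN : 1 ≤ N) : 1 ≤ Gsum u N := by
  have h : (1 : ℕ) ∈ Gset u N := mem_Gset.2 ⟨le_rfl, hN, 1, smooth_one u, Nat.totient_one⟩
  have := Finset.single_le_sum (f := fun a : ℕ => (1 : ℝ) / a)
    (fun a _ => by positivity) h
  rw [Gsum]
  simpa using this

/-- Reciprocal sum of a product set. -/
lemma sum_recip_le_mul (S A B : Finset ℕ) (h : ∀ s ∈ S, ∃ a ∈ A, ∃ b ∈ B, s = a * b) :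
    ∑ s ∈ S, (1 : ℝ) / s ≤ (∑ a ∈ A, (1 : ℝ) / a) * ∑ b ∈ B, (1 : ℝ) / b := by
  have hsub : S ⊆ (A ×ˢ B).image fun x => x.1 * x.2 := by
    intro s hs
    obtain ⟨a, ha, b, hb, rfl⟩ := h s hs
    exact Finset.mem_image.2 ⟨(a, b), Finset.mem_product.2 ⟨ha, hb⟩, rfl⟩
  calc ∑ s ∈ S, (1 : ℝ) / s ≤ ∑ s ∈ (A ×ˢ B).image (fun x => x.1 * x.2), (1 : ℝ) / s :=
        Finset.sum_le_sum_of_subset_of_nonneg hsub fun a _ _ => by positivity
    _ ≤ ∑ x ∈ A ×ˢ B, (1 : ℝ) / ((x.1 * x.2 : ℕ) : ℝ) :=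
        Finset.sum_image_le_of_nonneg fun x _ => by positivity
    _ = _ := by
        rw [Finset.sum_mul_sum, Finset.sum_product]
        refine Finset.sum_congr rfl fun a _ => Finset.sum_congr rfl fun b _ => ?_
        push_cast; rw [one_div_mul_one_div]

/-! ### the coefficients `alpha` -/

lemma alpha_succ_sub (l : ℕ) :
    alpha (l + 1) - alpha l
      = ((l : ℝ) + 2) * log ((l : ℝ) + 2) - 2 * (((l : ℝ) + 1) * log ((l : ℝ) + 1))
        + (l : ℝ) * log (l : ℝ) := by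
  simp only [alpha, Nat.cast_add, Nat.cast_one]
  ring_nf

lemma alpha_mono : Monotone alpha := by
  refine monotone_nat_of_le_succ fun l => ?_
  have h := (Real.convexOn_mul_log).2 (x := (l : ℝ)) (y := (l : ℝ) + 2)
    (Set.mem_Ici.2 (Nat.cast_nonneg l)) (Set.mem_Ici.2 (by positivity))
    (show (0 : ℝ) ≤ 1 / 2 by norm_num) (show (0 : ℝ) ≤ 1 / 2 by norm_num) (by norm_num)
  simp only [smul_eq_mul] at h
  rw [show (1 / 2 : ℝ) * l + 1 / 2 * ((l : ℝ) + 2) = (l : ℝ) + 1 by ring] at h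
  have := alpha_succ_sub l
  linarith

lemma alpha_one : alpha 1 = 2 * log 2 - 1 := by norm_num [alpha]

lemma alpha_one_gt : (0.38 : ℝ) < alpha 1 := by
  rw [alpha_one]
  have := Real.log_two_gt_d9
  linarith

lemma alpha_pos {l : ℕ} (hl : 1 ≤ l) : 0 < alpha l :=
  lt_of_lt_of_le (lt_trans (by norm_num) alpha_one_gt) (alpha_mono hl)

lemma alpha_nonneg' (l : ℕ) : 0 ≤ alpha (l + 1) := (alpha_pos (Nat.le_add_left 1 l)).le

lemma alpha_four_ge : (1.5 : ℝ) ≤ alpha 4 := by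
  have h4 : alpha 4 = 5 * log 5 - 4 * log 4 - 1 := by norm_num [alpha]
  have h5 : log ((5 : ℝ) ^ 5 / 4 ^ 4) = 5 * log 5 - 4 * log 4 := by
    rw [log_div (by norm_num) (by norm_num), log_pow, log_pow]; norm_num
  have he : exp (5 / 2 : ℝ) ≤ (5 : ℝ) ^ 5 / 4 ^ 4 := by
    rw [← pow_le_pow_iff_left₀ (exp_nonneg _) (by norm_num) (n := 2) two_ne_zero,
      ← Real.exp_nat_mul, show ((2 : ℕ) : ℝ) * (5 / 2) = ((5 : ℕ) : ℝ) * 1 by norm_num,
      Real.exp_nat_mul]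
    calc exp 1 ^ 5 ≤ (2.7182818286 : ℝ) ^ 5 := by
          gcongr; exact (Real.exp_one_lt_d9).le
      _ ≤ _ := by norm_num
  have := (le_log_iff_exp_le (by norm_num)).2 he
  rw [h5] at this
  linarith

lemma alpha_le_log (l : ℕ) : alpha l ≤ log ((l : ℝ) + 1) := by
  rcases Nat.eq_zero_or_pos l with rfl | hl
  · norm_num [alpha]
  · have hl' : (0 : ℝ) < l := by exact_mod_cast hl
    have h := log_le_sub_one_of_pos (show (0 : ℝ) < ((l : ℝ) + 1) / l by positivity)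
    rw [log_div (by positivity) hl'.ne'] at h
    have : (l : ℝ) * (((l : ℝ) + 1) / l - 1) = 1 := by field_simp; ring
    have := mul_le_mul_of_nonneg_left h hl'.le
    simp only [alpha]
    nlinarith

lemma EntF_nonneg {k : ℕ} {y : Fin k → ℝ} (h : ∀ l, 0 ≤ y l) : 0 ≤ EntF y :=
  Finset.sum_nonneg fun l _ => mul_nonneg (alpha_nonneg' _) (h l)

lemma EntF_single_le {k : ℕ} {y : Fin k → ℝ} (h : ∀ l, 0 ≤ y l) (l : Fin k) :
    alpha ((l : ℕ) + 1) * y l ≤ EntF y :=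
  Finset.single_le_sum (f := fun l : Fin k => alpha ((l : ℕ) + 1) * y l)
    (fun i _ => mul_nonneg (alpha_nonneg' _) (h i)) (Finset.mem_univ l)

end Vale.Agent.P031
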