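import Vale.Agent.P031.Defs

/-!
# Geometry of admissible level vectors: decay and monotonicity
-/

open Finset Real
open scoped Classical
noncomputable section
namespace Vale.Agent.P031

set_option linter.unusedSectionVars false

theorem alpha_nonneg (j : ℕ) : 0 ≤ alpha (j + 1) := by
  unfold alpha
  push_cast
  have hj : (0 : ℝ) < (j : ℝ) + 1 := by positivity
  have hj' : (0 : ℝ) < (j : ℝ) + 1 + 1 := by positivity
  have h1 := Real.one_sub_inv_le_log_of_pos (div_pos hj' hj)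
  rw [Real.log_div hj'.ne' hj.ne'] at h1
  have h2 := Real.one_sub_inv_le_log_of_pos hj'
  rw [inv_div] at h1
  have h3 : ((j : ℝ) + 1) * (1 - ((j : ℝ) + 1) / ((j : ℝ) + 1 + 1))
      ≤ ((j : ℝ) + 1) * (log ((j : ℝ) + 1 + 1) - log ((j : ℝ) + 1)) :=
    mul_le_mul_of_nonneg_left h1 hj.le
  have e1 : ((j : ℝ) + 1) * (1 - ((j : ℝ) + 1) / ((j : ℝ) + 1 + 1)) + (1 - ((j : ℝ) + 1 + 1)⁻¹)
      = 1 + (((j : ℝ) + 1 + 1)⁻¹) * (j : ℝ) := by
    field_simp
    ring
  have e2 : 0 ≤ (((j : ℝ) + 1 + 1)⁻¹) * (j : ℝ) := by positivity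
  nlinarith [h2, h3, e1, e2]

theorem alpha_le_reg (j : ℕ) : alpha (j + 1) ≤ (j : ℝ) + 2 := by
  unfold alpha
  push_cast
  have hj : (0 : ℝ) < (j : ℝ) + 1 := by positivity
  have hj' : (0 : ℝ) < (j : ℝ) + 1 + 1 := by positivity
  have h1 := Real.log_le_sub_one_of_pos (div_pos hj' hj)
  rw [Real.log_div hj'.ne' hj.ne'] at h1
  have h2 := Real.log_le_sub_one_of_pos hj'
  have h3 : ((j : ℝ) + 1) * (log ((j : ℝ) + 1 + 1) - log ((j : ℝ) + 1))
      ≤ ((j : ℝ) + 1) * (((j : ℝ) + 1 + 1) / ((j : ℝ) + 1) - 1) :=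
    mul_le_mul_of_nonneg_left h1 hj.le
  have e1 : ((j : ℝ) + 1) * (((j : ℝ) + 1 + 1) / ((j : ℝ) + 1) - 1) = 1 := by
    field_simp
    ring
  nlinarith

theorem alpha_four : (1.38 : ℝ) ≤ alpha 4 := by
  unfold alpha
  push_cast
  have h5 : log (5 / 4 : ℝ) ≥ 1 - (5 / 4 : ℝ)⁻¹ := Real.one_sub_inv_le_log_of_pos (by norm_num)
  have h4 : log (4 : ℝ) = 2 * log 2 := by
    rw [show (4 : ℝ) = 2 ^ 2 by norm_num, Real.log_pow]; norm_num
  have hd : log (5 / 4 : ℝ) = log 5 - log 4 := Real.log_div (by norm_num) (by norm_num)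
  have := Real.log_two_gt_d9
  norm_num at h5 ⊢
  linarith

theorem Del_nonneg {x : ℝ} (hx : 0 ≤ x) : 0 ≤ Del x := rpow_nonneg hx _

theorem Del_mono {x y : ℝ} (hx : 0 ≤ x) (h : x ≤ y) : Del x ≤ Del y :=
  rpow_le_rpow hx h (by norm_num)

theorem Del_eq {x : ℝ} (hx : 0 < x) : Del x = x * x ^ (-(1 / 4) : ℝ) := by
  unfold Del
  rw [show (3 / 4 : ℝ) = 1 + -(1 / 4) by norm_num, rpow_add hx, rpow_one]

theorem Del_le_mul {T x : ℝ} (hT : 0 < T) (hx : T ≤ x) : Del x ≤ x * T ^ (-(1 / 4) : ℝ) := by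
  have hx0 : 0 < x := hT.trans_le hx
  rw [Del_eq hx0]
  exact mul_le_mul_of_nonneg_left (rpow_le_rpow_of_nonpos hT hx (by norm_num)) hx0.le

/-- Beyond this scale every lemma of the geometry applies. -/
def Tbig : ℝ := (10 : ℝ) ^ 80

theorem Tbig_pos : 0 < Tbig := by unfold Tbig; positivity

theorem one_le_Tbig : 1 ≤ Tbig := one_le_pow₀ (by norm_num)

theorem rpow_Tbig_le {T : ℝ} (hT : Tbig ≤ T) :
    T ^ (-(1 / 4) : ℝ) ≤ ((10 : ℝ) ^ 20)⁻¹ := by
  have h : T ^ (-(1 / 4) : ℝ) ≤ Tbig ^ (-(1 / 4) : ℝ) :=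
    rpow_le_rpow_of_nonpos Tbig_pos hT (by norm_num)
  refine h.trans (le_of_eq ?_)
  unfold Tbig
  rw [← Real.rpow_natCast, ← rpow_mul (by norm_num), ← Real.rpow_natCast (10 : ℝ) 20,
    ← rpow_neg (by norm_num)]
  norm_num

theorem Del_small {T x : ℝ} (hT : Tbig ≤ T) (hx : T ≤ x) : 40 * Del x ≤ 0.01 * x := by
  have h1 := Del_le_mul (Tbig_pos.trans_le hT) hx
  have hx0 : 0 ≤ x := (Tbig_pos.le.trans hT).trans hx
  have h2 := mul_le_mul_of_nonneg_left (rpow_Tbig_le hT) hx0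
  have h3 : x * ((10 : ℝ) ^ 20)⁻¹ ≤ x * (1 / 4000) :=
    mul_le_mul_of_nonneg_left (by norm_num) hx0
  linarith

theorem one_le_Del {x : ℝ} (hx : 1 ≤ x) : 1 ≤ Del x := one_le_rpow hx (by norm_num)

section Reg

variable {L T σ : ℝ} {k : ℕ} {y : Fin k → ℝ}

theorem par_zero (h : 0 < k) : par L y ⟨0, h⟩ = L := by simp [par]

theorem par_succ {i : ℕ} (h : i + 1 < k) :
    par L y ⟨i + 1, h⟩ = y ⟨i, Nat.lt_of_succ_lt h⟩ := by
  simp [par]

theorem le_par (hTL : T ≤ L) (hy : ∀ l, T ≤ y l) (i : Fin k) : T ≤ par L y i := by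
  unfold par; split_ifs
  · exact hTL
  · exact hy _

theorem sufE_term_nonneg (hy : ∀ l, 0 ≤ y l) (i l : Fin k) :
    0 ≤ if i ≤ l then alpha ((l : ℕ) - (i : ℕ) + 1) * y l else 0 := by
  split_ifs
  · exact mul_nonneg (alpha_nonneg _) (hy l)
  · exact le_rfl

theorem alpha_mul_le_sufE (hy : ∀ l, 0 ≤ y l) {i l : Fin k} (h : i ≤ l) :
    alpha ((l : ℕ) - (i : ℕ) + 1) * y l ≤ sufE y i := by
  have := Finset.single_le_sum (fun m _ => sufE_term_nonneg hy i m) (Finset.mem_univ l)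
  simpa [sufE, h] using this

theorem sufE_mono {z : Fin k → ℝ} (h : ∀ l, z l ≤ y l) (i : Fin k) : sufE z i ≤ sufE y i := by
  refine Finset.sum_le_sum fun l _ => ?_
  split_ifs
  · exact mul_le_mul_of_nonneg_left (h l) (alpha_nonneg _)
  · exact le_rfl

theorem EntF_mono {z : Fin k → ℝ} (h : ∀ l, z l ≤ y l) : EntF z ≤ EntF y :=
  Finset.sum_le_sum fun l _ => mul_le_mul_of_nonneg_left (h l) (alpha_nonneg _)

theorem sufE_zero (h : 0 < k) : sufE y ⟨0, h⟩ = EntF y := by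
  refine Finset.sum_congr rfl fun l _ => ?_
  simp [Fin.le_def]

theorem Reg_mono {σ' T' : ℝ} (hσ : σ ≤ σ') (hT : T' ≤ T) (hT0 : 0 ≤ T) (hTL : T ≤ L) :
    Reg L T σ k ⊆ Reg L T' σ' k := by
  rintro y ⟨h1, h2⟩
  refine ⟨fun l => hT.trans (h1 l), fun i => ?_⟩
  have hd : σ * Del (par L y i) ≤ σ' * Del (par L y i) :=
    mul_le_mul_of_nonneg_right hσ (Del_nonneg (hT0.trans (le_par hTL h1 i)))
  exact ⟨(h2 i).1.trans (by linarith), (h2 i).2.trans (by linarith)⟩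

variable (hT : Tbig ≤ T) (hTL : T ≤ L) (hσ : σ ≤ 40) (hy : y ∈ Reg L T σ k)

include hT hTL hσ hy

theorem Reg_le_par (i : Fin k) :
    y i ≤ 1.01 * par L y i ∧ sufE y i ≤ 1.01 * par L y i := by
  have hp := le_par hTL hy.1 i
  have h0 : 0 ≤ par L y i := (Tbig_pos.le.trans hT).trans hp
  have := mul_le_mul_of_nonneg_right hσ (Del_nonneg h0)
  have := Del_small hT hp
  have := hy.2 i
  constructor <;> linarith

theorem Reg_nonneg (l : Fin k) : 0 ≤ y l := (Tbig_pos.le.trans hT).trans (hy.1 l)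

theorem par_four {i : ℕ} (h : i + 4 < k) :
    par L y ⟨i + 4, h⟩ ≤ 0.74 * par L y ⟨i, by omega⟩ := by
  rw [par_succ (i := i + 3) h]
  set a : Fin k := ⟨i, by omega⟩
  set b : Fin k := ⟨i + 3, Nat.lt_of_succ_lt h⟩
  have h1 := alpha_mul_le_sufE (Reg_nonneg hT hTL hσ hy) (i := a) (l := b)
    (by simp [a, b, Fin.le_def])
  have h2 : ((b : ℕ) - (a : ℕ) + 1) = 4 := by simp [a, b]
  rw [h2] at h1
  have h3 := (Reg_le_par hT hTL hσ hy a).2
  have h4 := mul_le_mul_of_nonneg_right alpha_four (Reg_nonneg hT hTL hσ hy b)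
  have h5 : 0 ≤ par L y a := (Tbig_pos.le.trans hT).trans (le_par hTL hy.1 a)
  linarith

/-- Geometric decay of levels. -/
theorem par_decay (d : ℕ) : ∀ i : ℕ, ∀ h : i + d < k,
    par L y ⟨i + d, h⟩ * 1.06 ^ d ≤ 1.4 * par L y ⟨i, by omega⟩ := by
  have hp : ∀ j : Fin k, 0 ≤ par L y j := fun j =>
    (Tbig_pos.le.trans hT).trans (le_par hTL hy.1 j)
  induction d using Nat.strong_induction_on with
  | _ d ih =>
    intro i h
    have step : ∀ j : ℕ, ∀ hj : j + 1 < k,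
        par L y ⟨j + 1, hj⟩ ≤ 1.01 * par L y ⟨j, by omega⟩ := by
      intro j hj
      rw [par_succ hj]
      exact (Reg_le_par hT hTL hσ hy ⟨j, by omega⟩).1
    match d, ih, h with
    | 0, _, h => simp only [pow_zero, mul_one, Nat.add_zero]; linarith [hp ⟨i, by omega⟩]
    | 1, _, h =>
      have := step i h
      have := hp ⟨i, by omega⟩
      norm_num at *
      linarith
    | 2, _, h =>
      have := step i (by omega)
      have := step (i + 1) h
      have := hp ⟨i, by omega⟩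
      norm_num at *
      linarith
    | 3, _, h =>
      have := step i (by omega)
      have := step (i + 1) (by omega)
      have := step (i + 2) h
      have := hp ⟨i, by omega⟩
      norm_num at *
      linarith
    | d + 4, ih, h =>
      have h1 := ih d (by omega) (i + 4) (by omega)
      have h2 := par_four hT hTL hσ hy (i := i) (by omega)
      have e : (⟨i + (d + 4), h⟩ : Fin k) = ⟨i + 4 + d, by omega⟩ := by
        ext; simp; omega
      rw [e, pow_add]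
      have h3 := hp ⟨i, by omega⟩
      have h4 := mul_le_mul_of_nonneg_right h1 (by norm_num : (0 : ℝ) ≤ 1.06 ^ 4)
      norm_num at h2 h4 ⊢
      linarith

/-- The level above index `i` dominates `T` geometrically in the distance to the end. -/
theorem par_lower (i : Fin k) :
    T * 1.06 ^ (k - 1 - (i : ℕ)) ≤ 2 * par L y i := by
  have h : (i : ℕ) + (k - 1 - (i : ℕ)) < k := by have := i.isLt; omega
  have h1 := par_decay hT hTL hσ hy (k - 1 - (i : ℕ)) i h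
  have h2 := (Reg_le_par hT hTL hσ hy ⟨_, h⟩).1
  have h3 := (hy.1 ⟨_, h⟩)
  have h4 : T * 1.06 ^ (k - 1 - (i : ℕ)) ≤
      1.01 * par L y ⟨_, h⟩ * 1.06 ^ (k - 1 - (i : ℕ)) :=
    mul_le_mul_of_nonneg_right (h3.trans h2) (by positivity)
  have h5 : 0 ≤ par L y i := (Tbig_pos.le.trans hT).trans (le_par hTL hy.1 i)
  linarith

theorem Reg_le_three (l : Fin k) : y l ≤ 3 * L := by
  have h : (0 : ℕ) + (l : ℕ) < k := by simp
  have h1 := par_decay hT hTL hσ hy (l : ℕ) 0 h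
  rw [par_zero] at h1
  have e : (⟨0 + (l : ℕ), h⟩ : Fin k) = l := by ext; simp
  rw [e] at h1
  have h2 : par L y l ≤ par L y l * 1.06 ^ (l : ℕ) :=
    le_mul_of_one_le_right ((Tbig_pos.le.trans hT).trans (le_par hTL hy.1 l))
      (one_le_pow₀ (by norm_num))
  have h3 := (Reg_le_par hT hTL hσ hy l).1
  have hL : 0 ≤ L := (Tbig_pos.le.trans hT).trans hTL
  linarith

theorem Reg_short : k ≤ Kb L := by
  rcases Nat.eq_zero_or_pos k with h0 | hk
  · omega
  have h1 := par_lower hT hTL hσ hy ⟨0, hk⟩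
  rw [par_zero] at h1
  have hTp : 0 < T := Tbig_pos.trans_le hT
  have hL : 0 < L := hTp.trans_le hTL
  have h2 : (1.06 : ℝ) ^ (k - 1) ≤ 2 * L := by
    have : 1 * (1.06 : ℝ) ^ (k - 1) ≤ T * 1.06 ^ (k - 1) :=
      mul_le_mul_of_nonneg_right (one_le_Tbig.trans hT) (by positivity)
    simp at h1
    linarith
  have h3 := Real.log_le_log (by positivity) h2
  rw [Real.log_pow, Real.log_mul (by norm_num) hL.ne'] at h3
  have h4 := Real.one_sub_inv_le_log_of_pos (show (0 : ℝ) < 1.06 by norm_num)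
  have h5 := Real.log_le_log hL (show L ≤ L + 2 by linarith)
  have h6 := Real.log_two_lt_d9
  have h7 : (0 : ℝ) ≤ ((k - 1 : ℕ) : ℝ) := Nat.cast_nonneg _
  have h8 : 0 ≤ log (L + 2) := Real.log_nonneg (by linarith)
  have h9 : ((k - 1 : ℕ) : ℝ) ≤ ((⌈20 * log (L + 2)⌉₊ + 19 : ℕ) : ℝ) := by
    push_cast
    have := Nat.le_ceil (20 * log (L + 2))
    have := mul_le_mul_of_nonneg_left h4 h7
    norm_num at *
    linarith
  have : k - 1 ≤ ⌈20 * log (L + 2)⌉₊ + 19 := by exact_mod_cast h9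
  unfold Kb
  omega

end Reg

/-- Lattice points decay geometrically every four steps. -/
theorem Reg_decay_four : ∃ T0 : ℝ, 1 ≤ T0 ∧ ∀ L T : ℝ, T0 ≤ T → T ≤ L → ∀ k : ℕ,
    ∀ y : Fin k → ℝ, y ∈ Reg L T 16 k → ∀ i j : Fin k, (j : ℕ) = i + 4 → y j ≤ 0.75 * y i := by
  refine ⟨Tbig, one_le_Tbig, fun L T hT hTL k y hy i j hj => ?_⟩
  have hσ : (16 : ℝ) ≤ 40 := by norm_num
  have hjk : (i : ℕ) + 1 < k := by have := j.isLt; omega
  set a : Fin k := ⟨(i : ℕ) + 1, hjk⟩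
  have h1 := alpha_mul_le_sufE (Reg_nonneg hT hTL hσ hy) (i := a) (l := j)
    (by simp [a, Fin.le_def]; omega)
  have h2 : (j : ℕ) - (a : ℕ) + 1 = 4 := by simp [a]; omega
  rw [h2] at h1
  have h3 := (Reg_le_par hT hTL hσ hy a).2
  have h4 : par L y a = y i := par_succ hjk
  have h5 := mul_le_mul_of_nonneg_right alpha_four (Reg_nonneg hT hTL hσ hy j)
  have h6 := Reg_nonneg hT hTL hσ hy i
  rw [h4] at h3
  linarith

end Vale.Agent.P031
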