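import Vale.Agent.P031.Decay
import Vale.Agent.P031.Mertens
import Vale.Agent.P031.RegionBasic

/-!
# Totient values: sums over prime tuples lying in a lattice cell vector
-/

open Finset Real Filter Topology
open scoped Classical

noncomputable section

namespace Vale.Agent.P031

/-- Prime tuples whose scales lie in the unit cells of `n`. -/
def cellTuples {k : ℕ} (n : Fin k → ℕ) : Finset (Fin k → ℕ) :=
  Fintype.piFinset fun l => primesIn (n l : ℝ) ((n l : ℝ) + 1)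

/-- Lattice points decay geometrically every four steps. -/
theorem lat_decay : ∃ T0 : ℝ, 1 ≤ T0 ∧ ∀ L T : ℝ, T0 ≤ T → T ≤ L → ∀ k : ℕ, ∀ y : Fin k → ℝ,
    y ∈ Reg L T 16 k → ∀ i j : Fin k, (j : ℕ) = i + 4 → y j ≤ 0.75 * y i :=
  Reg_decay_four

/-- Rapidly decreasing sums over a lattice point are tiny. -/
lemma lat_sum_exp {c : ℝ} (hc : 0 < c) {ε : ℝ} (hε : 0 < ε) :
    ∃ T0 : ℝ, 1 ≤ T0 ∧ ∀ L T : ℝ, T0 ≤ T → T ≤ L → ∀ k : ℕ, ∀ n ∈ Lat L T 16 k,
      (∀ l, T ≤ (n l : ℝ)) ∧ ∑ l, exp (-c * (n l : ℝ) ^ (1 / 3 : ℝ)) ≤ ε := by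
  obtain ⟨T₁, hT₁, hdec⟩ := lat_decay
  have ht : Tendsto (fun T : ℝ => c * T ^ (1 / 3 : ℝ)) atTop atTop :=
    (tendsto_rpow_atTop (by norm_num)).const_mul_atTop hc
  have hlim : Tendsto (fun x : ℝ => 4 * exp (-x) / (1 - exp (-x / 16))) atTop (𝓝 0) := by
    have h1 : Tendsto (fun x : ℝ => exp (-x)) atTop (𝓝 0) := tendsto_exp_neg_atTop_nhds_zero
    have h2 : Tendsto (fun x : ℝ => exp (-x / 16)) atTop (𝓝 0) := by
      refine (h1.comp (tendsto_id.atTop_div_const (by norm_num : (0:ℝ) < 16))).congr fun x => ?_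
      simp [neg_div]
    have h3 := (h1.const_mul 4).div ((tendsto_const_nhds (x := (1:ℝ))).sub h2) (by norm_num)
    simpa [Pi.div_apply] using! h3
  obtain ⟨T₂, hT₂⟩ := eventually_atTop.1 ((hlim.comp ht).eventually (eventually_le_nhds hε))
  refine ⟨max T₁ T₂, le_max_of_le_left hT₁, fun L T hT hTL k n hn => ?_⟩
  obtain ⟨hT1, hT2⟩ := max_le_iff.1 hT
  have hreg := (Finset.mem_filter.1 hn).2
  refine ⟨hreg.1, ?_⟩
  set y : ℕ → ℝ := fun i => if h : i < k then (n ⟨i, h⟩ : ℝ) else 0 with hy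
  have e : ∑ l, exp (-c * (n l : ℝ) ^ (1 / 3 : ℝ))
      = ∑ i ∈ Finset.range k, exp (-c * y i ^ (1 / 3 : ℝ)) := by
    rw [Finset.sum_range]
    refine Finset.sum_congr rfl fun l _ => ?_
    simp [hy]
  rw [e]
  refine (geo_sum_exp hc (Z := T) (by linarith) (fun i hi => ?_) fun i hi => ?_).trans ?_
  · simpa [hy, hi] using hreg.1 ⟨i, hi⟩
  · simpa [hy, hi, show i < k by omega] using
      hdec L T hT1 hTL k _ hreg ⟨i, by omega⟩ ⟨i + 4, hi⟩ rfl
  · simpa [neg_mul] using hT₂ T hT2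

lemma cell_factor {k : ℕ} (n : Fin k → ℕ) (f : ℕ → Prop) :
    ∑ P ∈ (cellTuples n).filter (fun P => ∀ l, f (P l)), ∏ l, (1 : ℝ) / ((P l : ℝ) - 1)
      = ∏ l, ∑ p ∈ (primesIn (n l : ℝ) ((n l : ℝ) + 1)).filter f, (1 : ℝ) / ((p : ℝ) - 1) := by
  rw [Finset.prod_univ_sum]
  refine Finset.sum_congr ?_ fun _ _ => rfl
  ext P
  simp only [cellTuples, Finset.mem_filter, Fintype.mem_piFinset, forall_and]

lemma exp_neg_le_exp_third {x : ℝ} (hx : 1 ≤ x) :
    exp (-x) ≤ exp (-1 * x ^ (1 / 3 : ℝ)) := by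
  refine exp_le_exp.2 ?_
  have : x ^ (1 / 3 : ℝ) ≤ x := by
    conv_rhs => rw [← rpow_one x]
    exact rpow_le_rpow_of_exponent_le hx (by norm_num)
  linarith

/-- Over one cell vector the prime tuples carry weight at most two. -/
theorem cell_sum_le : ∃ T0 : ℝ, ∀ L T : ℝ, T0 ≤ T → T ≤ L → ∀ k : ℕ, ∀ n ∈ Lat L T 16 k,
    ∑ P ∈ cellTuples n, ∏ l, (1 : ℝ) / ((P l : ℝ) - 1) ≤ 2 := by
  obtain ⟨C, hC, hM⟩ := mertens_window
  obtain ⟨T₀, hT₀, hS⟩ := lat_sum_exp (c := 1) one_pos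
    (ε := log 2 / C) (div_pos (log_pos one_lt_two) hC)
  refine ⟨T₀, fun L T hT hTL k n hn => ?_⟩
  obtain ⟨hlo, hsum⟩ := hS L T hT hTL k n hn
  have h := cell_factor n (fun _ => True)
  simp only [implies_true, Finset.filter_true_of_mem] at h
  rw [h]
  calc ∏ l, ∑ p ∈ primesIn (n l : ℝ) ((n l : ℝ) + 1), (1 : ℝ) / ((p : ℝ) - 1)
      ≤ ∏ l, exp (C * exp (-1 * (n l : ℝ) ^ (1 / 3 : ℝ))) := by
        refine Finset.prod_le_prod (fun l _ => Finset.sum_nonneg fun p hp => ?_) fun l _ => ?_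
        · have : (2 : ℝ) ≤ p := by exact_mod_cast (mem_primesIn.1 hp).1.two_le
          exact div_nonneg zero_le_one (by linarith)
        · have h1 := (abs_le.1 (hM (n l : ℝ) ((n l : ℝ) + 1) (Nat.cast_nonneg _) (by linarith))).2
          have h2 := mul_le_mul_of_nonneg_left
            (exp_neg_le_exp_third ((hT₀.trans hT).trans (hlo l))) hC.le
          have h3 := add_one_le_exp (C * exp (-1 * (n l : ℝ) ^ (1 / 3 : ℝ)))
          linarith
    _ = exp (C * ∑ l, exp (-1 * (n l : ℝ) ^ (1 / 3 : ℝ))) := by rw [Finset.mul_sum, exp_sum]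
    _ ≤ 2 := by
        rw [← exp_log two_pos, exp_le_exp, mul_comm, ← le_div_iff₀ hC]
        exact hsum

/-- Over one strict cell vector the tuples of normal primes carry weight at least one half. -/
theorem cell_sum_ge (f : ℕ → Prop) (c : ℝ) (hc : 0 < c) (U : ℝ)
    (hf : ∀ v : ℝ, U ≤ v →
      ∑ p ∈ (primesIn v (v + 1)).filter (fun p => ¬ f p), (1 : ℝ) / p
        ≤ exp (-c * v ^ (1 / 3 : ℝ))) :
    ∃ T0 : ℝ, ∀ L T : ℝ, T0 ≤ T → T ≤ L → ∀ k : ℕ, ∀ n ∈ Lat L T 16 k,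
      (1 / 2 : ℝ) ≤ ∑ P ∈ (cellTuples n).filter (fun P => ∀ l, f (P l)),
        ∏ l, (1 : ℝ) / ((P l : ℝ) - 1) := by
  obtain ⟨C, hC, hM⟩ := mertens_window
  set c' := min c 1 with hc'
  have hc'0 : 0 < c' := lt_min hc one_pos
  obtain ⟨T₀, hT₀, hS⟩ := lat_sum_exp hc'0
    (ε := 1 / (2 * (C + 2))) (by positivity)
  refine ⟨max T₀ U, fun L T hT hTL k n hn => ?_⟩
  obtain ⟨hT1, hT2⟩ := max_le_iff.1 hT
  obtain ⟨hlo, hsum⟩ := hS L T hT1 hTL k n hn
  rw [cell_factor]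
  set δ : Fin k → ℝ := fun l => (C + 2) * exp (-c' * (n l : ℝ) ^ (1 / 3 : ℝ)) with hδ
  have hδsum : ∑ l, δ l ≤ 1 / 2 := by
    simp only [hδ, ← Finset.mul_sum]
    refine le_trans (mul_le_mul_of_nonneg_left hsum (by linarith)) (le_of_eq ?_)
    field_simp
  have hδ0 : ∀ l, 0 ≤ δ l := fun l => by positivity
  have hprod : ∀ s : Finset (Fin k), (∀ l ∈ s, δ l ≤ 1) → 1 - ∑ l ∈ s, δ l ≤ ∏ l ∈ s, (1 - δ l) := by
    intro s
    induction s using Finset.induction_on with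
    | empty => simp
    | @insert a s ha ih =>
      intro h
      rw [Finset.sum_insert ha, Finset.prod_insert ha]
      have h1 := ih fun l hl => h l (Finset.mem_insert_of_mem hl)
      have h2 := h a (Finset.mem_insert_self a s)
      have h3 : 0 ≤ ∑ l ∈ s, δ l := Finset.sum_nonneg fun l _ => hδ0 l
      nlinarith [mul_le_mul_of_nonneg_left h1 (sub_nonneg.2 h2), hδ0 a]
  have hδ1 : ∀ l, δ l ≤ 1 := fun l =>
    (Finset.single_le_sum (fun i _ => hδ0 i) (Finset.mem_univ l)).trans (by linarith)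
  calc (1 / 2 : ℝ) ≤ 1 - ∑ l, δ l := by linarith
    _ ≤ ∏ l, (1 - δ l) := hprod _ fun l _ => hδ1 l
    _ ≤ _ := by
        refine Finset.prod_le_prod (fun l _ => sub_nonneg.2 (hδ1 l)) fun l _ => ?_
        have hn1 : (1 : ℝ) ≤ (n l : ℝ) := (hT₀.trans hT1).trans (hlo l)
        set S := primesIn (n l : ℝ) ((n l : ℝ) + 1)
        have h1 := (abs_le.1 (hM (n l : ℝ) ((n l : ℝ) + 1) (Nat.cast_nonneg _) (by linarith))).1
        have h2 : ∑ p ∈ S.filter (fun p => ¬ f p), (1 : ℝ) / ((p : ℝ) - 1)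
            ≤ 2 * exp (-c * (n l : ℝ) ^ (1 / 3 : ℝ)) := by
          refine le_trans ?_ (mul_le_mul_of_nonneg_left (hf _ (hT2.trans (hlo l))) zero_le_two)
          rw [Finset.mul_sum]
          refine Finset.sum_le_sum fun p hp => ?_
          have : (2 : ℝ) ≤ p := by
            exact_mod_cast (mem_primesIn.1 (Finset.mem_filter.1 hp).1).1.two_le
          rw [mul_one_div, div_le_div_iff₀ (by linarith) (by linarith)]
          linarith
        have h3 := Finset.sum_filter_add_sum_filter_not S f fun p => (1 : ℝ) / ((p : ℝ) - 1)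
        have hp3 : 0 ≤ (n l : ℝ) ^ (1 / 3 : ℝ) := rpow_nonneg (Nat.cast_nonneg _) _
        have h4 : exp (-(n l : ℝ)) ≤ exp (-c' * (n l : ℝ) ^ (1 / 3 : ℝ)) :=
          (exp_neg_le_exp_third hn1).trans (exp_le_exp.2 (by
            nlinarith [min_le_right c (1:ℝ)]))
        have h5 : exp (-c * (n l : ℝ) ^ (1 / 3 : ℝ)) ≤ exp (-c' * (n l : ℝ) ^ (1 / 3 : ℝ)) :=
          exp_le_exp.2 (by nlinarith [min_le_left c (1:ℝ)])
        have h6 := mul_le_mul_of_nonneg_left h4 hC.le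
        simp only [hδ]
        linarith

end Vale.Agent.P031
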