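import Vale.Agent.P031.Collide.Class

/-!
# Totient values: two different representations are rare
-/

open Finset Real Filter
open scoped Classical

noncomputable section

namespace Vale.Agent.P031

/-- The number of level lists. -/
lemma levs_card {T : Finset (List ℕ)} {m N : ℕ} (h : ∀ l ∈ T, l.length ≤ m ∧ ∀ v ∈ l, v ≤ N) :
    T.card ≤ (m + 1) * (N + 1) ^ m := by
  set f : List ℕ → Fin (m + 1) × (Fin m → Fin (N + 1)) := fun l =>
    (⟨min l.length m, by omega⟩, fun i => ⟨min (l.getD i 0) N, by omega⟩) with hf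
  have hinj : Set.InjOn f (T : Set (List ℕ)) := by
    intro l hl l' hl' e
    obtain ⟨h1, h2⟩ := h l hl
    obtain ⟨h1', h2'⟩ := h l' hl'
    obtain ⟨e1, e2⟩ := Prod.mk.inj e
    have e3 : l.length = l'.length := by
      have := congrArg Fin.val e1
      simp only at this
      omega
    refine List.ext_getElem e3 fun i hi hi' => ?_
    have := congrArg Fin.val (congrFun e2 ⟨i, by omega⟩)
    simp only at this
    rw [List.getD_eq_getElem _ _ hi, List.getD_eq_getElem _ _ hi'] at this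
    have := h2 _ (List.getElem_mem hi)
    have := h2' _ (List.getElem_mem hi')
    omega
  calc T.card = (T.image f).card := (Finset.card_image_of_injOn hinj).symm
    _ ≤ Fintype.card (Fin (m + 1) × (Fin m → Fin (N + 1))) := Finset.card_le_univ _
    _ = _ := by simp

lemma lists_card_exp {u : ℝ} (hu : 100 ≤ u) (m N : ℕ) (hm : m = Kb u + 1)
    (hN : ((N + 1 : ℕ) : ℝ) ≤ u + 4) :
    (((m + 1) * (N + 1) ^ m : ℕ) : ℝ) ≤ exp (2 * ((Kb u : ℝ) + 3) ^ 2) := by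
  have hlog : log (u + 4) ≤ (Kb u : ℝ) := by
    have h4 : log (u + 4) ≤ log (u + 2) + log (u + 2) := by
      rw [← log_mul (by linarith) (by linarith)]
      exact log_le_log (by linarith) (by nlinarith)
    have h5 : 20 * log (u + 2) ≤ (Kb u : ℝ) := by
      rw [Kb]; push_cast; linarith [Nat.le_ceil (20 * log (u + 2))]
    have h6 : 0 ≤ log (u + 2) := log_nonneg (by linarith)
    linarith
  have hm' : (m : ℝ) = (Kb u : ℝ) + 1 := by subst hm; push_cast; ring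
  have h0 : (0 : ℝ) ≤ (Kb u : ℝ) := Nat.cast_nonneg _
  clear hm
  generalize (Kb u : ℝ) = K at hlog hm' h0 ⊢
  have e2 : log (((N + 1 : ℕ) : ℝ)) ≤ K :=
    le_trans (log_le_log (by exact_mod_cast Nat.succ_pos N) hN) hlog
  have e1 := log_le_sub_one_of_pos (show (0 : ℝ) < ((m + 1 : ℕ) : ℝ) by exact_mod_cast Nat.succ_pos m)
  have e3 := mul_le_mul_of_nonneg_left e2 (Nat.cast_nonneg (α := ℝ) m)
  rw [← exp_log (show (0 : ℝ) < (((m + 1) * (N + 1) ^ m : ℕ) : ℝ) by positivity), exp_le_exp,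
    Nat.cast_mul, Nat.cast_pow, log_mul (by positivity) (by positivity), log_pow]
  rw [Nat.cast_add_one m] at e1 ⊢
  nlinarith

/-- A sum over pairs is controlled by the classes. -/
lemma sum_classes {u Y B : ℝ} (hu : 100 ≤ u) (hY : 0 ≤ Y) (hB : 0 ≤ B)
    (S : Finset (Rep × Rep)) (hS : ∀ x ∈ S, RedPair u Y x) (f : Rep × Rep → ℝ)
    (h : ∀ la lb : List ℕ,
      ∑ x ∈ S.filter (fun x => levs x.1.ps = la ∧ levs x.2.ps = lb), f x ≤ B) :
    ∑ x ∈ S, f x ≤ exp (4 * ((Kb u : ℝ) + 3) ^ 2) * B := by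
  set N := ⌈u + 1⌉₊ with hN
  set m := Kb u + 1 with hm
  set key : Rep × Rep → List ℕ × List ℕ := fun x => (levs x.1.ps, levs x.2.ps) with hkey
  have hok : ∀ r : Rep, RepOK u Y r → (levs r.ps).length ≤ m ∧ ∀ v ∈ levs r.ps, v ≤ N := by
    intro r hr
    refine ⟨by simpa [levs, hm] using hr.2.2.1, fun v hv => ?_⟩
    obtain ⟨p, hp, rfl⟩ := List.mem_map.1 hv
    exact Nat.ceil_le_ceil (hr.2.2.2.1 p hp).2.2.2
  have h1 := levs_card (T := S.image fun x => levs x.1.ps) (m := m) (N := N) fun l hl => by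
    obtain ⟨x, hx, rfl⟩ := Finset.mem_image.1 hl; exact hok _ (hS x hx).1.1
  have h2 := levs_card (T := S.image fun x => levs x.2.ps) (m := m) (N := N) fun l hl => by
    obtain ⟨x, hx, rfl⟩ := Finset.mem_image.1 hl; exact hok _ (hS x hx).1.2.1
  have hcard : ((S.image key).card : ℝ) ≤ exp (4 * ((Kb u : ℝ) + 3) ^ 2) := by
    have h3 : (S.image key).card ≤ ((m + 1) * (N + 1) ^ m) * ((m + 1) * (N + 1) ^ m) := by
      refine le_trans (Finset.card_le_card (t := (S.image fun x => levs x.1.ps) ×ˢ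
        (S.image fun x => levs x.2.ps)) fun y hy => ?_) ?_
      · obtain ⟨x, hx, rfl⟩ := Finset.mem_image.1 hy
        exact Finset.mem_product.2
          ⟨Finset.mem_image_of_mem _ hx, Finset.mem_image_of_mem _ hx⟩
      · rw [Finset.card_product]; exact Nat.mul_le_mul h1 h2
    set K : ℝ := (Kb u : ℝ) with hK
    have hb : (((m + 1) * (N + 1) ^ m : ℕ) : ℝ) ≤ exp (2 * (K + 3) ^ 2) :=
      lists_card_exp hu m N (by simp [hm]) (by
        have := Nat.ceil_lt_add_one (show (0 : ℝ) ≤ u + 1 by linarith)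
        push_cast; linarith)
    calc ((S.image key).card : ℝ)
        ≤ ((((m + 1) * (N + 1) ^ m) * ((m + 1) * (N + 1) ^ m) : ℕ) : ℝ) := by exact_mod_cast h3
      _ ≤ exp (2 * (K + 3) ^ 2) * exp (2 * (K + 3) ^ 2) := by
          rw [Nat.cast_mul]; exact mul_le_mul hb hb (Nat.cast_nonneg _) (exp_nonneg _)
      _ = _ := by rw [← exp_add]; ring_nf
  rw [← Finset.sum_fiberwise_of_maps_to (t := S.image key) (g := key)
    fun x hx => Finset.mem_image_of_mem _ hx]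
  refine (Finset.sum_le_card_nsmul _ _ B fun k _ => ?_).trans ?_
  · refine le_trans (le_of_eq (Finset.sum_congr ?_ fun _ _ => rfl)) (h k.1 k.2)
    ext x; simp [hkey, Prod.ext_iff]
  · rw [nsmul_eq_mul]
    exact mul_le_mul_of_nonneg_right hcard hB

lemma coll_cost (C : ℝ) (hC : 0 ≤ C) : ∀ᶠ u : ℝ in atTop, ∀ Y : ℝ, 0 ≤ Y → Y ≤ 2 * Y0 u →
    C * ((Kb u : ℝ) + 3) ^ 3 * (Y + Dv (u + 1) + 1) ≤ Del u / 32 := by
  filter_upwards [eventually_Kb_cost (show (0 : ℝ) < 1 / 40 by norm_num) (5 * C) 3,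
    rpow_le_small (show (1 / 40 + 2 / 3 : ℝ) < 3 / 4 by norm_num)
      (show (0 : ℝ) < 1 / 32 by norm_num),
    eventually_ge_atTop (1 : ℝ)] with u h1 h2 hu Y hY0 hY
  have e1 : Dv (u + 1) ≤ 2 * u ^ (2 / 3 : ℝ) := by
    calc Dv (u + 1) ≤ (2 * u) ^ (2 / 3 : ℝ) := rpow_le_rpow (by linarith) (by linarith) (by norm_num)
      _ = (2 : ℝ) ^ (2 / 3 : ℝ) * u ^ (2 / 3 : ℝ) := mul_rpow (by norm_num) (by linarith)
      _ ≤ 2 * u ^ (2 / 3 : ℝ) := by
          refine mul_le_mul_of_nonneg_right ?_ (rpow_nonneg (by linarith) _)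
          exact rpow_le_self_of_one_le (by norm_num) (by norm_num)
  have e2 : Y0 u ≤ u ^ (2 / 3 : ℝ) := rpow_le_rpow_of_exponent_le hu (by norm_num)
  have e3 : (1 : ℝ) ≤ u ^ (2 / 3 : ℝ) := one_le_rpow hu (by norm_num)
  have hK : (0 : ℝ) ≤ C * ((Kb u : ℝ) + 3) ^ 3 := by positivity
  calc C * ((Kb u : ℝ) + 3) ^ 3 * (Y + Dv (u + 1) + 1)
      ≤ C * ((Kb u : ℝ) + 3) ^ 3 * (5 * u ^ (2 / 3 : ℝ)) :=
        mul_le_mul_of_nonneg_left (by linarith) hK
    _ = 5 * C * ((Kb u : ℝ) + 3) ^ 3 * u ^ (2 / 3 : ℝ) := by ring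
    _ ≤ u ^ (1 / 40 : ℝ) * u ^ (2 / 3 : ℝ) :=
        mul_le_mul_of_nonneg_right h1 (rpow_nonneg (by linarith) _)
    _ = u ^ (1 / 40 + 2 / 3 : ℝ) := (rpow_add (by linarith) _ _).symm
    _ ≤ 1 / 32 * u ^ (3 / 4 : ℝ) := h2
    _ = Del u / 32 := by rw [Del]; ring

lemma coll_total {u Y Cr C : ℝ} (hu : 100 ≤ u) (hY : 0 ≤ Y) (hCr : 0 ≤ Cr)
    (h : (2 * Cr + 4 + C) * ((Kb u : ℝ) + 3) ^ 3 * (Y + Dv (u + 1) + 1) ≤ Del u / 32) :
    Cr * ((Kb u : ℝ) + 2) * log (u + 4) + 4 * ((Kb u : ℝ) + 3) ^ 2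
      + (-Del u / 4 + C * ((Kb u : ℝ) + 3) ^ 3 * (Y + Dv (u + 1) + 1)) ≤ -Del u / 16 := by
  set K : ℝ := (Kb u : ℝ) with hK
  set W : ℝ := (K + 3) ^ 3 * (Y + Dv (u + 1) + 1) with hW
  have hlog : log (u + 4) ≤ K + 3 := by
    have h4 : log (u + 4) ≤ log (u + 2) + log (u + 2) := by
      rw [← log_mul (by linarith) (by linarith)]
      exact log_le_log (by linarith) (by nlinarith)
    have h5 : 20 * log (u + 2) ≤ K := by
      rw [hK, Kb]; push_cast; linarith [Nat.le_ceil (20 * log (u + 2))]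
    have h6 : 0 ≤ log (u + 2) := log_nonneg (by linarith)
    linarith
  have hK0 : 0 ≤ K := Nat.cast_nonneg _
  have k2 : (K + 3) ^ 2 ≤ W := by
    rw [hW]
    refine le_trans (pow_le_pow_right₀ (by linarith) (show 2 ≤ 3 by norm_num))
      (le_mul_of_one_le_right (by positivity) ?_)
    linarith [show 0 ≤ Dv (u + 1) from rpow_nonneg (by linarith) _]
  have e1 : Cr * (K + 2) * log (u + 4) ≤ Cr * W := by
    refine le_trans ?_ (mul_le_mul_of_nonneg_left k2 hCr)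
    rw [mul_assoc]
    refine mul_le_mul_of_nonneg_left ?_ hCr
    rw [sq]
    exact mul_le_mul (by linarith) hlog (log_nonneg (by linarith)) (by linarith)
  have e2 : 0 ≤ Cr * W := mul_nonneg hCr (le_trans (by positivity) k2)
  have e3 : (2 * Cr + 4 + C) * (K + 3) ^ 3 * (Y + Dv (u + 1) + 1) = (2 * Cr + 4 + C) * W := by
    rw [hW]; ring
  have e4 : C * (K + 3) ^ 3 * (Y + Dv (u + 1) + 1) = C * W := by rw [hW]; ring
  have hD : 0 ≤ Del u := Del_nonneg' (by linarith)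
  rw [e3] at h
  rw [e4]
  nlinarith

/-- Colliding representations carry little reciprocal mass. -/
theorem coll_recip : ∃ U : ℝ, ∀ u Y : ℝ, U ≤ u → 1 ≤ Y → Y ≤ 2 * Y0 u →
    ∀ S : Finset (Rep × Rep), (∀ x ∈ S, CollPair u Y x) →
      ∑ x ∈ S, (1 : ℝ) / x.1.val ≤ exp (-Del u / 16) := by
  obtain ⟨Cr, hCr, hred⟩ := reduce_recip
  obtain ⟨C, hcl⟩ := class_bound
  obtain ⟨U, hU⟩ := eventually_atTop.1 (((coll_cost (2 * Cr + 4 + C) (by positivity)).and
    (eventually_Y0_le (show (0 : ℝ) < 1 / 4 by norm_num))).and (eventually_ge_atTop (100 : ℝ)))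
  refine ⟨U, fun u Y hu hY hY2 S hS => ?_⟩
  obtain ⟨⟨hcost, hY0⟩, hu100⟩ := hU u hu
  have hYu : Y ≤ u := by linarith
  set E := exp (-Del u / 4 + (C : ℝ) * ((Kb u : ℝ) + 3) ^ 3 * (Y + Dv (u + 1) + 1))
  refine (hred u Y (exp (4 * ((Kb u : ℝ) + 3) ^ 2) * E) hu100 (by linarith) (by linarith) ?_ S hS).trans ?_
  · intro S' hS'
    refine sum_classes hu100 (by linarith) (exp_nonneg _) S' hS' _ fun la lb => ?_
    refine (hcl u Y hu100 hY hYu la lb _ fun x hx => ?_).1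
    obtain ⟨hx', h1, h2⟩ := Finset.mem_filter.1 hx
    exact ⟨hS' x hx', h1, h2⟩
  · rw [← exp_add, ← exp_add, exp_le_exp]
    linarith [coll_total hu100 (by linarith : (0 : ℝ) ≤ Y) hCr.le (hcost Y (by linarith) hY2)]

/-- Few values up to `X` have two such representations. -/
theorem coll_count : ∃ U : ℝ, ∀ X : ℕ, U ≤ LL X → ∀ Y : ℝ, 1 ≤ Y → Y ≤ 2 * Y0 (LL X) →
    ∀ S : Finset (Rep × Rep), (∀ x ∈ S, CollPair (LL X) Y x ∧ x.1.val ≤ X) →
      (S.card : ℝ) ≤ X / log X * exp (-Del (LL X) / 16) := by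
  obtain ⟨Cr, hCr, hred⟩ := reduce_count
  obtain ⟨C, hcl⟩ := class_bound
  obtain ⟨U, hU⟩ := eventually_atTop.1 (((coll_cost (2 * Cr + 4 + C) (by positivity)).and
    (eventually_Y0_le (show (0 : ℝ) < 1 / 4 by norm_num))).and (eventually_ge_atTop (100 : ℝ)))
  refine ⟨U, fun X hu Y hY hY2 S hS => ?_⟩
  set u := LL X with hu'
  obtain ⟨⟨hcost, hY0⟩, hu100⟩ := hU u hu
  have hYu : Y ≤ u := by linarith
  set E := exp (-u - Del u / 4 + (C : ℝ) * ((Kb u : ℝ) + 3) ^ 3 * (Y + Dv (u + 1) + 1))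
  have h1 := hred u Y (exp (4 * ((Kb u : ℝ) + 3) ^ 2) * E) hu100 (by linarith) (by linarith) ?_ X S
    (Nat.cast_nonneg _) fun x hx => ⟨(hS x hx).1, by exact_mod_cast (hS x hx).2⟩
  swap
  · intro X' S' hX' hS'
    have h := sum_classes (B := E * X') hu100 (by linarith) (mul_nonneg (exp_nonneg _) hX') S'
      (fun x hx => (hS' x hx).1) (fun _ => (1 : ℝ)) fun la lb => ?_
    · rw [Finset.sum_const, nsmul_eq_mul, mul_one] at h
      linarith
    · rw [Finset.sum_const, nsmul_eq_mul, mul_one, mul_comm E]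
      refine (hcl u Y hu100 hY hYu la lb _ fun x hx => ?_).2 X' hX' fun x hx => ?_
      · obtain ⟨hx', h1, h2⟩ := Finset.mem_filter.1 hx
        exact ⟨(hS' x hx').1, h1, h2⟩
      · exact (hS' x (Finset.mem_filter.1 hx).1).2
  obtain ⟨hlog, -⟩ := exp_LL (X := X) (show (0 : ℝ) < LL X by rw [← hu']; linarith)
  rw [← hu'] at hlog
  have key : exp (Cr * ((Kb u : ℝ) + 2) * log (u + 4)) * (exp (4 * ((Kb u : ℝ) + 3) ^ 2) * E)
      ≤ exp (-u) * exp (-Del u / 16) := by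
    rw [← exp_add, ← exp_add, ← exp_add, exp_le_exp]
    linarith [coll_total hu100 (by linarith : (0 : ℝ) ≤ Y) hCr.le (hcost Y (by linarith) hY2)]
  refine (h1.trans (mul_le_mul_of_nonneg_right key (Nat.cast_nonneg X))).trans (le_of_eq ?_)
  rw [← hlog, exp_neg u]
  ring

end Vale.Agent.P031
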