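import Vale.Agent.P031.Levels

/-!
# Totient values: geometric decay of the levels below good nodes
-/

open Finset Real Filter
open scoped Classical

noncomputable section

namespace Vale.Agent.P031

/-- A sequence decaying geometrically every four steps is short. -/
lemma geo_len {k : ℕ} {y : ℕ → ℝ} {Z u : ℝ} (hZ : 0 < Z) (hZu : Z ≤ u)
    (hlo : ∀ i < k, Z ≤ y i) (hhi : ∀ i < k, y i ≤ u)
    (hdec : ∀ i, i + 4 < k → y (i + 4) ≤ 0.75 * y i) :
    (k : ℝ) ≤ 16 * log (u / Z) + 5 := by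
  have hl : 0 ≤ log (u / Z) := log_nonneg (by rw [le_div_iff₀ hZ]; linarith)
  rcases Nat.lt_or_ge k 5 with hk | hk
  · have : (k : ℝ) ≤ 5 := by exact_mod_cast hk.le
    linarith
  obtain ⟨m, r, hr, hkm⟩ : ∃ m r, r < 4 ∧ k = 4 * m + 1 + r :=
    ⟨(k - 1) / 4, (k - 1) % 4, Nat.mod_lt _ (by norm_num), by omega⟩
  have hpow : ∀ j, 4 * j < k → y (4 * j) ≤ 0.75 ^ j * u := by
    intro j
    induction j with
    | zero => intro h; simpa using hhi 0 h
    | succ j ih =>
      intro h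
      calc y (4 * (j + 1)) ≤ 0.75 * y (4 * j) := by
            rw [show 4 * (j + 1) = 4 * j + 4 by ring]; exact hdec _ (by omega)
        _ ≤ 0.75 * (0.75 ^ j * u) := mul_le_mul_of_nonneg_left (ih (by omega)) (by norm_num)
        _ = _ := by ring
  have h1 : Z ≤ 0.75 ^ m * u := (hlo (4 * m) (by omega)).trans (hpow m (by omega))
  have h2 := log_le_log hZ h1
  rw [log_mul (by positivity) (by linarith), log_pow] at h2
  have h3 : log (0.75 : ℝ) ≤ -0.25 := by
    have := log_le_sub_one_of_pos (show (0 : ℝ) < 0.75 by norm_num); linarith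
  have h4 : (m : ℝ) * log 0.75 ≤ (m : ℝ) * -0.25 :=
    mul_le_mul_of_nonneg_left h3 (Nat.cast_nonneg m)
  rw [log_div (by linarith) hZ.ne'] at hl ⊢
  have hr' : (r : ℝ) ≤ 3 := by exact_mod_cast Nat.le_of_lt_succ hr
  rw [hkm]; push_cast; nlinarith

lemma log_ge_one {u : ℝ} (hu : 0 ≤ u) : 1 ≤ log (u + 3) := by
  rw [le_log_iff_exp_le (by linarith)]; linarith [exp_one_lt_d9]

lemma geo_len_Kb {k : ℕ} {y : ℕ → ℝ} {Z u : ℝ} (hZ : 1 ≤ Z) (hZu : Z ≤ u)
    (hlo : ∀ i < k, Z ≤ y i) (hhi : ∀ i < k, y i ≤ u)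
    (hdec : ∀ i, i + 4 < k → y (i + 4) ≤ 0.75 * y i) :
    k + 10 ≤ Kb u := by
  have h := geo_len (lt_of_lt_of_le one_pos hZ) hZu hlo hhi hdec
  have h1 : log (u / Z) ≤ log (u + 2) := by
    refine log_le_log (div_pos (by linarith) (by linarith)) ?_
    rw [div_le_iff₀ (by linarith : (0 : ℝ) < Z)]; nlinarith
  have h2 := Nat.le_ceil (20 * log (u + 2))
  have h3 : 0 ≤ log (u + 2) := log_nonneg (by linarith)
  have : ((k + 10 : ℕ) : ℝ) ≤ ((Kb u : ℕ) : ℝ) := by
    simp only [Kb]; push_cast; linarith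
  exact_mod_cast this

/-- Reverse geometric growth makes any rapidly decreasing sum over the levels tiny. -/
lemma geo_sum_exp {k : ℕ} {y : ℕ → ℝ} {Z c : ℝ} (hc : 0 < c) (hZ : 0 < Z)
    (hlo : ∀ i < k, Z ≤ y i) (hdec : ∀ i, i + 4 < k → y (i + 4) ≤ 0.75 * y i) :
    ∑ i ∈ Finset.range k, exp (-c * y i ^ (1 / 3 : ℝ))
      ≤ 4 * exp (-c * Z ^ (1 / 3 : ℝ)) / (1 - exp (-(c * Z ^ (1 / 3 : ℝ)) / 16)) := by
  set E := exp (-c * Z ^ (1 / 3 : ℝ)) with hE
  set q := exp (-(c * Z ^ (1 / 3 : ℝ)) / 16) with hq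
  have hZ3 : 0 < Z ^ (1 / 3 : ℝ) := rpow_pos_of_pos hZ _
  have hq1 : q < 1 := by rw [hq, exp_lt_one_iff]; nlinarith
  have hpow : ∀ j i, i + 4 * j < k → 0.75 ^ j * y i ≥ y (i + 4 * j) := by
    intro j
    induction j with
    | zero => intro i _; simp
    | succ j ih =>
      intro i h
      calc y (i + 4 * (j + 1)) ≤ 0.75 * y (i + 4 * j) := by
            rw [show i + 4 * (j + 1) = i + 4 * j + 4 by ring]; exact hdec _ (by omega)
        _ ≤ 0.75 * (0.75 ^ j * y i) := mul_le_mul_of_nonneg_left (ih i (by omega)) (by norm_num)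
        _ = _ := by ring
  have hterm : ∀ i ∈ Finset.range k,
      exp (-c * y i ^ (1 / 3 : ℝ)) ≤ E * q ^ ((k - 1 - i) / 4) := by
    intro i hi
    have hi' := Finset.mem_range.1 hi
    set j := (k - 1 - i) / 4 with hj
    have h1 := (hlo (i + 4 * j) (by omega)).trans (hpow j i (by omega))
    have hy : (4 / 3 : ℝ) ^ j * Z ≤ y i := by
      have h2 : (4 / 3 : ℝ) ^ j * (0.75 ^ j * y i) = y i := by
        rw [← mul_assoc, ← mul_pow]; norm_num
      calc (4 / 3 : ℝ) ^ j * Z ≤ (4 / 3 : ℝ) ^ j * (0.75 ^ j * y i) :=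
            mul_le_mul_of_nonneg_left h1 (by positivity)
        _ = _ := h2
    have h43 : (1 : ℝ) + (j : ℝ) / 16 ≤ ((4 / 3 : ℝ) ^ j) ^ (1 / 3 : ℝ) := by
      have hb : (1 + 1 / 16 : ℝ) ^ 3 ≤ 4 / 3 := by norm_num
      have hB := one_add_mul_le_pow (show (-2 : ℝ) ≤ 1 / 16 by norm_num) j
      calc (1 : ℝ) + (j : ℝ) / 16 ≤ (1 + 1 / 16) ^ j := by linarith
        _ = (((1 + 1 / 16 : ℝ) ^ 3) ^ j) ^ (1 / 3 : ℝ) := by
          rw [← pow_mul, mul_comm 3 j, pow_mul, ← rpow_natCast _ 3, ← rpow_mul (by positivity)]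
          norm_num
        _ ≤ _ := rpow_le_rpow (by positivity) (pow_le_pow_left₀ (by positivity) hb j) (by norm_num)
    have h3 : (1 + (j : ℝ) / 16) * Z ^ (1 / 3 : ℝ) ≤ y i ^ (1 / 3 : ℝ) := by
      refine le_trans ?_ (rpow_le_rpow (by positivity) hy (by norm_num))
      rw [mul_rpow (by positivity) hZ.le]
      exact mul_le_mul_of_nonneg_right h43 hZ3.le
    rw [hE, hq, ← exp_nat_mul, ← exp_add, exp_le_exp]
    nlinarith
  refine le_trans (Finset.sum_le_sum hterm) ?_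
  rw [← Finset.mul_sum]
  have hsum : ∑ i ∈ Finset.range k, q ^ ((k - 1 - i) / 4) ≤ 4 / (1 - q) := by
    rw [Finset.sum_range_reflect (fun i => q ^ (i / 4)) k]
    have h4 : ∀ m, ∑ i ∈ Finset.range (4 * m), q ^ (i / 4) = 4 * ∑ j ∈ Finset.range m, q ^ j := by
      intro m
      induction m with
      | zero => simp
      | succ m ih =>
        rw [show 4 * (m + 1) = 4 * m + 1 + 1 + 1 + 1 by ring, Finset.sum_range_succ,
          Finset.sum_range_succ, Finset.sum_range_succ, Finset.sum_range_succ, ih,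
          Finset.sum_range_succ, show (4 * m) / 4 = m by omega,
          show (4 * m + 1) / 4 = m by omega, show (4 * m + 1 + 1) / 4 = m by omega,
          show (4 * m + 1 + 1 + 1) / 4 = m by omega]
        ring
    calc ∑ i ∈ Finset.range k, q ^ (i / 4) ≤ ∑ i ∈ Finset.range (4 * k), q ^ (i / 4) :=
          Finset.sum_le_sum_of_subset_of_nonneg (Finset.range_subset_range.2 (by omega))
            fun i _ _ => by positivity
      _ = 4 * ∑ j ∈ Finset.range k, q ^ j := h4 k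
      _ ≤ 4 * (1 / (1 - q)) := by
          gcongr
          rw [Finset.range_eq_Ico]
          exact (geom_sum_Ico_le_of_lt_one (exp_nonneg _) hq1).trans (le_of_eq (by rw [pow_zero, hq]))
      _ = _ := by ring
  calc E * _ ≤ E * (4 / (1 - q)) := mul_le_mul_of_nonneg_left hsum (exp_nonneg _)
    _ = _ := by ring

/-- Below a good node the fourth level is smaller by a constant factor. -/
lemma node_decay : ∃ U : ℝ, 1 ≤ U ∧ ∀ Y : ℝ, U ≤ Y → ∀ n i : ℕ, i + 4 < (bigs Y n).length →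
    ¬ BadNode n ((bigs Y n).getD i 0) →
    lv (bigs Y n) (i + 4) ≤ 0.75 * lv (bigs Y n) i := by
  obtain ⟨U, hU⟩ := eventually_atTop.1 ((eventually_Del_le (show (0 : ℝ) < 0.05 by norm_num)).and
    (eventually_Y0_le (show (0 : ℝ) < 0.75 by norm_num)))
  refine ⟨max U 1, le_max_right _ _, fun Y hY n i hi hgood => ?_⟩
  have hY0 : (0 : ℝ) ≤ Y := by have := le_max_right U 1; linarith
  have hu : lv (bigs Y n) i = sc ((bigs Y n).getD i 0) := lv_of_lt (by omega)
  have hU' := hU (lv (bigs Y n) i)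
    ((le_max_left _ _).trans (hY.trans (lv_bigs_gt (show i < _ by omega)).le))
  by_cases hsmall : lv (bigs Y n) (i + 4) ≤ Y0 (lv (bigs Y n) i)
  · linarith [hU'.2]
  have h := node_ineq hY0 (m := 4) (show i + 1 + 4 ≤ (bigs Y n).length by omega)
    ((show 4 ≤ 20 by norm_num).trans (Kb_ge _)) (fun _ => not_le.1 hsmall)
  have hE : EntS (below n ((bigs Y n).getD i 0)) ≤ lv (bigs Y n) i + Del (lv (bigs Y n) i) := by
    rw [hu]; exact not_lt.1 fun hh => hgood (Or.inr hh)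
  have hnn : ∀ j, 0 ≤ lv (bigs Y n) j := fun j =>
    lv_nonneg (fun q hq => hY0.trans (mem_bigs.1 hq).2.2.2.le) j
  have h3 := Finset.single_le_sum
    (f := fun j => alpha (j + 1) * lv (bigs Y n) (i + 1 + j))
    (fun j _ => mul_nonneg (alpha_nonneg' j) (hnn _)) (Finset.mem_range.2 (show 3 < 4 by norm_num))
  simp only [show i + 1 + 3 = i + 4 by ring] at h3
  have h4 := mul_le_mul_of_nonneg_right (alpha_four_ge) (hnn (i + 4))
  norm_num at h3
  have h5 := hnn i
  nlinarith [hU'.1]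

/-- Chains of good nodes are short. -/
lemma bigs_short : ∃ U : ℝ, 1 ≤ U ∧ ∀ Y u : ℝ, U ≤ Y → Y ≤ u → ∀ n : ℕ,
    GoodInit n (bigs Y n) → (∀ q ∈ bigs Y n, sc q ≤ u) →
    (bigs Y n).length + 10 ≤ Kb u := by
  obtain ⟨U, hU1, hU⟩ := node_decay
  refine ⟨U, hU1, fun Y u hY hYu n hg hu => ?_⟩
  refine geo_len_Kb (le_trans hU1 hY) hYu (fun i hi => (lv_bigs_gt hi).le) (fun i hi => ?_)
    fun i hi => hU Y hY n i hi (hg i (by omega))
  rw [lv_of_lt hi]; exact hu _ (bigs_getD hi)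

/-- The whole tail below a good node has entropy at most the node's scale plus twice the slack. -/
lemma node_suffix : ∃ U : ℝ, 1 ≤ U ∧ ∀ Y : ℝ, U ≤ Y → ∀ n i : ℕ,
    GoodInit n (bigs Y n) → i + 1 < (bigs Y n).length →
    ∀ M : ℕ, i + 1 + M ≤ (bigs Y n).length →
    ∑ j ∈ Finset.range M, alpha (j + 1) * lv (bigs Y n) (i + 1 + j)
      ≤ lv (bigs Y n) i + 2 * Del (lv (bigs Y n) i) := by
  obtain ⟨U, hU1, hU⟩ := node_decay
  obtain ⟨U', hU'⟩ := eventually_atTop.1 (eventually_Kb_cost (show (0:ℝ) < 9/16 by norm_num) 1 2)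
  refine ⟨max U U', le_max_of_le_left hU1, fun Y hY n i hg hi M hM => ?_⟩
  have hUY : U ≤ Y := (le_max_left _ _).trans hY
  have hY0 : (0 : ℝ) ≤ Y := by linarith
  set y := lv (bigs Y n) with hy
  have hnn : ∀ j, 0 ≤ y j := fun j => lv_nonneg (fun q hq => hY0.trans (mem_bigs.1 hq).2.2.2.le) j
  have hiY : Y < y i := lv_bigs_gt (by omega)
  set u := y i with hu
  have hu0 : 0 ≤ u := hnn i
  have hlen : M + 10 ≤ Kb u := by
    refine geo_len_Kb (k := M) (y := fun j => y (i + 1 + j)) (Z := Y) (by linarith) hiY.le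
      (fun j hj => (lv_bigs_gt (by omega)).le) (fun j hj => lv_bigs_anti hY0 (by omega)) ?_
    intro j hj
    simp only [show i + 1 + (j + 4) = i + 1 + j + 4 by ring]
    exact hU Y hUY n _ (by omega) (hg _ (by omega))
  set P : ℕ → Prop := fun m => m ≤ M ∧ (0 < m → Y0 u < y (i + m)) with hP
  set m := Nat.findGreatest P M with hm
  have hPm : P m := Nat.findGreatest_spec (P := P) (Nat.zero_le M) ⟨Nat.zero_le M, by simp⟩
  have hrest : ∀ j < M, m ≤ j → y (i + 1 + j) ≤ Y0 u := by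
    intro j hjM hmj
    by_contra hc
    have h : j + 1 ≤ m := Nat.le_findGreatest (by omega)
      ⟨by omega, fun _ => by simpa [show i + (j + 1) = i + 1 + j by ring] using hc⟩
    omega
  have h1 := node_ineq hY0 (show i + 1 + m ≤ (bigs Y n).length by have := hPm.1; omega)
    (show m ≤ Kb (lv (bigs Y n) i) by have := hPm.1; simp only [← hy, ← hu]; omega) hPm.2
  have hE : EntS (below n ((bigs Y n).getD i 0)) ≤ u + Del u := by
    rw [hu, hy, lv_of_lt (by omega)]
    exact not_lt.1 fun hh => hg i hi (Or.inr hh)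
  simp only [← hy] at h1
  have h2 : ∑ j ∈ Finset.Ico m M, alpha (j + 1) * y (i + 1 + j)
      ≤ ((Kb u : ℝ) + 3) ^ 2 * Y0 u := by
    calc ∑ j ∈ Finset.Ico m M, alpha (j + 1) * y (i + 1 + j)
        ≤ ∑ _j ∈ Finset.Ico m M, ((Kb u : ℝ) + 3) * Y0 u := by
          refine Finset.sum_le_sum fun j hj => ?_
          obtain ⟨hj1, hj2⟩ := Finset.mem_Ico.1 hj
          refine mul_le_mul ?_ (hrest j hj2 hj1) (hnn _) (by positivity)
          refine (alpha_le_log _).trans ((log_le_sub_one_of_pos (by positivity)).trans ?_)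
          have : (j : ℝ) + 1 ≤ (Kb u : ℝ) := by exact_mod_cast (show j + 1 ≤ Kb u by omega)
          push_cast; linarith
      _ = ((M - m : ℕ) : ℝ) * (((Kb u : ℝ) + 3) * Y0 u) := by simp
      _ ≤ ((Kb u : ℝ) + 3) * (((Kb u : ℝ) + 3) * Y0 u) := by
          refine mul_le_mul_of_nonneg_right ?_ (mul_nonneg (by positivity) (Y0_nonneg hu0))
          have : ((M - m : ℕ) : ℝ) ≤ (Kb u : ℝ) := by exact_mod_cast (show M - m ≤ Kb u by omega)
          linarith
      _ = _ := by ring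
  have h3 : ((Kb u : ℝ) + 3) ^ 2 * Y0 u ≤ Del u := by
    have := hU' u (((le_max_right _ _).trans hY).trans hiY.le)
    rw [one_mul] at this
    calc ((Kb u : ℝ) + 3) ^ 2 * Y0 u ≤ u ^ (9 / 16 : ℝ) * Y0 u :=
          mul_le_mul_of_nonneg_right this (Y0_nonneg hu0)
      _ = Del u := by rw [Y0, Del, ← rpow_add' hu0 (by norm_num)]; norm_num
  rw [← Finset.sum_range_add_sum_Ico _ hPm.1]
  linarith

end Vale.Agent.P031
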