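import Vale.Agent.P031.BadMass

/-!
# Totient values: the reciprocal sum of smooth totient values is `exp (O(log² u))`
-/

open Finset Real Filter
open scoped Classical

noncomputable section

namespace Vale.Agent.P031

lemma Gsum_trivial : ∃ C : ℝ, 0 < C ∧ ∀ u : ℝ, 0 ≤ u → ∀ N : ℕ, Gsum u N ≤ exp (u + C) := by
  obtain ⟨C, hC, hM⟩ := mertens_upper
  refine ⟨C + 8, by linarith, fun u hu N => ?_⟩
  have h := smooth_weight_sum u (fun _ => 1) (fun q hq => ⟨zero_le_one, by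
      have : (2 : ℝ) ≤ q := by exact_mod_cast (mem_primesTo_iff.1 hq).1.two_le
      linarith⟩) (Gset u N) (fun a ha => by
      obtain ⟨-, -, n, hn, rfl⟩ := mem_Gset.1 ha
      exact hn.totient)
  have hw : ∀ m : ℕ, wt (fun _ => (1 : ℝ)) m = 1 := fun m => by simp [wt]
  simp only [hw] at h
  refine h.trans (exp_le_exp.2 ?_)
  rw [Finset.sum_add_distrib]
  have h2 : ∑ q ∈ primesTo u, 4 * ((1 : ℝ) / q) ^ 2 ≤ 8 := by
    rw [← Finset.mul_sum]
    have : ∑ q ∈ primesTo u, ((1 : ℝ) / q) ^ 2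
        ≤ ∑ q ∈ Finset.Ioo 0 (⌊exp (exp u)⌋₊ + 1), ((q : ℝ) ^ 2)⁻¹ := by
      refine le_trans (le_of_eq (Finset.sum_congr rfl fun q _ => by rw [one_div, inv_pow]))
        (Finset.sum_le_sum_of_subset_of_nonneg (fun q hq => ?_) fun q _ _ => by positivity)
      obtain ⟨hp, hq'⟩ := mem_primesTo_iff.1 hq
      exact Finset.mem_Ioo.2 ⟨hp.pos,
        Nat.lt_succ_of_le (Nat.le_floor ((sc_le_exp_iff hp.two_le).1 hq'))⟩
    have h3 := sum_Ioo_inv_sq_le (α := ℝ) 0 (⌊exp (exp u)⌋₊ + 1)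
    norm_num at h3
    linarith
  have := hM u hu
  linarith

/-- Reciprocal mass of products `∏ (p - 1)` over tuples of primes. -/
lemma tuple_mass (S : Finset ℕ) (hS : ∀ p ∈ S, p.Prime) (k : ℕ) :
    ∑ a ∈ ((Fintype.piFinset fun _ : Fin k => S).image
        fun f : Fin k → ℕ => ∏ l, (f l - 1) : Finset ℕ), (1 : ℝ) / a
      ≤ (2 * ∑ p ∈ S, (1 : ℝ) / p) ^ k := by
  refine (Finset.sum_image_le_of_nonneg (f := fun a : ℕ => (1 : ℝ) / a)
    fun _ _ => by positivity).trans ?_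
  calc ∑ f ∈ Fintype.piFinset (fun _ : Fin k => S), (1 : ℝ) / ((∏ l, (f l - 1) : ℕ) : ℝ)
      = ∑ f ∈ Fintype.piFinset (fun _ : Fin k => S), ∏ l, (1 : ℝ) / ((f l - 1 : ℕ) : ℝ) :=
        Finset.sum_congr rfl fun f _ => by
          rw [Nat.cast_prod, Finset.prod_div_distrib, Finset.prod_const_one]
    _ = (∑ p ∈ S, (1 : ℝ) / ((p - 1 : ℕ) : ℝ)) ^ k :=
        Finset.sum_pow' S (fun p => (1 : ℝ) / ((p - 1 : ℕ) : ℝ)) k |>.symm
    _ ≤ _ := by
        refine pow_le_pow_left₀ (Finset.sum_nonneg fun p _ => by positivity) ?_ k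
        rw [Finset.mul_sum]
        refine Finset.sum_le_sum fun p hp => ?_
        have : (2 : ℝ) ≤ p := by exact_mod_cast (hS p hp).two_le
        rw [Nat.cast_sub (hS p hp).one_le]; push_cast
        rw [mul_one_div, div_le_div_iff₀ (by linarith) (by linarith)]
        linarith

/-- One step of the recursion. -/
lemma Gsum_step : ∃ A U : ℝ, 4 ≤ U ∧ ∀ u : ℝ, U ≤ u → ∀ N : ℕ,
    Gsum u N ≤ exp (A * log (u + 3) ^ 2) * Gsum (√u) N := by
  obtain ⟨C, hC, hM⟩ := mertens_upper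
  obtain ⟨U₁, hB⟩ := bad_mass
  obtain ⟨U₂, hU₂1, hS⟩ := bigs_short
  set A : ℝ := 42 * (log (2 * C + 3) + 2) + 1 with hA
  obtain ⟨U₃, hU₃⟩ := eventually_atTop.1
    ((tendsto_rpow_atTop (show (0:ℝ) < 1/64 by norm_num)).eventually_ge_atTop (log 2))
  refine ⟨A, max 4 (max (U₁ ^ 2) (max (U₂ ^ 2) (U₃ ^ 2))), le_max_left _ _, fun u hu N => ?_⟩
  simp only [max_le_iff] at hu
  obtain ⟨hu4, hu1, hu2, hu3⟩ := hu
  have hroot : ∀ x : ℝ, x ^ 2 ≤ u → x ≤ √u := fun x hx => Real.le_sqrt_of_sq_le hx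
  set Z := √u with hZdef
  have hZ1 : 1 ≤ Z := hroot 1 (by linarith)
  have hZu : Z ≤ u := by rw [hZdef, Real.sqrt_le_left (by linarith)]; nlinarith
  set P : Finset ℕ := (Finset.range (Kb u + 1)).biUnion fun k =>
    (Fintype.piFinset fun _ : Fin k => primesTo u).image fun f => ∏ l, (f l - 1) with hP
  set Sb := (Gset u N).filter fun a => a ≤ N ∧ ∃ n, Smooth u n ∧ Nat.totient n = a ∧
    ∃ p ∈ bigs Z n, BadNode n p with hSb
  have hkey : ∀ a ∈ Gset u N \ Sb, ∃ x ∈ P, ∃ y ∈ Gset Z N, a = x * y := by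
    intro a ha
    obtain ⟨haG, haS⟩ := Finset.mem_sdiff.1 ha
    obtain ⟨-, haN, n, hn, rfl⟩ := mem_Gset.1 haG
    have hgood : ∀ p ∈ bigs Z n, ¬ BadNode n p := fun p hp hb =>
      haS (Finset.mem_filter.2 ⟨haG, haN, n, hn, rfl, p, hp, hb⟩)
    have hlen := hS Z u (hroot _ hu2) hZu n
      (fun i hi => hgood _ (bigs_getD (by omega)))
      (fun q hq => hn.2 q (mem_bigs.1 hq).1 (mem_bigs.1 hq).2.1)
    obtain ⟨r, hrn, hval, hr3, hr4, -⟩ := totient_split hn.1 (l := bigs Z n)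
      ((bigs_pairwise Z n).imp fun hab => (ne_of_lt hab).symm)
      (fun q hq => ⟨(mem_bigs.1 hq).1, (mem_bigs.1 hq).2.1,
        fun hh => hgood q hq (Or.inl (Or.inl hh))⟩)
    have hr : Smooth Z r := by
      refine ⟨(hn.of_dvd hrn).1, fun q hq hqr => ?_⟩
      by_contra hqZ
      exact hr3 q (mem_bigs.2 ⟨hq, hqr.trans hrn, hn.1, not_le.1 hqZ⟩) hqr
    refine ⟨_, ?_, _, totient_mem_Gset hr ?_, hval⟩
    · refine Finset.mem_biUnion.2 ⟨(bigs Z n).length, Finset.mem_range.2 (by omega),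
        Finset.mem_image.2 ⟨fun l => (bigs Z n).get l, Fintype.mem_piFinset.2 fun l => ?_, ?_⟩⟩
      · obtain ⟨h1, h2, -, -⟩ := mem_bigs.1 (List.get_mem (bigs Z n) l)
        exact mem_primesTo_iff.2 ⟨h1, hn.2 _ h1 h2⟩
      · rw [← Fin.prod_univ_fun_getElem (bigs Z n) fun q => q - 1]; simp
    · refine le_trans (Nat.le_mul_of_pos_left _ ?_) (hval ▸ haN)
      exact Nat.pos_of_ne_zero (pred_prod_ne_zero fun q hq => (mem_bigs.1 hq).1)
  have hgoodsum := sum_recip_le_mul _ P (Gset Z N) hkey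
  have hbad : ∑ a ∈ Sb, (1 : ℝ) / a ≤ 1 / 2 * Gsum u N := by
    refine (hB Z u (hroot _ hu1) N Sb fun a ha => (Finset.mem_filter.1 ha).2).trans
      (mul_le_mul_of_nonneg_right ?_ (Gsum_nonneg u N))
    rw [show (1 : ℝ) / 2 = exp (-log 2) by rw [exp_neg, exp_log two_pos, one_div], exp_le_exp]
    linarith [hU₃ Z (hroot _ hu3)]
  have hsplit : ∑ a ∈ Gset u N \ Sb, (1 : ℝ) / a + ∑ a ∈ Sb, (1 : ℝ) / a = Gsum u N :=
    Finset.sum_sdiff (Finset.filter_subset _ _)
  -- the mass of the prime tuples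
  set b : ℝ := 2 * (u + C) + 1 with hb
  have hPm : ∑ a ∈ P, (1 : ℝ) / a ≤ ((Kb u : ℝ) + 1) * b ^ Kb u := by
    refine (sum_biUnion_nonneg fun a => by positivity).trans ?_
    have hterm : ∀ k ∈ Finset.range (Kb u + 1),
        ∑ a ∈ ((Fintype.piFinset fun _ : Fin k => primesTo u).image
            fun f : Fin k → ℕ => ∏ l, (f l - 1) : Finset ℕ), (1 : ℝ) / a ≤ b ^ Kb u := by
      intro k hk
      refine (tuple_mass (primesTo u) (fun p hp => (mem_primesTo_iff.1 hp).1) k).trans ?_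
      refine le_trans (pow_le_pow_left₀ ?_ ?_ k)
        (pow_le_pow_right₀ (by linarith) (Nat.le_of_lt_succ (Finset.mem_range.1 hk)))
      · exact mul_nonneg zero_le_two (Finset.sum_nonneg fun p _ => by positivity)
      · linarith [hM u (by linarith)]
    calc _ ≤ ∑ _k ∈ Finset.range (Kb u + 1), b ^ Kb u := Finset.sum_le_sum hterm
      _ = _ := by simp
  -- numerics
  have hnum : 2 * (((Kb u : ℝ) + 1) * b ^ Kb u) ≤ exp (A * log (u + 3) ^ 2) := by
    have hK := Kb_le_log (show 0 ≤ u by linarith)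
    have hl := log_ge_one (show 0 ≤ u by linarith)
    have hbl : log b ≤ log (2 * C + 3) + log (u + 3) := by
      rw [← log_mul (by positivity) (by linarith)]
      exact log_le_log (by positivity) (by nlinarith)
    have hC0 : 0 ≤ log (2 * C + 3) := log_nonneg (by linarith)
    rw [← exp_log (show (0:ℝ) < 2 * (((Kb u : ℝ) + 1) * b ^ Kb u) by positivity), exp_le_exp,
      log_mul two_ne_zero (by positivity), log_mul (by positivity) (by positivity), log_pow]
    have h2 : log 2 ≤ 1 := by linarith [Real.log_two_lt_d9]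
    have hK1 : log ((Kb u : ℝ) + 1) ≤ (Kb u : ℝ) := by
      have := log_le_sub_one_of_pos (show (0:ℝ) < (Kb u : ℝ) + 1 by positivity); linarith
    have hb0 : 0 ≤ log b := log_nonneg (by linarith)
    have h3 : (Kb u : ℝ) * log b
        ≤ 41 * log (u + 3) * (log (2 * C + 3) + log (u + 3)) := mul_le_mul hK hbl hb0 (by linarith)
    have hl2 : log (u + 3) ≤ log (u + 3) ^ 2 := by nlinarith
    have hl3 := mul_le_mul_of_nonneg_left hl2 hC0
    rw [hA]
    nlinarith
  have hG : ∑ a ∈ Gset Z N, (1 : ℝ) / a = Gsum Z N := rfl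
  rw [hG] at hgoodsum
  have h5 := mul_le_mul_of_nonneg_right hPm (Gsum_nonneg Z N)
  have h6 := mul_le_mul_of_nonneg_right hnum (Gsum_nonneg Z N)
  linarith

/-- Totient values of smooth integers have a tiny reciprocal sum. -/
theorem Gsum_bound : ∃ A : ℝ, 0 < A ∧ ∀ u : ℝ, 0 ≤ u → ∀ N : ℕ,
    Gsum u N ≤ exp (A * log (u + 3) ^ 2) := by
  obtain ⟨C, hC, hT⟩ := Gsum_trivial
  obtain ⟨A₀, U₀, hU4, hS⟩ := Gsum_step
  set U := max U₀ 30 with hU
  set A := max (3 * A₀) (U + C) with hA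
  have hApos : 0 < A := by
    have h1 := le_max_right U₀ 30
    have := le_max_right (3 * A₀) (U + C)
    linarith
  refine ⟨A, hApos, ?_⟩
  suffices h : ∀ n : ℕ, ∀ u : ℝ, 0 ≤ u → u ≤ n → ∀ N : ℕ,
      Gsum u N ≤ exp (A * log (u + 3) ^ 2) from fun u hu N => h ⌈u⌉₊ u hu (Nat.le_ceil u) N
  have hbase : ∀ u : ℝ, 0 ≤ u → u ≤ U → ∀ N : ℕ, Gsum u N ≤ exp (A * log (u + 3) ^ 2) := by
    intro u hu huU N
    refine (hT u hu N).trans (exp_le_exp.2 ?_)
    have h1 := log_ge_one hu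
    have h2 : (1 : ℝ) ≤ log (u + 3) ^ 2 := one_le_pow₀ h1
    have h3 := le_max_right (3 * A₀) (U + C)
    nlinarith
  intro n
  induction n with
  | zero => exact fun u hu hun => hbase u hu (le_trans hun (by norm_num [hU]))
  | succ n ih =>
    intro u hu hun N
    rcases le_or_gt u U with h | h
    · exact hbase u hu h N
    have h30 : 30 < u := lt_of_le_of_lt (le_max_right U₀ 30) h
    have hsq : √u ≤ u / 5 := by rw [Real.sqrt_le_left (by linarith)]; nlinarith
    have hn : √u ≤ n := by push_cast at hun; linarith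
    refine (hS u (le_trans (le_max_left _ _) h.le) N).trans ?_
    refine le_trans (mul_le_mul_of_nonneg_left (ih (√u) (Real.sqrt_nonneg u) hn N) (exp_nonneg _)) ?_
    rw [← exp_add, exp_le_exp]
    have hs0 := Real.sqrt_nonneg u
    have hs2 : √u ^ 2 = u := Real.sq_sqrt hu
    have hs5 : 5 ≤ √u := Real.le_sqrt_of_sq_le (by linarith)
    have hlog : 5 * log (√u + 3) ≤ 4 * log (u + 3) := by
      have h1 : (√u + 3) ^ 5 ≤ (u + 3) ^ 4 := by
        have e1 : (√u + 3) ^ 5 ≤ (1.6 * √u) ^ 5 := pow_le_pow_left₀ (by linarith) (by linarith) 5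
        have e2 : u ^ 4 ≤ (u + 3) ^ 4 := pow_le_pow_left₀ hu (by linarith) 4
        have e3 : (1.6 * √u) ^ 5 ≤ u ^ 4 := by
          have e4 : u ^ 4 = √u ^ 3 * √u ^ 5 := by nth_rewrite 1 [← hs2]; ring
          have e5 : (1.6 : ℝ) ^ 5 ≤ √u ^ 3 :=
            le_trans (by norm_num) (pow_le_pow_left₀ (by norm_num) hs5 3)
          rw [e4, mul_pow]
          exact mul_le_mul_of_nonneg_right e5 (by positivity)
        linarith
      have := log_le_log (by positivity) h1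
      rw [log_pow, log_pow] at this
      push_cast at this
      linarith
    have hl0 := log_ge_one hs0
    have hl2 : log (√u + 3) ^ 2 ≤ (4 / 5 * log (u + 3)) ^ 2 :=
      pow_le_pow_left₀ (by linarith) (by linarith) 2
    have hA2 := le_max_left (3 * A₀) (U + C)
    have h9 := mul_le_mul_of_nonneg_left hl2 hApos.le
    have h10 := mul_le_mul_of_nonneg_right (show A₀ ≤ 36 / 100 * A by
      nlinarith) (sq_nonneg (log (u + 3)))
    nlinarith

end Vale.Agent.P031
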