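import Vale.Agent.P031.MainDefs
import Vale.Agent.P031.GBound
import Vale.Agent.P031.Collide

/-!
# Totient values: lower count through the main set
-/

open Finset Real Filter
open scoped Classical

noncomputable section

namespace Vale.Agent.P031

/-- A chosen integer with totient `a`, for `a` in the main set. -/
def mainWit (L : ℝ) (a : ℕ) : ℕ :=
  if h : ∃ n, Smooth (L - Del L / 2) n ∧ Nat.totient n = a ∧ GoodAbove (Y0 L) n ∧
      EntS (bigs (Y0 L) n) ≤ L - Del L / 2 then h.choose else 0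

lemma mainWit_spec {L : ℝ} {a : ℕ} (ha : a ∈ Amain L) :
    Smooth (L - Del L / 2) (mainWit L a) ∧ Nat.totient (mainWit L a) = a ∧
      GoodAbove (Y0 L) (mainWit L a) ∧ EntS (bigs (Y0 L) (mainWit L a)) ≤ L - Del L / 2 := by
  have h := (Finset.mem_filter.1 ha).2
  rw [mainWit, dif_pos h]
  exact h.choose_spec

/-- The representation of `(p - 1) a`. -/
def mainRep (L : ℝ) (x : (_ : ℕ) × ℕ) : Rep :=
  ⟨x.2 :: bigs (Y0 L) (mainWit L x.1),
    x.1 / ((bigs (Y0 L) (mainWit L x.1)).map fun q => q - 1).prod⟩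

lemma mainRep_props {L : ℝ} {a : ℕ} (ha : a ∈ Amain L) (p : ℕ) :
    (mainRep L ⟨a, p⟩).val = (p - 1) * a ∧ Smooth (Y0 L) (mainRep L ⟨a, p⟩).tl := by
  obtain ⟨hn, hphi, hgood, -⟩ := mainWit_spec ha
  set n := mainWit L a with hnd
  set l := bigs (Y0 L) n with hl
  have hd : l.Nodup := (bigs_pairwise _ _).imp fun hab => (ne_of_lt hab).symm
  obtain ⟨r, hr1, hr2, hr3, -, -⟩ := totient_split hn.1 hd fun q hq =>
    ⟨(mem_bigs.1 hq).1, (mem_bigs.1 hq).2.1, fun hh => hgood q hq (Or.inl (Or.inl hh))⟩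
  have hne := pred_prod_ne_zero (l := l) fun q hq => (mem_bigs.1 hq).1
  rw [hphi] at hr2
  have hdiv : a / (l.map fun q => q - 1).prod = Nat.totient r := by
    rw [hr2, Nat.mul_div_cancel_left _ (Nat.pos_of_ne_zero hne)]
  refine ⟨?_, ?_⟩
  · simp only [mainRep, Rep.val, List.map_cons, List.prod_cons, ← hnd, ← hl, hdiv, mul_assoc, ← hr2]
  · simp only [mainRep, ← hnd, ← hl, hdiv]
    refine Smooth.totient ⟨(hn.of_dvd hr1).1, fun q hq hqr => ?_⟩
    by_contra hc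
    exact hr3 q (mem_bigs.2 ⟨hq, hqr.trans hr1, hn.1, not_le.1 hc⟩) hqr

lemma mem_Amain_le {L : ℝ} {a : ℕ} (ha : a ∈ Amain L) :
    1 ≤ a ∧ (a : ℝ) ≤ exp (exp (L - Del L / 4)) := by
  obtain ⟨h1, h2⟩ := Finset.mem_Icc.1 (Finset.mem_filter.1 ha).1
  exact ⟨h1, le_trans (by exact_mod_cast h2) (Nat.floor_le (exp_pos _).le)⟩

lemma card_Amain_le (L : ℝ) : ((Amain L).card : ℝ) ≤ exp (exp (L - Del L / 4)) := by
  refine le_trans ?_ (Nat.floor_le (exp_pos (exp (L - Del L / 4))).le)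
  refine Nat.cast_le.2 ((Finset.card_filter_le _ _).trans ?_)
  simp

lemma Smain_le : ∃ A : ℝ, 0 < A ∧ ∀ L : ℝ, 0 ≤ L → Smain L ≤ exp (A * log (L + 3) ^ 2) := by
  obtain ⟨A, hA, hG⟩ := Gsum_bound
  refine ⟨A, hA, fun L hL => le_trans ?_ (hG L hL ⌊exp (exp (L - Del L / 4))⌋₊)⟩
  refine Finset.sum_le_sum_of_subset_of_nonneg (fun a ha => ?_) fun a _ _ => by positivity
  obtain ⟨h1, h2⟩ := Finset.mem_filter.1 ha
  obtain ⟨hn, hphi, -, -⟩ := mainWit_spec ha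
  exact mem_Gset.2 ⟨(Finset.mem_Icc.1 h1).1, (Finset.mem_Icc.1 h1).2, mainWit L a,
    hn.mono (by linarith [Del_nonneg' hL]), hphi⟩

lemma lower_numerics (A c : ℝ) (hc : 0 < c) : ∀ᶠ L : ℝ in atTop,
    4 * L ^ (1 / 1000 : ℝ) + 4 + A * log (L + 3) ^ 2 ≤ c * (L - 1) ^ (1 / 3 : ℝ) ∧
    4 * L ^ (1 / 1000 : ℝ) + 4 ≤ Del L / 16 ∧ 16 ≤ Del L ∧ Del L ≤ L ∧ 64 ≤ L ∧
    1 ≤ Y0 L ∧ Y0 L ≤ L / 4 := by
  filter_upwards [polylog_le_rpow 2 (show (0:ℝ) < 1/4 by norm_num) A,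
    rpow_le_small (show (1/4:ℝ) < 1/3 by norm_num) (show (0:ℝ) < c / 32 by positivity),
    rpow_le_small (show (1/4:ℝ) < 3/4 by norm_num) (show (0:ℝ) < 1 / 256 by norm_num),
    eventually_Y0_le (show (0:ℝ) < 1/4 by norm_num),
    eventually_ge_atTop (64:ℝ)] with L h1 h2 h3 h4 h5
  have hs : L ^ (1 / 1000 : ℝ) ≤ L ^ (1 / 4 : ℝ) :=
    Real.rpow_le_rpow_of_exponent_le (by linarith) (by norm_num)
  have hq : 1 ≤ L ^ (1 / 4 : ℝ) := Real.one_le_rpow (by linarith) (by norm_num)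
  have h6 : L ^ (1 / 3 : ℝ) / 2 ≤ (L - 1) ^ (1 / 3 : ℝ) := by
    refine le_trans ?_ (Real.rpow_le_rpow (by linarith) (show L / 2 ≤ L - 1 by linarith)
      (by norm_num))
    rw [Real.div_rpow (by linarith) (by norm_num)]
    exact div_le_div_of_nonneg_left (rpow_nonneg (by linarith) _) (rpow_pos_of_pos two_pos _)
      (Real.rpow_le_self_of_one_le (by norm_num) (by norm_num))
  have h7 := mul_le_mul_of_nonneg_left h6 hc.le
  have hD : Del L = L ^ (3 / 4 : ℝ) := rfl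
  refine ⟨by linarith, by linarith, by linarith, ?_, h5, Real.one_le_rpow (by linarith) (by norm_num),
    by linarith⟩
  exact Real.rpow_le_self_of_one_le (by linarith) (by norm_num)

lemma sixteen_le_exp_three : (16:ℝ) ≤ exp 3 := by
  rw [show (3:ℝ) = 1 + 1 + 1 by norm_num, exp_add, exp_add]
  nlinarith [exp_one_gt_d9, mul_pos (exp_pos (1:ℝ)) (exp_pos (1:ℝ))]

lemma scale_facts {X Y : ℕ} (hL : 0 < LL X) (hXY : X ≤ Y) (hYX : Y ≤ X ^ 2) :
    1 < (Y:ℝ) ∧ exp (LL Y) = log (Y:ℝ) ∧ LL X ≤ LL Y ∧ LL Y ≤ LL X + 1 := by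
  obtain ⟨hlogX, hX1⟩ := exp_LL (X := X) hL
  have hXR : (X:ℝ) ≤ Y := by exact_mod_cast hXY
  have hY1 : 1 < (Y:ℝ) := by linarith
  have hlY : 0 < log (Y:ℝ) := log_pos hY1
  have huY : exp (LL Y) = log (Y:ℝ) := exp_log hlY
  refine ⟨hY1, huY, ?_, ?_⟩
  · refine exp_le_exp.1 ?_
    rw [hlogX, huY]; exact log_le_log (by linarith) hXR
  · refine exp_le_exp.1 ?_
    rw [huY, exp_add, hlogX]
    have h1 : (Y:ℝ) ≤ (X:ℝ) ^ 2 := by exact_mod_cast hYX
    have h2 := log_le_log (by linarith) h1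
    rw [log_pow] at h2
    push_cast at h2
    have h3 : 2 ≤ exp 1 := by linarith [add_one_le_exp (1:ℝ)]
    have h4 : 0 < log (X:ℝ) := log_pos hX1
    have h5 := mul_le_mul_of_nonneg_left h3 h4.le
    linarith

lemma sc_of_sqrt_lt {Y p : ℕ} (hY : 1 < (Y:ℝ)) (hp : Nat.sqrt Y < p) : LL Y - 1 ≤ sc p := by
  have h1 : (Y:ℝ) ≤ (p:ℝ) * p := by exact_mod_cast (Nat.sqrt_lt.1 hp).le
  have hlY : 0 < log (Y:ℝ) := log_pos hY
  have hp1 : (1:ℝ) < p := by
    have hp0 : (0:ℝ) ≤ p := Nat.cast_nonneg p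
    nlinarith
  have h2 := log_le_log (by linarith) h1
  rw [log_mul (by positivity) (by positivity)] at h2
  have hlp : 0 < log (p:ℝ) := log_pos hp1
  have : LL Y ≤ log 2 + sc p := by
    rw [LL, sc, ← log_mul (by norm_num) hlp.ne']
    exact log_le_log hlY (by linarith)
  linarith [log_two_lt_d9]

/-- Admissible top primes for a cofactor. -/
def topPrimes (Y a : ℕ) : Finset ℕ :=
  (Nat.primesLE (Y / a)).filter fun p => Nat.sqrt Y < p ∧ Normal p

/-- The pairs of cofactor and top prime. -/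
def mainPairs (L : ℝ) (Y : ℕ) : Finset ((_ : ℕ) × ℕ) := (Amain L).sigma (topPrimes Y)

lemma mem_mainPairs {L : ℝ} {Y : ℕ} (hY : 1 < (Y:ℝ)) {x : (_ : ℕ) × ℕ} (hx : x ∈ mainPairs L Y) :
    x.1 ∈ Amain L ∧ x.2.Prime ∧ x.2 * x.1 ≤ Y ∧ Normal x.2 ∧ LL Y - 1 ≤ sc x.2 ∧
      sc x.2 ≤ LL Y := by
  obtain ⟨hxa, hxp⟩ := Finset.mem_sigma.1 hx
  obtain ⟨hp1, hp2, hp3⟩ := Finset.mem_filter.1 hxp
  obtain ⟨hp4, hp5⟩ := Nat.mem_primesLE.1 hp1
  have hle := (Nat.le_div_iff_mul_le (mem_Amain_le hxa).1).1 hp4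
  refine ⟨hxa, hp5, hle, hp3, sc_of_sqrt_lt hY hp2, sc_le_LL' hp5.two_le (le_trans ?_ hle)⟩
  exact Nat.le_mul_of_pos_right _ (mem_Amain_le hxa).1

lemma mainPairs_below {L : ℝ} {Y : ℕ} (hY : 1 < (Y:ℝ)) (hLY : L ≤ LL Y) (hD : 4 ≤ Del L)
    {x : (_ : ℕ) × ℕ} (hx : x ∈ mainPairs L Y) {q : ℕ} (hq : q.Prime)
    (hqd : q ∣ mainWit L x.1) : q < x.2 := by
  obtain ⟨hxa, hp, -, -, hp5, -⟩ := mem_mainPairs hY hx
  have h1 := (mainWit_spec hxa).1.2 q hq hqd
  by_contra hcon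
  have h2 := sc_mono hp.two_le (not_lt.1 hcon)
  linarith

lemma mainPairs_val {L : ℝ} {Y : ℕ} (hY : 1 < (Y:ℝ)) (hLY : L ≤ LL Y) (hD : 4 ≤ Del L)
    {x : (_ : ℕ) × ℕ} (hx : x ∈ mainPairs L Y) : (mainRep L x).val ∈
      (Finset.Icc 1 Y).filter (fun a => ∃ n, 0 < n ∧ Nat.totient n = a) := by
  obtain ⟨hxa, hp, hpY, -, -, -⟩ := mem_mainPairs hY hx
  rw [show mainRep L x = mainRep L ⟨x.1, x.2⟩ from rfl, (mainRep_props hxa x.2).1]
  obtain ⟨hn, hphi, -, -⟩ := mainWit_spec hxa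
  have hp2 := hp.two_le
  refine Finset.mem_filter.2 ⟨Finset.mem_Icc.2 ⟨Nat.mul_pos (by omega) (mem_Amain_le hxa).1,
    le_trans (Nat.mul_le_mul_right _ (Nat.sub_le _ _)) hpY⟩, x.2 * mainWit L x.1,
    Nat.mul_pos hp.pos (Nat.pos_of_ne_zero hn.1), ?_⟩
  rw [Nat.totient_mul (hp.coprime_iff_not_dvd.2
      fun hd => lt_irrefl _ (mainPairs_below hY hLY hD hx hp hd)),
    Nat.totient_prime hp, hphi]

lemma mainPairs_inj {L : ℝ} {Y : ℕ} (hY : 1 < (Y:ℝ)) {x y : (_ : ℕ) × ℕ} (hx : x ∈ mainPairs L Y)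
    (hy : y ∈ mainPairs L Y) (h2 : x.2 = y.2) (hv : (mainRep L x).val = (mainRep L y).val) :
    x = y := by
  obtain ⟨hxa, hp, -⟩ := mem_mainPairs hY hx
  obtain ⟨hya, -⟩ := mem_mainPairs hY hy
  rw [show mainRep L x = mainRep L ⟨x.1, x.2⟩ from rfl, (mainRep_props hxa x.2).1,
    show mainRep L y = mainRep L ⟨y.1, y.2⟩ from rfl, (mainRep_props hya y.2).1, ← h2] at hv
  have := hp.two_le
  exact Sigma.ext (Nat.eq_of_mul_eq_mul_left (by omega) hv) (heq_of_eq h2)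

lemma mainPairs_repOK : ∃ U : ℝ, ∀ L : ℝ, U ≤ Y0 L → 1 ≤ L → Y0 L ≤ L → 4 ≤ Del L → ∀ Y : ℕ,
    1 < (Y:ℝ) → L ≤ LL Y → ∀ x ∈ mainPairs L Y, RepOK (LL Y) (Y0 L) (mainRep L x) := by
  obtain ⟨Ub, -, hshort⟩ := bigs_short
  refine ⟨Ub, fun L hU hL hY0L hD Y hY hLY x hx => ?_⟩
  obtain ⟨hxa, hp, -, hpN, hp5, hp6⟩ := mem_mainPairs hY hx
  obtain ⟨hn, -, hgood, -⟩ := mainWit_spec hxa
  have hb : ∀ q ∈ bigs (Y0 L) (mainWit L x.1), sc q ≤ L := fun q hq => by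
    have := hn.2 q (mem_bigs.1 hq).1 (mem_bigs.1 hq).2.1
    linarith
  refine ⟨List.cons_ne_nil _ _, List.pairwise_cons.2 ⟨fun q hq =>
    mainPairs_below hY hLY hD hx (mem_bigs.1 hq).1 (mem_bigs.1 hq).2.1, bigs_pairwise _ _⟩, ?_, ?_,
    (mainRep_props hxa x.2).2⟩
  · have h1 := hshort (Y0 L) L hU hY0L (mainWit L x.1)
      (fun i hi => hgood _ (bigs_getD (by omega))) hb
    have h2 := Kb_mono (show 0 ≤ L by linarith) hLY
    simp only [mainRep, List.length_cons]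
    omega
  · intro q hq
    rcases List.mem_cons.1 hq with rfl | hq
    · refine ⟨hp, hpN, ?_, by linarith⟩
      by_contra hc
      have hq4 := not_lt.1 hc
      have hDL : Del L ≤ L := Real.rpow_le_self_of_one_le hL (by norm_num)
      have h3 : Y0 L ≤ L / 2 := by
        have h4 : (2:ℝ) * L ^ (3 / 16 : ℝ) ≤ L := by
          have h5 : L ^ (3 / 16 : ℝ) * L ^ (9 / 16 : ℝ) = L ^ (3 / 4 : ℝ) := by
            rw [← Real.rpow_add (by linarith)]; norm_num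
          have h6 : (2:ℝ) ≤ L ^ (9 / 16 : ℝ) := by
            have h7 : (4:ℝ) ^ (3 / 4 : ℝ) ≤ L ^ (9 / 16 : ℝ) := by
              have : Del L ^ (3 / 4 : ℝ) = L ^ (9 / 16 : ℝ) := by
                rw [Del, ← Real.rpow_mul (by linarith)]; norm_num
              rw [← this]; exact Real.rpow_le_rpow (by norm_num) hD (by norm_num)
            refine le_trans ?_ h7
            calc (2:ℝ) = 4 ^ (1 / 2 : ℝ) := by
                  rw [← Real.sqrt_eq_rpow, show (4:ℝ) = 2 ^ 2 by norm_num, Real.sqrt_sq two_pos.le]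
              _ ≤ _ := Real.rpow_le_rpow_of_exponent_le (by norm_num) (by norm_num)
          calc (2:ℝ) * L ^ (3 / 16 : ℝ) ≤ L ^ (9 / 16 : ℝ) * L ^ (3 / 16 : ℝ) :=
                mul_le_mul_of_nonneg_right h6 (rpow_nonneg (by linarith) _)
            _ = L ^ (3 / 4 : ℝ) := by rw [mul_comm, h5]
            _ ≤ L := hDL
        rw [Y0]; linarith
      linarith
    · exact ⟨(mem_bigs.1 hq).1, by_contra fun hh => hgood q hq (Or.inl (Or.inr hh)),
        (mem_bigs.1 hq).2.2.2, by linarith [hb q hq]⟩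

lemma mainPairs_count : ∃ U : ℝ, ∀ L : ℝ, U ≤ Y0 L → U ≤ L → 1 ≤ Y0 L → Y0 L ≤ L → 4 ≤ Del L →
    4 ≤ L → ∀ Y : ℕ, 1 < (Y:ℝ) → L ≤ LL Y → LL Y ≤ L + 1 →
      ((mainPairs L Y).card : ℝ) ≤ (Vn Y : ℝ) + 2 * ((Y:ℝ) / log Y * exp (-Del (LL Y) / 16)) := by
  obtain ⟨Ur, hrep⟩ := mainPairs_repOK
  obtain ⟨Uc, hcoll⟩ := coll_count
  refine ⟨max Ur Uc, fun L hU1 hU2 hY01 hY0L hD hL4 Y hY hLY hYL => ?_⟩
  set u := LL Y with hu
  set P := mainPairs L Y with hP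
  have hrinj : ∀ x ∈ P, ∀ y ∈ P, mainRep L x = mainRep L y → x = y := fun x hx y hy h =>
    mainPairs_inj hY hx hy (List.cons.inj (congrArg Rep.ps h)).1 (congrArg Rep.val h)
  set Q := (P ×ˢ P).filter fun z => (mainRep L z.1).val = (mainRep L z.2).val ∧ z.2.2 < z.1.2
    with hQ
  set S := Q.image fun z => (mainRep L z.1, mainRep L z.2) with hSd
  have h1 : Q.card = S.card := by
    refine (Finset.card_image_of_injOn ?_).symm
    intro z hz w hw h
    obtain ⟨hz1, hz2⟩ := Finset.mem_product.1 (Finset.mem_filter.1 hz).1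
    obtain ⟨hw1, hw2⟩ := Finset.mem_product.1 (Finset.mem_filter.1 hw).1
    exact Prod.ext (hrinj _ hz1 _ hw1 (congrArg Prod.fst h))
      (hrinj _ hz2 _ hw2 (congrArg Prod.snd h))
  have h3 : Del u ≤ 2 * Del L := by
    calc Del u ≤ (2 * L) ^ (3 / 4 : ℝ) :=
          Real.rpow_le_rpow (by linarith) (by linarith) (by norm_num)
      _ = 2 ^ (3 / 4 : ℝ) * Del L := Real.mul_rpow (by norm_num) (by linarith)
      _ ≤ 2 * Del L := mul_le_mul_of_nonneg_right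
          (Real.rpow_le_self_of_one_le (by norm_num) (by norm_num)) (by linarith)
  have hScard : (S.card : ℝ) ≤ (Y:ℝ) / log Y * exp (-Del u / 16) := by
    have hY0u : Y0 L ≤ 2 * Y0 u := by
      linarith [Y0_mono (show 0 ≤ L by linarith) hLY, Y0_nonneg (show 0 ≤ u by linarith)]
    refine hcoll Y (((le_max_right _ _).trans hU2).trans hLY) (Y0 L) hY01 hY0u S fun x hx => ?_
    obtain ⟨z, hz, rfl⟩ := Finset.mem_image.1 hx
    obtain ⟨hzP, hveq, hlt⟩ := Finset.mem_filter.1 hz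
    obtain ⟨hz1, hz2⟩ := Finset.mem_product.1 hzP
    obtain ⟨hxa, -, -, -, hp5, -⟩ := mem_mainPairs hY hz1
    have hr := hrep L ((le_max_left _ _).trans hU1) (by linarith) hY0L hD Y hY hLY
    refine ⟨⟨hr _ hz1, hr _ hz2, hveq, hlt, ?_, ?_⟩, ?_⟩
    · show u - 4 * log (u + 2) - 4 ≤ sc z.1.2
      linarith [log_nonneg (show (1:ℝ) ≤ u + 2 by linarith)]
    · show EntS (bigs (Y0 L) (mainWit L z.1.1)) ≤ u - Del u / 4
      have h2 := (mainWit_spec hxa).2.2.2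
      linarith
    · exact (Finset.mem_Icc.1 (Finset.mem_filter.1 (mainPairs_val hY hLY hD hz1)).1).2
  have hPcard : P.card ≤ Vn Y + 2 * Q.card := by
    set B := Q.image Prod.fst ∪ Q.image Prod.snd with hB
    have h1 : (P \ B).card ≤ Vn Y := by
      refine Finset.card_le_card_of_injOn (fun x => (mainRep L x).val)
        (fun x hx => mainPairs_val hY hLY hD (Finset.mem_sdiff.1 hx).1) ?_
      intro x hx y hy hv
      obtain ⟨hxP, hxB⟩ := Finset.mem_sdiff.1 hx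
      obtain ⟨hyP, -⟩ := Finset.mem_sdiff.1 hy
      rcases lt_trichotomy x.2 y.2 with h | h | h
      · exact absurd (Finset.mem_union_right _ (Finset.mem_image.2 ⟨(y, x),
          Finset.mem_filter.2 ⟨Finset.mem_product.2 ⟨hyP, hxP⟩, hv.symm, h⟩, rfl⟩)) hxB
      · exact mainPairs_inj hY hxP hyP h hv
      · exact absurd (Finset.mem_union_left _ (Finset.mem_image.2 ⟨(x, y),
          Finset.mem_filter.2 ⟨Finset.mem_product.2 ⟨hxP, hyP⟩, hv, h⟩, rfl⟩)) hxB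
    have h2 : B.card ≤ 2 * Q.card := by
      have := Finset.card_union_le (Q.image Prod.fst) (Q.image Prod.snd)
      have := Finset.card_image_le (s := Q) (f := Prod.fst)
      have := Finset.card_image_le (s := Q) (f := Prod.snd)
      rw [hB]; omega
    have h4 : P.card ≤ (P \ B).card + B.card := by
      have := Finset.le_card_sdiff B P
      omega
    omega
  have h5 : (P.card : ℝ) ≤ (Vn Y : ℝ) + 2 * (S.card : ℝ) := by
    rw [← h1]; exact_mod_cast hPcard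
  linarith

lemma cofactor_primes : ∃ c U : ℝ, 0 < c ∧ ∀ L : ℝ, U ≤ L → 16 ≤ Del L → ∀ Y : ℕ,
    1 < (Y:ℝ) → L ≤ LL Y → ∀ a ∈ Amain L,
      (Nat.primeCounting (Y / a) : ℝ) ≤ (topPrimes Y a).card + √(Y:ℝ) +
        2 * (1 / (a:ℝ)) * ((Y:ℝ) / log Y) * exp (-c * (L - 1) ^ (1 / 3 : ℝ)) := by
  obtain ⟨c, Ua, hc, habn⟩ := abn_count
  refine ⟨c, max (Ua + 1) 2, hc, fun L hU hD Y hY hLY a ha => ?_⟩
  have hU1 : Ua + 1 ≤ L := (le_max_left _ _).trans hU
  have hL2 : 2 ≤ L := (le_max_right _ _).trans hU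
  obtain ⟨ha1, haE⟩ := mem_Amain_le ha
  have hlY : 0 < log (Y:ℝ) := log_pos hY
  have huY : exp (LL Y) = log (Y:ℝ) := exp_log hlY
  set W := Y / a with hW
  have hsplit : Nat.primeCounting W ≤ (topPrimes Y a).card + Nat.sqrt Y +
      ((Finset.Icc 1 W).filter fun p => p.Prime ∧ ¬ Normal p).card := by
    rw [← Nat.primesLE_card_eq_primeCounting]
    calc (Nat.primesLE W).card
        ≤ (topPrimes Y a ∪ Finset.Icc 1 (Nat.sqrt Y) ∪
            (Finset.Icc 1 W).filter fun p => p.Prime ∧ ¬ Normal p).card := by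
          refine Finset.card_le_card fun p hp => ?_
          obtain ⟨hp1, hp2⟩ := Nat.mem_primesLE.1 hp
          simp only [Finset.mem_union, topPrimes, ← hW, Finset.mem_filter, Finset.mem_Icc]
          by_cases h1 : p ≤ Nat.sqrt Y
          · exact Or.inl (Or.inr ⟨hp2.one_le, h1⟩)
          · by_cases h2 : Normal p
            · exact Or.inl (Or.inl ⟨hp, Nat.lt_of_not_le h1, h2⟩)
            · exact Or.inr ⟨⟨hp2.one_le, hp1⟩, hp2, h2⟩
      _ ≤ (topPrimes Y a ∪ Finset.Icc 1 (Nat.sqrt Y)).card + _ := Finset.card_union_le _ _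
      _ ≤ _ := by
          have := Finset.card_union_le (topPrimes Y a) (Finset.Icc 1 (Nat.sqrt Y))
          simp only [Nat.card_Icc, add_tsub_cancel_right] at this
          omega
  have ha0 : (0:ℝ) < a := by exact_mod_cast ha1
  have hla : log (a:ℝ) ≤ exp (L - Del L / 4) := (log_le_iff_le_exp ha0).2 haE
  have hE : exp (L - Del L / 4) * 16 ≤ log (Y:ℝ) := by
    calc exp (L - Del L / 4) * 16 ≤ exp (L - Del L / 4) * exp (Del L / 4) := by
          refine mul_le_mul_of_nonneg_left (sixteen_le_exp_three.trans (exp_le_exp.2 ?_))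
            (exp_pos _).le
          linarith
      _ = exp L := by rw [← exp_add]; ring_nf
      _ ≤ _ := huY ▸ exp_le_exp.2 hLY
  have hl3 : 3 ≤ log (Y:ℝ) := by
    have h1 : exp L ≤ log (Y:ℝ) := huY ▸ exp_le_exp.2 hLY
    linarith [add_one_le_exp L]
  have haY : (a:ℝ) * 2 ≤ Y := by
    have h1 : log ((a:ℝ) * 2) ≤ log (Y:ℝ) := by
      rw [log_mul ha0.ne' two_ne_zero]
      linarith [log_two_lt_d9]
    exact (log_le_log_iff (by positivity) (by linarith)).1 h1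
  have hWlow : (Y:ℝ) / (2 * a) ≤ W := by
    have h1 : (Y:ℝ) / a - 1 ≤ W := by
      have := Nat.floor_div_eq_div (K := ℝ) Y a
      have h2 := (Nat.sub_one_lt_floor ((Y:ℝ) / a)).le
      rw [this] at h2
      exact h2
    have h2 : 2 ≤ (Y:ℝ) / a := by rw [le_div_iff₀ ha0]; linarith
    have h3 : (Y:ℝ) / (2 * a) = (Y:ℝ) / a / 2 := by field_simp
    linarith
  have hlW : log (Y:ℝ) / 2 ≤ log (W:ℝ) := by
    have := log_le_log (by positivity) hWlow
    rw [log_div (by positivity) (by positivity), log_mul two_ne_zero ha0.ne'] at this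
    linarith [log_two_lt_d9]
  have hLW : L - 1 ≤ LL W := by
    have h1 : log (log (Y:ℝ) / 2) ≤ LL W := log_le_log (by positivity) hlW
    rw [log_div hlY.ne' two_ne_zero] at h1
    change LL Y - log 2 ≤ _ at h1
    linarith [log_two_lt_d9]
  have h3 := habn W (by linarith)
  have hWup : (W:ℝ) ≤ (Y:ℝ) / a := Nat.cast_div_le
  have hexp : exp (-c * LL W ^ (1 / 3 : ℝ)) ≤ exp (-c * (L - 1) ^ (1 / 3 : ℝ)) := by
    refine exp_le_exp.2 ?_
    have h6 := mul_le_mul_of_nonneg_left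
      (Real.rpow_le_rpow (by linarith) hLW (show (0:ℝ) ≤ 1 / 3 by norm_num)) hc.le
    linarith
  have h4 : (W:ℝ) / log W * exp (-c * LL W ^ (1 / 3 : ℝ))
      ≤ 2 * (1 / (a:ℝ)) * ((Y:ℝ) / log Y) * exp (-c * (L - 1) ^ (1 / 3 : ℝ)) := by
    refine mul_le_mul ?_ hexp (exp_pos _).le (by positivity)
    calc (W:ℝ) / log W ≤ ((Y:ℝ) / a) / (log Y / 2) :=
          div_le_div₀ (by positivity) hWup (by positivity) hlW
      _ = _ := by field_simp
  have h5 : (Nat.primeCounting W : ℝ) ≤ (topPrimes Y a).card + (Nat.sqrt Y : ℝ) +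
      (((Finset.Icc 1 W).filter fun p => p.Prime ∧ ¬ Normal p).card : ℝ) := by
    exact_mod_cast hsplit
  linarith [Real.nat_sqrt_le_real_sqrt (a := Y)]

lemma sqrt_error {L : ℝ} {Y : ℕ} (hL : 64 ≤ L) (hD : 16 ≤ Del L) (hY : 1 < (Y:ℝ))
    (hLY : L ≤ LL Y) :
    ((Amain L).card : ℝ) * √(Y:ℝ) ≤ (Y:ℝ) / log Y * exp (-L ^ (1 / 1000 : ℝ)) / 4 := by
  set u := LL Y with hu
  set s := L ^ (1 / 1000 : ℝ) with hs
  have huY : exp u = log (Y:ℝ) := exp_log (log_pos hY)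
  have hYe : (Y:ℝ) = exp (exp u) := by rw [huY, exp_log (by linarith)]
  have hD1 : exp (L - Del L / 4) * 16 ≤ exp u := by
    calc exp (L - Del L / 4) * 16 ≤ exp (L - Del L / 4) * exp (Del L / 4) := by
          refine mul_le_mul_of_nonneg_left (sixteen_le_exp_three.trans (exp_le_exp.2 ?_))
            (exp_pos _).le
          linarith
      _ = exp L := by rw [← exp_add]; ring_nf
      _ ≤ exp u := exp_le_exp.2 hLY
  have hsL : s ≤ L := Real.rpow_le_self_of_one_le (by linarith) (by norm_num)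
  have hq : u ^ 2 / 2 ≤ exp u := by
    have := pow_div_factorial_le_exp u (show 0 ≤ u by linarith) 2
    simpa using this
  have hu8 : 8 * u ≤ exp u := by
    have := mul_le_mul_of_nonneg_right (show (16:ℝ) ≤ u by linarith) (show (0:ℝ) ≤ u by linarith)
    linarith
  calc ((Amain L).card : ℝ) * √(Y:ℝ)
      ≤ exp (exp (L - Del L / 4)) * exp (exp u / 2) := by
        rw [exp_half, ← hYe]
        exact mul_le_mul_of_nonneg_right (card_Amain_le L) (Real.sqrt_nonneg _)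
    _ ≤ exp (exp u - u - s - 3) := by
        rw [← exp_add]
        refine exp_le_exp.2 ?_
        linarith
    _ ≤ exp (exp u - u - s) / 4 := by
        rw [le_div_iff₀ (by norm_num)]
        calc exp (exp u - u - s - 3) * 4 ≤ exp (exp u - u - s - 3) * exp 3 :=
              mul_le_mul_of_nonneg_left (by linarith [sixteen_le_exp_three]) (exp_pos _).le
          _ = _ := by rw [← exp_add]; ring_nf
    _ = _ := by rw [hYe, log_exp, ← exp_sub, ← exp_add]; ring_nf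

theorem lower_count : ∃ U : ℝ, ∀ X : ℕ, U ≤ LL X → ∀ Y : ℕ, X ≤ Y → Y ≤ X ^ 2 →
    (∑ a ∈ Amain (LL X), (Nat.primeCounting (Y / a) : ℝ)) ≤
      (Vn Y : ℝ) + Y / log Y * exp (-LL X ^ (1 / 1000 : ℝ)) := by
  obtain ⟨Up, hpairs⟩ := mainPairs_count
  obtain ⟨c, Ua, hc, hper⟩ := cofactor_primes
  obtain ⟨A, -, hS⟩ := Smain_le
  obtain ⟨Un, hnum⟩ := eventually_atTop.1 (lower_numerics A c hc)
  obtain ⟨Uy, hUy⟩ := eventually_atTop.1
    ((tendsto_rpow_atTop (show (0:ℝ) < 3 / 16 by norm_num)).eventually_ge_atTop Up)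
  refine ⟨max (max Un Uy) (max Up Ua), fun X hX Y hXY hYX => ?_⟩
  simp only [max_le_iff] at hX
  obtain ⟨⟨hXn, hXy⟩, hXp, hXa⟩ := hX
  set L := LL X with hLd
  obtain ⟨hE2, hE3, hD16, hDL, hL64, hY01, hY0L⟩ := hnum L hXn
  obtain ⟨hY1, huY, huL, huL2⟩ := scale_facts (by linarith : 0 < LL X) hXY hYX
  set s := L ^ (1 / 1000 : ℝ) with hs
  have hs0 : 0 ≤ s := rpow_nonneg (by linarith) _
  set F := (Y:ℝ) / log Y with hF
  have hF0 : 0 ≤ F := div_nonneg (Nat.cast_nonneg Y) (log_pos hY1).le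
  have hP := hpairs L (hUy L hXy) hXp hY01 (by linarith) (by linarith) (by linarith) Y hY1 huL
    (by linarith)
  have hsum := Finset.sum_le_sum (hper L hXa hD16 Y hY1 huL)
  rw [Finset.sum_add_distrib, Finset.sum_add_distrib, ← Finset.sum_mul, ← Finset.sum_mul,
    ← Finset.mul_sum, Finset.sum_const, nsmul_eq_mul] at hsum
  have hcard : ∑ a ∈ Amain L, ((topPrimes Y a).card : ℝ) = ((mainPairs L Y).card : ℝ) := by
    rw [mainPairs, Finset.card_sigma, Nat.cast_sum]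
  rw [hcard] at hsum
  change _ ≤ ((mainPairs L Y).card : ℝ) + _ + 2 * Smain L * _ * _ at hsum
  have e1 := sqrt_error hL64 hD16 hY1 huL
  have h8 : ∀ t : ℝ, s + 3 ≤ -t → 8 * exp t ≤ exp (-s) := by
    intro t ht
    calc 8 * exp t ≤ exp 3 * exp t :=
          mul_le_mul_of_nonneg_right (by linarith [sixteen_le_exp_three]) (exp_pos _).le
      _ ≤ _ := by rw [← exp_add]; exact exp_le_exp.2 (by linarith)
  have e3 := mul_le_mul_of_nonneg_left
    (h8 (-Del (LL Y) / 16) (by linarith [Del_mono' (show 0 ≤ L by linarith) huL])) hF0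
  have e2 := mul_le_mul_of_nonneg_left
    (h8 (A * log (L + 3) ^ 2 + -c * (L - 1) ^ (1 / 3 : ℝ)) (by linarith)) hF0
  have e2' : 2 * Smain L * F * exp (-c * (L - 1) ^ (1 / 3 : ℝ))
      ≤ 2 * F * exp (A * log (L + 3) ^ 2 + -c * (L - 1) ^ (1 / 3 : ℝ)) := by
    rw [exp_add, show 2 * Smain L * F * exp (-c * (L - 1) ^ (1 / 3 : ℝ))
      = 2 * F * (Smain L * exp (-c * (L - 1) ^ (1 / 3 : ℝ))) by ring]
    exact mul_le_mul_of_nonneg_left
      (mul_le_mul_of_nonneg_right (hS L (by linarith)) (exp_pos _).le) (by linarith)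
  simp only [← hF, ← hs] at hsum hP e1 ⊢
  linarith [mul_nonneg hF0 (exp_pos (-s)).le]

end Vale.Agent.P031
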