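import Vale.Agent.P031.Mertens

open Finset Real Filter
open scoped Classical
noncomputable section
namespace Vale.Agent.P031

/-! ## Weights -/

theorem wt_one (g : ℕ → ℝ) : wt g 1 = 1 := by simp [wt]

theorem wt_mul (g : ℕ → ℝ) {a b : ℕ} (ha : a ≠ 0) (hb : b ≠ 0) :
    wt g (a * b) = wt g a * wt g b := by
  simp only [wt]
  rw [((Nat.perm_primeFactorsList_mul ha hb).map g).prod_eq, List.map_append, List.prod_append]

theorem wt_prime (g : ℕ → ℝ) {q : ℕ} (hq : q.Prime) : wt g q = g q := by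
  simp [wt, Nat.primeFactorsList_prime hq]

theorem wt_congr {g g' : ℕ → ℝ} {m : ℕ} (h : ∀ q ∈ m.primeFactorsList, g q = g' q) :
    wt g m = wt g' m := by
  simp only [wt]; rw [List.map_congr_left h]

theorem wt_nonneg {g : ℕ → ℝ} {m : ℕ} (h : ∀ q ∈ m.primeFactorsList, 0 ≤ g q) : 0 ≤ wt g m :=
  List.prod_nonneg fun a ha => by
    obtain ⟨q, hq, rfl⟩ := List.mem_map.mp ha; exact h q hq

theorem mem_primesTo {u : ℝ} {q : ℕ} : q ∈ primesTo u ↔ q.Prime ∧ sc q ≤ u := by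
  constructor
  · intro h; exact (Finset.mem_filter.mp h).2
  · rintro ⟨hp, hu⟩
    refine Finset.mem_filter.mpr ⟨Finset.mem_range.mpr (Nat.lt_succ_of_le (Nat.le_floor ?_)), hp, hu⟩
    have h2 : (2:ℝ) ≤ q := by exact_mod_cast hp.two_le
    have hl : 0 < log (q:ℝ) := log_pos (by linarith)
    calc (q:ℝ) = exp (log q) := (exp_log (by linarith)).symm
      _ = exp (exp (log (log q))) := by rw [exp_log hl]
      _ ≤ exp (exp u) := exp_le_exp.mpr (exp_le_exp.mpr hu)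

theorem Smooth.mem_primesTo {u : ℝ} {m q : ℕ} (h : Smooth u m) (hq : q ∈ m.primeFactorsList) :
    q ∈ primesTo u :=
  Vale.Agent.P031.mem_primesTo.mpr ⟨Nat.prime_of_mem_primeFactorsList hq,
    h.2 q (Nat.prime_of_mem_primeFactorsList hq) (Nat.dvd_of_mem_primeFactorsList hq)⟩

theorem inv_one_sub_le_exp {t : ℝ} (_h0 : 0 ≤ t) (h1 : t ≤ 3 / 4) :
    (1 - t)⁻¹ ≤ exp (t + 4 * t ^ 2) := by
  have h : (1 - t)⁻¹ = 1 + t + t ^ 2 / (1 - t) := by
    rw [eq_comm, ← sub_eq_zero]; field_simp [show (1 - t) ≠ 0 by linarith]; ring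
  rw [h]
  have h2 : t ^ 2 / (1 - t) ≤ 4 * t ^ 2 := by
    rw [div_le_iff₀ (by linarith)]; nlinarith [sq_nonneg t]
  linarith [add_one_le_exp (t + 4 * t ^ 2)]

theorem smooth_weight_sum (u : ℝ) (g : ℕ → ℝ)
    (hg : ∀ q ∈ primesTo u, 0 ≤ g q ∧ g q ≤ 3 / 4 * (q : ℝ))
    (S : Finset ℕ) (hS : ∀ m ∈ S, Smooth u m) :
    ∑ m ∈ S, wt g m / m ≤ exp (∑ q ∈ primesTo u, (g q / q + 4 * (g q / q) ^ 2)) := by
  set P := primesTo u with hP
  set g' : ℕ → ℝ := fun q => if q ∈ P then g q else 0 with hg'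
  let f : ℕ →* ℝ :=
    { toFun := fun m => wt g' m / m
      map_one' := by simp [wt_one]
      map_mul' := fun a b => by
        rcases eq_or_ne a 0 with rfl | ha
        · simp
        rcases eq_or_ne b 0 with rfl | hb
        · simp
        simp only [wt_mul g' ha hb]; push_cast; rw [div_mul_div_comm] }
  have hg'b : ∀ q, q.Prime → 0 ≤ g' q ∧ g' q ≤ 3 / 4 * (q:ℝ) := fun q _ => by
    by_cases h : q ∈ P <;> simp only [hg', h, if_true, if_false]
    · exact hg q h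
    · exact ⟨le_rfl, by positivity⟩
  have hfq : ∀ {q : ℕ}, q.Prime → f q = g' q / q := fun {q} hq => by
    show wt g' q / q = _; rw [wt_prime g' hq]
  have hnorm : ∀ {q : ℕ}, q.Prime → ‖f q‖ < 1 := fun {q} hq => by
    have hb := hg'b q hq
    have hq2 : (0:ℝ) < q := by exact_mod_cast hq.pos
    rw [hfq hq, Real.norm_eq_abs, abs_of_nonneg (div_nonneg hb.1 hq2.le), div_lt_one hq2]
    linarith
  obtain ⟨-, hsum⟩ :=
    EulerProduct.summable_and_hasSum_factoredNumbers_prod_filter_prime_geometric hnorm P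
  have hnn : ∀ m : ℕ, 0 ≤ f m := fun m => div_nonneg
    (wt_nonneg fun q hq => (hg'b q (Nat.prime_of_mem_primeFactorsList hq)).1) (Nat.cast_nonneg m)
  set T : Finset (Nat.factoredNumbers P) := S.subtype (fun m => m ∈ Nat.factoredNumbers P) with hT
  have hall : ∀ m ∈ S, m ∈ Nat.factoredNumbers P := fun m hm =>
    ⟨(hS m hm).1, fun q hq => (hS m hm).mem_primesTo hq⟩
  have h1 : ∑ m ∈ T, f m ≤ ∏ p ∈ P with p.Prime, (1 - f p)⁻¹ :=
    sum_le_hasSum T (fun m _ => hnn m) hsum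
  rw [hT, Finset.sum_subtype_of_mem (fun m => f m) hall] at h1
  calc ∑ m ∈ S, wt g m / m = ∑ m ∈ S, f m := Finset.sum_congr rfl fun m hm => by
        show _ = wt g' m / m
        rw [wt_congr (g := g') (g' := g) fun q hq => if_pos ((hS m hm).mem_primesTo hq)]
    _ ≤ ∏ p ∈ P with p.Prime, (1 - f p)⁻¹ := h1
    _ ≤ ∏ p ∈ P with p.Prime, exp (g p / p + 4 * (g p / p) ^ 2) := by
        refine Finset.prod_le_prod (fun p hp => ?_) (fun p hp => ?_)
        · rw [Finset.mem_filter] at hp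
          have := hnorm hp.2; rw [Real.norm_eq_abs] at this
          exact inv_nonneg.mpr (by linarith [le_abs_self (f p)])
        · rw [Finset.mem_filter] at hp
          have hq2 : (0:ℝ) < p := by exact_mod_cast hp.2.pos
          have hb := hg p hp.1
          rw [hfq hp.2, hg', ]
          simp only [if_pos hp.1]
          exact inv_one_sub_le_exp (div_nonneg hb.1 hq2.le) (by rw [div_le_iff₀ hq2]; exact hb.2)
    _ = _ := by
        rw [← Real.exp_sum, Finset.filter_true_of_mem fun p hp => (mem_primesTo.mp hp).1]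

/-! ## Helpers -/

theorem one_lt_of_mem_primesTo {u : ℝ} {q : ℕ} (h : q ∈ primesTo u) : (2:ℝ) ≤ q := by
  exact_mod_cast (mem_primesTo.mp h).1.two_le

theorem exp_exp_sc {q : ℕ} (hq : q.Prime) : exp (exp (sc q)) = q := by
  have h2 : (2:ℝ) ≤ q := by exact_mod_cast hq.two_le
  rw [sc, exp_log (log_pos (by linarith)), exp_log (by linarith)]

theorem recip_primesTo : ∃ C : ℝ, 0 < C ∧ ∀ u : ℝ,
    ∑ q ∈ primesTo u, (1:ℝ) / q ≤ max u 0 + C := by
  obtain ⟨C, hC, h⟩ := mertens_upper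
  refine ⟨C, hC, fun u => le_trans (Finset.sum_le_sum_of_subset_of_nonneg ?_ ?_) (h _ (le_max_right u 0))⟩
  · intro q hq
    rw [mem_primesTo] at hq ⊢
    exact ⟨hq.1, hq.2.trans (le_max_left _ _)⟩
  · intros; positivity

theorem recip_window : ∃ C : ℝ, 0 < C ∧ ∀ u a b : ℝ, 0 ≤ a → 0 ≤ b →
    ∑ q ∈ (primesTo u).filter (fun q => a < sc q ∧ sc q ≤ b), (1:ℝ) / q ≤ b + C := by
  obtain ⟨C, hC, h⟩ := mertens_window
  refine ⟨C, hC, fun u a b ha hb => ?_⟩
  rcases le_or_gt a b with hab | hab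
  · have h1 := (abs_le.mp (h a b ha hab)).2
    have h2 : C * exp (-a) ≤ C := by
      have : exp (-a) ≤ 1 := exp_le_one_iff.mpr (by linarith)
      nlinarith
    have h3 : ∑ q ∈ (primesTo u).filter (fun q => a < sc q ∧ sc q ≤ b), (1:ℝ) / q
        ≤ ∑ p ∈ primesIn a b, (1:ℝ) / ((p:ℝ) - 1) := by
      refine le_trans (Finset.sum_le_sum fun q hq => ?_)
        (Finset.sum_le_sum_of_subset_of_nonneg ?_ ?_)
      · have := one_lt_of_mem_primesTo (Finset.mem_filter.mp hq).1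
        exact one_div_le_one_div_of_le (by linarith) (by linarith)
      · intro q hq
        obtain ⟨hq1, hq2⟩ := Finset.mem_filter.mp hq
        have hp := (mem_primesTo.mp hq1).1
        refine Finset.mem_filter.mpr ⟨?_, hp, hq2⟩
        have := mem_primesTo.mpr ⟨hp, hq2.2⟩
        exact (Finset.mem_filter.mp this).1
      · intro q hq _
        have hp := (Finset.mem_filter.mp hq).2.1
        have : (2:ℝ) ≤ q := by exact_mod_cast hp.two_le
        exact div_nonneg zero_le_one (by linarith)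
    linarith
  · rw [Finset.filter_false_of_mem fun q _ h => by linarith [h.1, h.2], Finset.sum_empty]
    linarith

/-- Smooth numbers against a weight bounded by a constant. -/
theorem bdd_weight_sum : ∃ C : ℝ, 0 < C ∧ ∀ u B : ℝ, ∀ g : ℕ → ℝ, 0 ≤ B →
    (∀ q ∈ primesTo u, 0 ≤ g q ∧ g q ≤ 3 / 4 * (q : ℝ) ∧ g q ≤ B) →
    ∀ S : Finset ℕ, (∀ m ∈ S, Smooth u m) →
      ∑ m ∈ S, wt g m / m ≤ exp (4 * B * (max u 0 + C)) := by
  obtain ⟨C, hC, h⟩ := recip_primesTo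
  refine ⟨C, hC, fun u B g hB hg S hS => ?_⟩
  refine (smooth_weight_sum u g (fun q hq => ⟨(hg q hq).1, (hg q hq).2.1⟩) S hS).trans
    (exp_le_exp.mpr ?_)
  calc ∑ q ∈ primesTo u, (g q / q + 4 * (g q / q) ^ 2)
      ≤ ∑ q ∈ primesTo u, 4 * B * (1 / (q:ℝ)) := Finset.sum_le_sum fun q hq => by
        have hq2 := one_lt_of_mem_primesTo hq
        obtain ⟨h0, h34, hB'⟩ := hg q hq
        have t0 : 0 ≤ g q / q := by positivity
        have t1 : g q / q ≤ 3 / 4 := by rw [div_le_iff₀ (by linarith)]; exact h34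
        have t2 : g q / q ≤ B * (1 / (q:ℝ)) := by
          rw [mul_one_div]; exact div_le_div_of_nonneg_right hB' (by linarith)
        nlinarith [mul_le_mul_of_nonneg_left t1 t0]
    _ = 4 * B * ∑ q ∈ primesTo u, 1 / (q:ℝ) := by rw [Finset.mul_sum]
    _ ≤ _ := mul_le_mul_of_nonneg_left (h u) (by linarith)

theorem wt_rpow (δ : ℝ) {m : ℕ} (hm : m ≠ 0) : wt (fun q => (q:ℝ) ^ δ) m = (m:ℝ) ^ δ := by
  have h : ∀ l : List ℕ, (l.map fun q : ℕ => (q:ℝ) ^ δ).prod = ((l.prod : ℕ) : ℝ) ^ δ := by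
    intro l
    induction l with
    | nil => simp
    | cons a l ih =>
      simp only [List.map_cons, List.prod_cons, Nat.cast_mul]
      rw [Real.mul_rpow (Nat.cast_nonneg _) (Nat.cast_nonneg _), ih]
  rw [wt, h, Nat.prod_primeFactorsList hm]

theorem rpow_weight_ok {Y : ℝ} {q : ℕ} (hq : q ∈ primesTo Y) :
    0 ≤ (q:ℝ) ^ (exp (-max Y 0) / 2) ∧ (q:ℝ) ^ (exp (-max Y 0) / 2) ≤ 3 / 4 * (q:ℝ) ∧
      (q:ℝ) ^ (exp (-max Y 0) / 2) ≤ 2 := by
  have h2 := one_lt_of_mem_primesTo hq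
  obtain ⟨hp, hsc⟩ := mem_primesTo.mp hq
  set δ := exp (-max Y 0) / 2 with hδ
  have hδ1 : δ ≤ 1 / 2 := by
    have : exp (-max Y 0) ≤ 1 := exp_le_one_iff.mpr (by simp)
    rw [hδ]; linarith
  refine ⟨by positivity, ?_, ?_⟩
  · refine (Real.rpow_le_rpow_of_exponent_le (by linarith) hδ1).trans ?_
    rw [← Real.sqrt_eq_rpow, Real.sqrt_le_iff]
    exact ⟨by linarith, by nlinarith⟩
  · rw [Real.rpow_def_of_pos (by linarith)]
    have hl : log (q:ℝ) = exp (sc q) := by rw [sc, exp_log (log_pos (by linarith))]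
    have h3 : log (q:ℝ) * δ ≤ 1 / 2 := by
      rw [hl, hδ]
      have : exp (sc q) * exp (-max Y 0) ≤ 1 := by
        rw [← exp_add]; exact exp_le_one_iff.mpr (by linarith [le_max_left Y 0])
      linarith
    refine (exp_le_exp.mpr h3).trans ?_
    have h4 : exp (1 / 2 : ℝ) ^ 2 = exp 1 := by rw [← exp_nat_mul]; norm_num
    nlinarith [exp_one_lt_d9, exp_pos (1 / 2 : ℝ)]

theorem exp_LL {X : ℕ} (h : 0 < LL X) : exp (LL X) = log (X:ℝ) ∧ 1 < (X:ℝ) := by
  have hl : 0 ≤ log (X:ℝ) := log_natCast_nonneg X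
  rcases hl.eq_or_lt with h0 | h0
  · simp [LL, ← h0] at h
  · exact ⟨exp_log h0, (log_pos_iff (Nat.cast_nonneg X)).mp h0⟩

theorem vonMangoldt_weight_sum : ∃ C : ℝ, 0 < C ∧ ∀ u B : ℝ, ∀ g : ℕ → ℝ, 1 ≤ B →
    (∀ q ∈ primesTo u, 0 ≤ g q ∧ g q ≤ B ∧ g q ≤ (q:ℝ) ^ (1 / 4 : ℝ)) →
    ∀ Y : ℕ, ∑ e ∈ (Finset.Ioc 0 Y).filter (fun e => Smooth u e),
      wt g e * ArithmeticFunction.vonMangoldt e ≤ C * B * Y := by
  obtain ⟨C1, hC1⟩ := Chebyshev.psi_sub_theta_le_mul_sqrt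
  refine ⟨log 4 + 4 + |C1| + 1, by positivity, fun u B g hB hg Y => ?_⟩
  rcases Nat.eq_zero_or_pos Y with rfl | hY
  · simp
  have hY1 : (1:ℝ) ≤ Y := by exact_mod_cast hY
  set Λ : ℕ → ℝ := fun e => ArithmeticFunction.vonMangoldt e with hΛ
  have hΛ0 : ∀ e, 0 ≤ Λ e := fun e => ArithmeticFunction.vonMangoldt_nonneg
  have key : ∀ e ∈ (Finset.Ioc 0 Y).filter (fun e => Smooth u e),
      wt g e * Λ e ≤ B * Λ e + (if ¬ e.Prime then (Y:ℝ) ^ (1 / 4 : ℝ) * Λ e else 0) := by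
    intro e he
    obtain ⟨he1, he2⟩ := Finset.mem_filter.mp he
    have heY : (e:ℝ) ≤ Y := by exact_mod_cast (Finset.mem_Ioc.mp he1).2
    by_cases hp : e.Prime
    · rw [if_neg (not_not.mpr hp), add_zero, wt_prime g hp]
      exact mul_le_mul_of_nonneg_right
        (hg e (mem_primesTo.mpr ⟨hp, he2.2 e hp dvd_rfl⟩)).2.1 (hΛ0 e)
    · rw [if_pos hp]
      have h1 : wt g e ≤ (e:ℝ) ^ (1 / 4 : ℝ) := by
        rw [← wt_rpow _ he2.1]
        simp only [wt]
        refine List.prod_map_le_prod_map₀ _ _ (fun q hq => (hg q (he2.mem_primesTo hq)).1)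
          (fun q hq => (hg q (he2.mem_primesTo hq)).2.2)
      have h2 : (e:ℝ) ^ (1 / 4 : ℝ) ≤ (Y:ℝ) ^ (1 / 4 : ℝ) :=
        Real.rpow_le_rpow (Nat.cast_nonneg e) heY (by norm_num)
      have h3 := mul_le_mul_of_nonneg_right (h1.trans h2) (hΛ0 e)
      have h4 : 0 ≤ B * Λ e := mul_nonneg (by linarith) (hΛ0 e)
      linarith
  refine (Finset.sum_le_sum key).trans ?_
  refine (Finset.sum_le_sum_of_subset_of_nonneg (Finset.filter_subset _ _) fun e _ _ => ?_).trans ?_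
  · have h4 : 0 ≤ B * Λ e := mul_nonneg (by linarith) (hΛ0 e)
    have h5 := mul_nonneg (Real.rpow_nonneg (Nat.cast_nonneg Y) (1 / 4 : ℝ)) (hΛ0 e)
    split_ifs <;> linarith
  rw [Finset.sum_add_distrib, ← Finset.mul_sum, ← Finset.sum_filter, ← Finset.mul_sum]
  have hpsi : ∑ e ∈ Finset.Ioc 0 Y, Λ e = Chebyshev.psi Y := by
    rw [Chebyshev.psi, Nat.floor_natCast]
  have hnp : ∑ e ∈ (Finset.Ioc 0 Y).filter (fun e => ¬ e.Prime), Λ e
      = Chebyshev.psi Y - Chebyshev.theta Y := by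
    rw [Chebyshev.psi_sub_theta_eq_sum_not_prime, Nat.floor_natCast]
  rw [hpsi, hnp]
  have a1 := Chebyshev.psi_le_const_mul_self (Nat.cast_nonneg (α := ℝ) Y)
  have a2 : (Y:ℝ) ^ (1 / 4 : ℝ) * (Chebyshev.psi Y - Chebyshev.theta Y) ≤ |C1| * Y := by
    refine (mul_le_mul_of_nonneg_left ((hC1 Y).trans
      (mul_le_mul_of_nonneg_right (le_abs_self C1) (Real.sqrt_nonneg _))) (by positivity)).trans ?_
    rw [Real.sqrt_eq_rpow, mul_left_comm, ← Real.rpow_add (by linarith)]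
    refine mul_le_mul_of_nonneg_left ?_ (abs_nonneg _)
    calc (Y:ℝ) ^ ((1 / 4 : ℝ) + 1 / 2) ≤ (Y:ℝ) ^ (1:ℝ) :=
          Real.rpow_le_rpow_of_exponent_le hY1 (by norm_num)
      _ = _ := Real.rpow_one _
  have h4 : (0:ℝ) ≤ log 4 := log_nonneg (by norm_num)
  have a3 : |C1| * (Y:ℝ) ≤ |C1| * B * Y :=
    mul_le_mul_of_nonneg_right (le_mul_of_one_le_right (abs_nonneg _) hB) (Nat.cast_nonneg Y)
  have a4 : 0 ≤ B * (Y:ℝ) := mul_nonneg (by linarith) (Nat.cast_nonneg Y)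
  have a5 : B * Chebyshev.psi Y ≤ B * ((log 4 + 4) * Y) := mul_le_mul_of_nonneg_left a1 (by linarith)
  nlinarith

/-- Mean value of a weight over smooth integers. -/
theorem weight_mean : ∃ C : ℝ, 0 < C ∧ ∀ u B : ℝ, ∀ g : ℕ → ℝ, 1 ≤ B →
    (∀ q ∈ primesTo u, 0 ≤ g q ∧ g q ≤ B ∧ g q ≤ (q:ℝ) ^ (1 / 4 : ℝ)) →
    ∀ X : ℕ, 1 < (X:ℝ) → ∀ W : ℝ,
    (∀ S : Finset ℕ, (∀ m ∈ S, Smooth u m) → ∑ m ∈ S, wt g m / m ≤ W) →
    ∀ T : Finset ℕ, (∀ m ∈ T, Smooth u m ∧ m ≤ X) →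
      ∑ m ∈ T, wt g m ≤ C * B * ((X:ℝ) / log X) * W := by
  obtain ⟨C, hC, hV⟩ := vonMangoldt_weight_sum
  refine ⟨2 * C + 2, by positivity, fun u B g hB hg X hX W hW T hT => ?_⟩
  have hw : ∀ m, Smooth u m → 0 ≤ wt g m := fun m hm =>
    wt_nonneg fun q hq => (hg q (hm.mem_primesTo hq)).1
  have hl : 0 < log (X:ℝ) := log_pos hX
  have hX0 : (0:ℝ) ≤ X := Nat.cast_nonneg X
  have hW0 : 0 ≤ W := by simpa using hW ∅ (by simp)
  set D := (Finset.Icc 1 X).filter (fun d => Smooth u d) with hD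
  have hsum : ∑ m ∈ T, wt g m * log m ≤ C * B * X * W := by
    set F : ℕ → ℕ → ℝ := fun d e => wt g d * (wt g e * ArithmeticFunction.vonMangoldt e) with hF
    have e1 : ∑ m ∈ T, wt g m * log m = ∑ x ∈ T.sigma (fun m => m.divisors), F (x.1 / x.2) x.2 := by
      rw [Finset.sum_sigma]
      refine Finset.sum_congr rfl fun m hm => ?_
      rw [← ArithmeticFunction.vonMangoldt_sum, Finset.mul_sum]
      refine Finset.sum_congr rfl fun e he => ?_
      obtain ⟨hed, hm0⟩ := Nat.mem_divisors.mp he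
      show _ = wt g (m / e) * (wt g e * _)
      rw [← mul_assoc, ← wt_mul g (Nat.div_ne_zero_iff_of_dvd hed |>.mpr ⟨hm0, ne_zero_of_dvd_ne_zero hm0 hed⟩)
        (ne_zero_of_dvd_ne_zero hm0 hed), Nat.div_mul_cancel hed]
    rw [e1]
    set φ : (Σ _ : ℕ, ℕ) → (Σ _ : ℕ, ℕ) := fun x => ⟨x.1 / x.2, x.2⟩ with hφ
    have hinj : Set.InjOn φ (T.sigma (fun m => m.divisors) : Set (Σ _ : ℕ, ℕ)) := by
      rintro ⟨m, e⟩ h1 ⟨m', e'⟩ h2 h
      simp only [hφ, Sigma.mk.injEq, heq_eq_eq] at h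
      obtain ⟨h3, rfl⟩ := h
      simp only [Finset.mem_coe, Finset.mem_sigma, Nat.mem_divisors] at h1 h2
      have : m = m' := by
        rw [← Nat.div_mul_cancel h1.2.1, h3, Nat.div_mul_cancel h2.2.1]
      rw [this]
    have e2 : ∑ x ∈ T.sigma (fun m => m.divisors), F (x.1 / x.2) x.2
        = ∑ y ∈ (T.sigma (fun m => m.divisors)).image φ, F y.1 y.2 := by
      rw [Finset.sum_image hinj]
    rw [e2]
    set E : ℕ → Finset ℕ := fun d => (Finset.Ioc 0 (X / d)).filter (fun e => Smooth u e) with hE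
    have hsub : (T.sigma (fun m => m.divisors)).image φ ⊆ D.sigma E := by
      rintro ⟨d, e⟩ hy
      obtain ⟨⟨m, e'⟩, hx, heq⟩ := Finset.mem_image.mp hy
      simp only [hφ, Sigma.mk.injEq, heq_eq_eq] at heq
      obtain ⟨rfl, rfl⟩ := heq
      simp only [Finset.mem_sigma, Nat.mem_divisors] at hx
      obtain ⟨hm, hed, hm0⟩ := hx
      obtain ⟨hsm, hmX⟩ := hT m hm
      have hd0 : m / e' ≠ 0 := Nat.div_ne_zero_iff_of_dvd hed |>.mpr ⟨hm0, ne_zero_of_dvd_ne_zero hm0 hed⟩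
      have he0 : e' ≠ 0 := ne_zero_of_dvd_ne_zero hm0 hed
      have hsub2 : ∀ k, k ∣ m → k ≠ 0 → Smooth u k := fun k hk hk0 =>
        ⟨hk0, fun q hq hqk => hsm.2 q hq (hqk.trans hk)⟩
      refine Finset.mem_sigma.mpr ⟨Finset.mem_filter.mpr ⟨Finset.mem_Icc.mpr
        ⟨Nat.pos_of_ne_zero hd0, (Nat.div_le_self _ _).trans hmX⟩,
        hsub2 _ (Nat.div_dvd_of_dvd hed) hd0⟩, Finset.mem_filter.mpr ⟨Finset.mem_Ioc.mpr
        ⟨Nat.pos_of_ne_zero he0, ?_⟩, hsub2 _ hed he0⟩⟩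
      rw [Nat.le_div_iff_mul_le (Nat.pos_of_ne_zero hd0), mul_comm, Nat.div_mul_cancel hed]
      exact hmX
    refine (Finset.sum_le_sum_of_subset_of_nonneg hsub fun y hy _ => ?_).trans ?_
    · obtain ⟨hd, he⟩ := Finset.mem_sigma.mp hy
      exact mul_nonneg (hw _ (Finset.mem_filter.mp hd).2)
        (mul_nonneg (hw _ (Finset.mem_filter.mp he).2) ArithmeticFunction.vonMangoldt_nonneg)
    rw [Finset.sum_sigma]
    calc ∑ d ∈ D, ∑ e ∈ E d, F d e ≤ ∑ d ∈ D, C * B * X * (wt g d / d) := Finset.sum_le_sum fun d hd => by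
          obtain ⟨hd1, hd2⟩ := Finset.mem_filter.mp hd
          simp only [hF]
          rw [← Finset.mul_sum]
          refine (mul_le_mul_of_nonneg_left (hV u B g hB hg (X / d)) (hw d hd2)).trans ?_
          have : ((X / d : ℕ) : ℝ) ≤ (X:ℝ) / d := Nat.cast_div_le
          have hd0 : (0:ℝ) < d := by exact_mod_cast (Finset.mem_Icc.mp hd1).1
          calc wt g d * (C * B * ((X / d : ℕ) : ℝ)) ≤ wt g d * (C * B * ((X:ℝ) / d)) :=
                mul_le_mul_of_nonneg_left (mul_le_mul_of_nonneg_left this (by positivity)) (hw d hd2)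
            _ = _ := by ring
      _ = C * B * X * ∑ d ∈ D, wt g d / d := by rw [Finset.mul_sum]
      _ ≤ _ := mul_le_mul_of_nonneg_left (hW D fun d hd => (Finset.mem_filter.mp hd).2) (by positivity)
  have hsq : √(X:ℝ) ≤ 2 * ((X:ℝ) / log X) := by
    have h1 : log (X:ℝ) ≤ 2 * √(X:ℝ) := by
      have := log_le_sub_one_of_pos (Real.sqrt_pos.mpr (by linarith : (0:ℝ) < X))
      rw [log_sqrt hX0] at this
      linarith
    rw [mul_div_assoc', le_div_iff₀ hl]
    calc √(X:ℝ) * log X ≤ √(X:ℝ) * (2 * √(X:ℝ)) := mul_le_mul_of_nonneg_left h1 (Real.sqrt_nonneg _)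
      _ = _ := by rw [mul_left_comm, Real.mul_self_sqrt hX0]
  have hpt : ∀ m ∈ T, wt g m ≤ √(X:ℝ) * (wt g m / m) + 2 / log X * (wt g m * log m) := by
    intro m hm
    have hm1 : (1:ℝ) ≤ m := by exact_mod_cast Nat.pos_of_ne_zero (hT m hm).1.1
    have h0 := hw m (hT m hm).1
    have hlm : 0 ≤ log (m:ℝ) := log_nonneg hm1
    have n1 : 0 ≤ √(X:ℝ) * (wt g m / m) := by positivity
    have n2 : 0 ≤ 2 / log X * (wt g m * log m) := by positivity
    rcases le_or_gt (m:ℝ) (√(X:ℝ)) with h | h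
    · have : wt g m ≤ √(X:ℝ) * (wt g m / m) := by
        rw [mul_div_assoc', le_div_iff₀ (by linarith), mul_comm]
        exact mul_le_mul_of_nonneg_right h h0
      linarith
    · have h2 : log (X:ℝ) / 2 ≤ log m := by
        rw [← log_sqrt hX0]; exact log_le_log (Real.sqrt_pos.mpr (by linarith)) h.le
      have : wt g m ≤ 2 / log X * (wt g m * log m) := by
        rw [div_mul_eq_mul_div, le_div_iff₀ hl]
        nlinarith
      linarith
  refine (Finset.sum_le_sum hpt).trans ?_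
  rw [Finset.sum_add_distrib, ← Finset.mul_sum, ← Finset.mul_sum]
  have a1 := mul_le_mul_of_nonneg_left (hW T fun m hm => (hT m hm).1) (Real.sqrt_nonneg (X:ℝ))
  have a2 := mul_le_mul_of_nonneg_left hsum (show 0 ≤ 2 / log (X:ℝ) by positivity)
  have a3 : √(X:ℝ) * W ≤ 2 * ((X:ℝ) / log X) * W := mul_le_mul_of_nonneg_right hsq hW0
  have a4 : 2 * ((X:ℝ) / log X) * W ≤ 2 * B * ((X:ℝ) / log X) * W :=
    mul_le_mul_of_nonneg_right (mul_le_mul_of_nonneg_right (by linarith) (by positivity)) hW0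
  have e : (2 / log (X:ℝ)) * (C * B * X * W) = 2 * C * B * ((X:ℝ) / log X) * W := by ring
  linarith

/-! ## Level profiles -/

theorem sum_telescope {k : ℕ} (F : Finset (Fin k)) (h : ∀ a b : Fin k, a ≤ b → b ∈ F → a ∈ F) :
    ∑ l ∈ F, (log ((l:ℕ) + 2 : ℝ) - log ((l:ℕ) + 1 : ℝ)) = log ((F.card : ℝ) + 1) := by
  have hM : F.map Fin.valEmbedding = Finset.range F.card := by
    refine Finset.eq_of_subset_of_card_le (fun x hx => ?_) (by simp)
    obtain ⟨l, hl, rfl⟩ := Finset.mem_map.mp hx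
    have : Finset.Iic l ⊆ F := fun a ha => h a l (Finset.mem_Iic.mp ha) hl
    have h2 := Finset.card_le_card this
    rw [Fin.card_Iic] at h2
    simp only [Finset.mem_range, Fin.valEmbedding_apply]
    omega
  calc ∑ l ∈ F, (log ((l:ℕ) + 2 : ℝ) - log ((l:ℕ) + 1 : ℝ))
      = ∑ j ∈ F.map Fin.valEmbedding, (log ((j:ℝ) + 2) - log ((j:ℝ) + 1)) := by
        rw [Finset.sum_map]; rfl
    _ = ∑ j ∈ Finset.range F.card, (log (((j + 1 : ℕ) : ℝ) + 1) - log ((j:ℝ) + 1)) := by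
        rw [hM]
        refine Finset.sum_congr rfl fun j _ => ?_
        push_cast; ring_nf
    _ = _ := by rw [Finset.sum_range_sub (fun j : ℕ => log ((j:ℝ) + 1))]; simp

theorem alpha_le (j : ℕ) : alpha j ≤ log ((j:ℝ) + 1) := by
  rcases Nat.eq_zero_or_pos j with rfl | h
  · simp [alpha]
  have hj : (0:ℝ) < j := by exact_mod_cast h
  have h1 : log ((j:ℝ) + 1) - log j ≤ 1 / j := by
    rw [← log_div (by positivity) hj.ne']
    refine (log_le_sub_one_of_pos (by positivity)).trans (le_of_eq ?_)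
    field_simp; ring
  have h2 : (j:ℝ) * (log ((j:ℝ) + 1) - log j) ≤ 1 := by
    have := mul_le_mul_of_nonneg_left h1 hj.le
    rwa [mul_one_div, div_self hj.ne'] at this
  unfold alpha; linarith

/-- The level weight. -/
def ovG {k : ℕ} (v0 : ℝ) (n : Fin k → ℕ) (q : ℕ) : ℝ :=
  if v0 < sc q then (((Finset.univ.filter fun l : Fin k => sc q ≤ (n l : ℝ)).card : ℝ) + 1) else 1

theorem one_le_ovG {k : ℕ} (v0 : ℝ) (n : Fin k → ℕ) (q : ℕ) :
    1 ≤ ovG v0 n q ∧ ovG v0 n q ≤ (k:ℝ) + 1 := by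
  have h : ((Finset.univ.filter fun l : Fin k => sc q ≤ (n l : ℝ)).card : ℝ) ≤ k := by
    exact_mod_cast (Finset.card_filter_le _ _).trans (by simp)
  unfold ovG; split_ifs
  · exact ⟨by linarith [Nat.cast_nonneg (α := ℝ) (Finset.univ.filter fun l : Fin k => sc q ≤ (n l : ℝ)).card],
      by linarith⟩
  · exact ⟨le_rfl, by linarith [Nat.cast_nonneg (α := ℝ) k]⟩

theorem ovG_eq_exp {k : ℕ} (v0 : ℝ) (n : Fin k → ℕ) (hn : Antitone n) (q : ℕ) :
    ovG v0 n q = exp (∑ l : Fin k, if v0 < sc q ∧ sc q ≤ (n l : ℝ) then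
      (log ((l:ℕ) + 2 : ℝ) - log ((l:ℕ) + 1 : ℝ)) else 0) := by
  unfold ovG
  by_cases h : v0 < sc q
  · rw [if_pos h]
    simp only [h, true_and]
    rw [← Finset.sum_filter, sum_telescope, exp_log (by positivity)]
    intro a b hab hb
    simp only [Finset.mem_filter, Finset.mem_univ, true_and] at hb ⊢
    exact hb.trans (by exact_mod_cast hn hab)
  · rw [if_neg h]; simp [h]

theorem wt_ovG {k : ℕ} (v0 : ℝ) (n : Fin k → ℕ) (hn : Antitone n) (b : ℕ) :
    wt (ovG v0 n) b = exp (∑ l : Fin k,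
      (log ((l:ℕ) + 2 : ℝ) - log ((l:ℕ) + 1 : ℝ)) * (Nbt b v0 (n l : ℝ) : ℝ)) := by
  have h : ∀ L : List ℕ, (L.map (ovG v0 n)).prod = exp (∑ l : Fin k,
      (log ((l:ℕ) + 2 : ℝ) - log ((l:ℕ) + 1 : ℝ)) *
        ((L.filter fun q => decide (v0 < sc q ∧ sc q ≤ (n l : ℝ))).length : ℝ)) := by
    intro L
    induction L with
    | nil => simp
    | cons a L ih =>
      rw [List.map_cons, List.prod_cons, ih, ovG_eq_exp v0 n hn a, ← exp_add,
        ← Finset.sum_add_distrib]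
      congr 1
      refine Finset.sum_congr rfl fun l _ => ?_
      by_cases hl : v0 < sc a ∧ sc a ≤ (n l : ℝ)
      · rw [if_pos hl, List.filter_cons_of_pos (by simpa using hl), List.length_cons]
        push_cast; ring
      · rw [if_neg hl, List.filter_cons_of_neg (by simpa using hl)]
        ring
  exact h b.primeFactorsList

theorem entropy_identity {k : ℕ} (x : Fin k → ℝ) (hx : Antitone x) :
    ∑ l : Fin k, (log ((l:ℕ) + 2 : ℝ) - log ((l:ℕ) + 1 : ℝ)) * (x l + ∑ m : Fin k, min (x l) (x m))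
      = EntF x + ∑ m : Fin k, x m := by
  set w : Fin k → ℝ := fun l => log ((l:ℕ) + 2 : ℝ) - log ((l:ℕ) + 1 : ℝ) with hw
  have h1 : ∀ l m : Fin k, min (x l) (x m) = (if l ≤ m then x m else 0) + (if m < l then x l else 0) := by
    intro l m
    rcases le_or_gt l m with h | h
    · rw [if_pos h, if_neg (not_lt.mpr h), min_eq_right (hx h), add_zero]
    · rw [if_neg (not_le.mpr h), if_pos h, min_eq_left (hx h.le), zero_add]
  have h2 : ∀ l : Fin k, ∑ m : Fin k, (if m < l then x l else 0) = (l:ℕ) * x l := by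
    intro l
    rw [← Finset.sum_filter, Finset.sum_const, nsmul_eq_mul, Finset.filter_gt_eq_Iio, Fin.card_Iio]
  have h3 : ∀ m : Fin k, ∑ l : Fin k, (if l ≤ m then w l * x m else 0) = log ((m:ℕ) + 2 : ℝ) * x m := by
    intro m
    rw [← Finset.sum_filter, ← Finset.sum_mul, Finset.filter_ge_eq_Iic,
      sum_telescope _ (fun a b hab hb => by simp only [Finset.mem_Iic] at hb ⊢; exact hab.trans hb),
      Fin.card_Iic]
    push_cast; ring_nf
  calc ∑ l : Fin k, w l * (x l + ∑ m : Fin k, min (x l) (x m))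
      = ∑ l : Fin k, (w l * x l + w l * ((l:ℕ) * x l)) +
          ∑ l : Fin k, ∑ m : Fin k, (if l ≤ m then w l * x m else 0) := by
        rw [← Finset.sum_add_distrib]
        refine Finset.sum_congr rfl fun l _ => ?_
        rw [Finset.sum_congr rfl (fun m _ => h1 l m), Finset.sum_add_distrib, h2,
          mul_add, mul_add, Finset.mul_sum]
        have : ∀ m ∈ (Finset.univ : Finset (Fin k)), w l * (if l ≤ m then x m else 0)
            = (if l ≤ m then w l * x m else 0) := fun m _ => by split_ifs <;> simp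
        rw [Finset.sum_congr rfl this]; ring
    _ = ∑ m : Fin k, ((w m * x m + w m * ((m:ℕ) * x m)) + log ((m:ℕ) + 2 : ℝ) * x m) := by
        rw [Finset.sum_comm, Finset.sum_congr rfl (fun m _ => h3 m), ← Finset.sum_add_distrib]
    _ = _ := by
        rw [EntF, ← Finset.sum_add_distrib]
        refine Finset.sum_congr rfl fun m _ => ?_
        simp only [hw, alpha]; push_cast; ring_nf

theorem err_eventually (A : ℝ) :
    ∀ᶠ u : ℝ in atTop, A * (log (u + 3) ^ 2 * Dv u) ≤ Del u := by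
  rcases le_or_gt A 0 with hA | hA
  · filter_upwards [eventually_ge_atTop (1:ℝ)] with u hu
    have : 0 ≤ log (u + 3) ^ 2 * Dv u := mul_nonneg (sq_nonneg _) (rpow_nonneg (by linarith) _)
    have h2 : 0 ≤ Del u := rpow_nonneg (by linarith) _
    nlinarith
  have ho := (isLittleO_log_rpow_rpow_atTop (2:ℝ) (show (0:ℝ) < 1 / 12 by norm_num)).def
    (show (0:ℝ) < 1 / (4 * A) by positivity)
  have ht : Tendsto (fun u : ℝ => u + 3) atTop atTop := tendsto_atTop_add_const_right _ 3 tendsto_id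
  filter_upwards [ht.eventually ho, eventually_ge_atTop (1:ℝ)] with u hu hu1
  have hl : 0 ≤ log (u + 3) := log_nonneg (by linarith)
  rw [Real.norm_eq_abs, Real.norm_eq_abs, abs_of_nonneg (rpow_nonneg hl _),
    abs_of_nonneg (rpow_nonneg (by linarith) _), Real.rpow_two] at hu
  have h4 : (u + 3) ^ (1 / 12 : ℝ) ≤ 4 * u ^ (1 / 12 : ℝ) := by
    calc (u + 3) ^ (1 / 12 : ℝ) ≤ (4 * u) ^ (1 / 12 : ℝ) :=
          Real.rpow_le_rpow (by linarith) (by linarith) (by norm_num)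
      _ = (4:ℝ) ^ (1 / 12 : ℝ) * u ^ (1 / 12 : ℝ) := Real.mul_rpow (by norm_num) (by linarith)
      _ ≤ 4 * u ^ (1 / 12 : ℝ) := mul_le_mul_of_nonneg_right
          (Real.rpow_le_self_of_one_le (by norm_num) (by norm_num)) (rpow_nonneg (by linarith) _)
  have hD : Del u = u ^ (1 / 12 : ℝ) * Dv u := by
    rw [Del, Dv, ← Real.rpow_add (by linarith)]; norm_num
  rw [hD, ← mul_assoc]
  refine mul_le_mul_of_nonneg_right ?_ (rpow_nonneg (by linarith) _)
  calc A * log (u + 3) ^ 2 ≤ A * (1 / (4 * A) * (4 * u ^ (1 / 12 : ℝ))) :=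
        mul_le_mul_of_nonneg_left (hu.trans (mul_le_mul_of_nonneg_left h4 (by positivity))) hA.le
    _ = _ := by field_simp

theorem Kb_le {u : ℝ} (hu : 0 ≤ u) :
    1 ≤ log (u + 3) ∧ (Kb u : ℝ) + 3 ≤ 50 * log (u + 3) := by
  have h1 : 1 ≤ log (u + 3) := by
    rw [le_log_iff_exp_le (by linarith)]; linarith [exp_one_lt_d9]
  have h2 : log (u + 2) ≤ log (u + 3) := log_le_log (by linarith) (by linarith)
  have h3 : (⌈20 * log (u + 2)⌉₊ : ℝ) < 20 * log (u + 2) + 1 :=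
    Nat.ceil_lt_add_one (mul_nonneg (by norm_num) (log_nonneg (by linarith)))
  refine ⟨h1, ?_⟩
  rw [Kb]; push_cast; linarith

/-- The weight total over one class. -/
theorem level_weight_total : ∃ C : ℝ, 0 < C ∧ ∀ u : ℝ, 0 ≤ u →
    (Kb u : ℝ) + 1 ≤ exp ((u + 3) / 4) → ∀ k : ℕ, k ≤ Kb u → ∀ n : Fin k → ℕ,
    (∀ q ∈ primesTo u, 0 ≤ ovG (log (u + 3)) n q ∧ ovG (log (u + 3)) n q ≤ (Kb u : ℝ) + 1 ∧
        ovG (log (u + 3)) n q ≤ (q:ℝ) ^ (1 / 4 : ℝ)) ∧
    ∀ S : Finset ℕ, (∀ m ∈ S, Smooth u m) →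
      ∑ m ∈ S, wt (ovG (log (u + 3)) n) m / m
        ≤ exp (u + (∑ l : Fin k, (n l : ℝ)) + C * ((Kb u : ℝ) + 1) ^ 2) := by
  obtain ⟨C1, hC1, h1⟩ := recip_primesTo
  obtain ⟨C2, hC2, h2⟩ := recip_window
  have hs2 : Summable (fun n : ℕ => (1:ℝ) / (n:ℝ) ^ 2) :=
    Real.summable_one_div_nat_pow.mpr one_lt_two
  set C3 := ∑' n : ℕ, (1:ℝ) / (n:ℝ) ^ 2 with hC3
  have hC30 : 0 ≤ C3 := tsum_nonneg fun n => by positivity
  refine ⟨C1 + C2 + 4 * (1 + C1) + 4 * C3, by positivity, fun u hu hK k hk n => ?_⟩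
  set v0 := log (u + 3) with hv0
  have hkK : (k:ℝ) ≤ (Kb u : ℝ) := by exact_mod_cast hk
  have hbig : ∀ q ∈ primesTo u, v0 < sc q → exp (u + 3) ≤ (q:ℝ) := by
    intro q hq h
    rw [← exp_exp_sc (mem_primesTo.mp hq).1]
    refine exp_le_exp.mpr ?_
    rw [← exp_log (show 0 < u + 3 by linarith)]
    exact exp_le_exp.mpr h.le
  have hg : ∀ q ∈ primesTo u, 0 ≤ ovG v0 n q ∧ ovG v0 n q ≤ (Kb u : ℝ) + 1 ∧
      ovG v0 n q ≤ (q:ℝ) ^ (1 / 4 : ℝ) := by
    intro q hq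
    obtain ⟨ha, hb⟩ := one_le_ovG v0 n q
    have hq2 := one_lt_of_mem_primesTo hq
    refine ⟨by linarith, by linarith, ?_⟩
    by_cases h : v0 < sc q
    · refine (hb.trans (by linarith)).trans (hK.trans ?_)
      rw [show (u + 3) / 4 = (u + 3) * (1 / 4 : ℝ) by ring, exp_mul]
      exact Real.rpow_le_rpow (exp_pos _).le (hbig q hq h) (by norm_num)
    · rw [ovG, if_neg h]; exact Real.one_le_rpow (by linarith) (by norm_num)
  refine ⟨hg, fun S hS => ?_⟩
  refine (smooth_weight_sum u _ (fun q hq => ⟨(hg q hq).1, (hg q hq).2.2.trans ?_⟩) S hS).trans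
    (exp_le_exp.mpr ?_)
  · have hq2 := one_lt_of_mem_primesTo hq
    refine (Real.rpow_le_rpow_of_exponent_le (by linarith) (show (1/4:ℝ) ≤ 1/2 by norm_num)).trans ?_
    rw [← Real.sqrt_eq_rpow, Real.sqrt_le_iff]
    exact ⟨by linarith, by nlinarith⟩
  set K1 : ℝ := (Kb u : ℝ) + 1 with hK1
  have hK11 : 1 ≤ K1 := by rw [hK1]; linarith [Nat.cast_nonneg (α := ℝ) (Kb u)]
  have hmain : ∑ q ∈ primesTo u, ovG v0 n q / q
      ≤ (u + C1) + ∑ l : Fin k, ((n l : ℝ) + C2) := by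
    have e : ∀ q ∈ primesTo u, ovG v0 n q / q =
        1 / (q:ℝ) + ∑ l : Fin k, (if v0 < sc q ∧ sc q ≤ (n l : ℝ) then 1 / (q:ℝ) else 0) := by
      intro q _
      rw [← Finset.sum_filter, Finset.sum_const, nsmul_eq_mul]
      by_cases h : v0 < sc q
      · simp only [ovG, h, true_and, if_true]; ring
      · simp [ovG, h]
    rw [Finset.sum_congr rfl e, Finset.sum_add_distrib, Finset.sum_comm]
    refine add_le_add ((h1 u).trans (by rw [max_eq_left hu])) (Finset.sum_le_sum fun l _ => ?_)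
    rw [← Finset.sum_filter]
    exact h2 u v0 (n l) (log_nonneg (by linarith)) (Nat.cast_nonneg _)
  have hsq : ∑ q ∈ primesTo u, (ovG v0 n q / q) ^ 2 ≤ K1 ^ 2 * (1 + C1) + C3 := by
    have e : ∀ q ∈ primesTo u, (ovG v0 n q / q) ^ 2
        ≤ K1 ^ 2 * exp (-(u + 3)) * (1 / (q:ℝ)) + 1 / (q:ℝ) ^ 2 := by
      intro q hq
      have hq2 := one_lt_of_mem_primesTo hq
      have n1 : 0 ≤ K1 ^ 2 * exp (-(u + 3)) * (1 / (q:ℝ)) := by positivity
      have n2 : 0 ≤ 1 / (q:ℝ) ^ 2 := by positivity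
      by_cases h : v0 < sc q
      · have hb := hbig q hq h
        have h3 : 1 / (q:ℝ) ≤ exp (-(u + 3)) := by
          rw [exp_neg, ← one_div]; exact one_div_le_one_div_of_le (exp_pos _) hb
        have h4 : (ovG v0 n q / q) ^ 2 ≤ (K1 / q) ^ 2 :=
          pow_le_pow_left₀ (div_nonneg (hg q hq).1 (by linarith))
            (div_le_div_of_nonneg_right (hg q hq).2.1 (by linarith)) 2
        have h5 : (K1 / (q:ℝ)) ^ 2 ≤ K1 ^ 2 * exp (-(u + 3)) * (1 / (q:ℝ)) := by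
          rw [show (K1 / (q:ℝ)) ^ 2 = K1 ^ 2 * (1 / (q:ℝ)) * (1 / (q:ℝ)) by ring]
          gcongr
        linarith
      · rw [ovG, if_neg h, div_pow, one_pow]; linarith
    refine (Finset.sum_le_sum e).trans ?_
    rw [Finset.sum_add_distrib, ← Finset.mul_sum]
    refine add_le_add ?_ (hs2.sum_le_tsum _ fun _ _ => by positivity)
    rw [mul_assoc]
    refine mul_le_mul_of_nonneg_left ?_ (sq_nonneg _)
    calc exp (-(u + 3)) * ∑ q ∈ primesTo u, 1 / (q:ℝ) ≤ exp (-(u + 3)) * ((1 + C1) * exp (u + 3)) := by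
          refine mul_le_mul_of_nonneg_left (((h1 u).trans (by rw [max_eq_left hu])).trans ?_) (exp_pos _).le
          have h6 := add_one_le_exp (u + 3)
          have h7 : 0 ≤ C1 * exp (u + 3) - C1 := by nlinarith
          linarith
      _ = _ := by rw [mul_left_comm, ← exp_add]; simp
  rw [Finset.sum_add_distrib, ← Finset.mul_sum]
  rw [Finset.sum_add_distrib, Finset.sum_const, Finset.card_univ, Fintype.card_fin, nsmul_eq_mul] at hmain
  have a1 : K1 ≤ K1 ^ 2 := by nlinarith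
  have a2 : (k:ℝ) * C2 ≤ K1 * C2 := mul_le_mul_of_nonneg_right (by linarith) hC2.le
  have a3 : K1 * C2 ≤ K1 ^ 2 * C2 := mul_le_mul_of_nonneg_right a1 hC2.le
  have a4 : C1 ≤ K1 ^ 2 * C1 := le_mul_of_one_le_left hC1.le (by linarith)
  have a5 : C3 ≤ K1 ^ 2 * C3 := le_mul_of_one_le_left hC30 (by linarith)
  linarith

/-- Both overfull bounds at once. -/
theorem overfull_main : ∃ U : ℝ, 0 ≤ U ∧ ∀ u : ℝ, U ≤ u → ∀ S : Finset ℕ, (∀ b ∈ S, HasOver u b) →
    ∀ (a : ℕ → ℝ) (F : ℝ), 0 ≤ F → (∀ b, 0 ≤ a b) →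
    (∀ g : ℕ → ℝ, (∀ q ∈ primesTo u, 0 ≤ g q ∧ g q ≤ (Kb u : ℝ) + 1 ∧ g q ≤ (q:ℝ) ^ (1 / 4 : ℝ)) →
      ∀ T : Finset ℕ, T ⊆ S → ∀ W : ℝ,
        (∀ S' : Finset ℕ, (∀ m ∈ S', Smooth u m) → ∑ m ∈ S', wt g m / m ≤ W) →
        ∑ b ∈ T, wt g b * a b ≤ F * W) →
    ∑ b ∈ S, a b ≤ F * exp (-Del u / 8) := by
  obtain ⟨C, hC, hW⟩ := level_weight_total
  obtain ⟨U1, hU1⟩ := eventually_atTop.mp (err_eventually (8 * (2500 * C + 20000)))
  refine ⟨max (max U1 1) 2000, le_trans (by norm_num) (le_max_right _ _), ?_⟩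
  intro u hu S hS a F hF ha hmean
  have huU : U1 ≤ u := (le_max_left _ _).trans ((le_max_left _ _).trans hu)
  have hu2 : (2000:ℝ) ≤ u := (le_max_right _ _).trans hu
  have hu0 : (0:ℝ) ≤ u := by linarith
  set K := Kb u with hKdef
  set ℓ := log (u + 3) with hℓ
  obtain ⟨hℓ1, hKℓ⟩ := Kb_le hu0
  have hK0 : (0:ℝ) ≤ (K:ℝ) := Nat.cast_nonneg _
  have hD1 : 1 ≤ Dv u := Real.one_le_rpow (by linarith) (by norm_num)
  have hexp : (K:ℝ) + 1 ≤ exp ((u + 3) / 4) := by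
    refine le_trans ?_ (quadratic_le_exp_of_nonneg (by linarith))
    have : log (u + 3) ≤ u + 3 := log_le_self (by linarith)
    nlinarith
  set err := 3 * ((K:ℝ) + 3) * Dv u with herr
  have herr0 : 0 ≤ err := by rw [herr]; positivity
  set thr := u + Del u / 4 - (K:ℝ) * log ((K:ℝ) + 2) with hthr
  set idx := (Finset.range (K + 1)).sigma
    (fun k => Fintype.piFinset fun _ : Fin k => Finset.range (⌊u⌋₊ + 1)) with hidx
  set P : (Σ k : ℕ, Fin k → ℕ) → ℕ → Prop := fun i b =>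
    Antitone i.2 ∧ thr ≤ EntF (fun l => (i.2 l : ℝ)) ∧ ∀ l : Fin i.1,
      (i.2 l : ℝ) + (∑ m : Fin i.1, min (i.2 l : ℝ) (i.2 m : ℝ)) - err ≤ (Nbt b ℓ (i.2 l : ℝ) : ℝ)
    with hP
  have hex : ∀ b ∈ S, ∃ i ∈ idx, P i b := by
    intro b hb
    obtain ⟨-, k, hk, y, hy, hy01, hent, hN⟩ := hS b hb
    have hfl : ∀ l, (⌊y l⌋₊ : ℝ) ≤ y l := fun l => Nat.floor_le (hy01 l).1
    refine ⟨⟨k, fun l => ⌊y l⌋₊⟩, Finset.mem_sigma.mpr ⟨Finset.mem_range.mpr (Nat.lt_succ_of_le hk),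
      Fintype.mem_piFinset.mpr fun l => Finset.mem_range.mpr
        (Nat.lt_succ_of_le (Nat.floor_le_floor (hy01 l).2))⟩,
      fun l l' h => Nat.floor_le_floor (hy h), ?_, fun l => ?_⟩
    · have hd : EntF y - EntF (fun l => (⌊y l⌋₊ : ℝ)) ≤ (K:ℝ) * log ((K:ℝ) + 2) := by
        rw [EntF, EntF, ← Finset.sum_sub_distrib]
        refine (Finset.sum_le_sum (g := fun _ => log ((K:ℝ) + 2)) fun l _ => ?_).trans ?_
        · rw [← mul_sub]
          have h1 := alpha_le ((l:ℕ) + 1)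
          have h2 : log ((((l:ℕ) + 1 : ℕ) : ℝ) + 1) ≤ log ((K:ℝ) + 2) := by
            refine log_le_log (by positivity) ?_
            have : ((l:ℕ) : ℝ) + 1 ≤ (K:ℝ) := by exact_mod_cast (Nat.succ_le_of_lt l.isLt).trans hk
            push_cast; linarith
          have h3 : 0 ≤ log ((K:ℝ) + 2) := log_nonneg (by linarith)
          have h4 : 0 ≤ y l - (⌊y l⌋₊ : ℝ) := by linarith [hfl l]
          have h5 : y l - (⌊y l⌋₊ : ℝ) ≤ 1 := by linarith [Nat.lt_floor_add_one (y l)]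
          calc alpha ((l:ℕ) + 1) * (y l - (⌊y l⌋₊ : ℝ)) ≤ log ((K:ℝ) + 2) * (y l - (⌊y l⌋₊ : ℝ)) :=
                mul_le_mul_of_nonneg_right (h1.trans h2) h4
            _ ≤ _ := mul_le_of_le_one_right h3 h5
        · rw [Finset.sum_const, Finset.card_univ, Fintype.card_fin, nsmul_eq_mul]
          exact mul_le_mul_of_nonneg_right (by exact_mod_cast hk) (log_nonneg (by linarith))
      show thr ≤ EntF (fun l => (⌊y l⌋₊ : ℝ))
      rw [hthr]; linarith
    · have h1 := hN (⌊y l⌋₊ : ℝ) (Nat.cast_nonneg _) ((hfl l).trans (hy01 l).2)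
      refine le_trans ?_ h1
      have : ∑ m : Fin k, min (⌊y l⌋₊ : ℝ) (⌊y m⌋₊ : ℝ) ≤ ∑ m : Fin k, min (⌊y l⌋₊ : ℝ) (y m) :=
        Finset.sum_le_sum fun m _ => min_le_min le_rfl (hfl m)
      show _ - err ≤ _ - err
      linarith
  set E := -(Del u / 4) + (K:ℝ) * log ((K:ℝ) + 2) + err * log ((K:ℝ) + 1) + C * ((K:ℝ) + 1) ^ 2
    with hE
  have hclass : ∀ i ∈ idx, ∑ b ∈ S.filter (P i), a b ≤ F * exp E := by
    rintro ⟨k, n⟩ hi
    rcases (S.filter (P ⟨k, n⟩)).eq_empty_or_nonempty with h | ⟨b0, hb0⟩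
    · rw [h, Finset.sum_empty]; positivity
    obtain ⟨hanti, hent, -⟩ : Antitone n ∧ thr ≤ EntF (fun l => (n l : ℝ)) ∧ _ :=
      (Finset.mem_filter.mp hb0).2
    have hk : k ≤ K := Nat.lt_succ_iff.mp (Finset.mem_range.mp (Finset.mem_sigma.mp hi).1)
    obtain ⟨hg, hWk⟩ := hW u hu0 hexp k hk n
    set g := ovG ℓ n with hgdef
    set x : Fin k → ℝ := fun l => (n l : ℝ) with hx
    set low := EntF x + (∑ m, x m) - err * log ((K:ℝ) + 1) with hlow
    have hwt : ∀ b ∈ S.filter (P ⟨k, n⟩), exp low ≤ wt g b := by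
      intro b hb
      obtain ⟨-, -, hN⟩ := (Finset.mem_filter.mp hb).2
      rw [hgdef, wt_ovG ℓ n hanti b]
      refine exp_le_exp.mpr ?_
      have hw0 : ∀ l : Fin k, 0 ≤ log ((l:ℕ) + 2 : ℝ) - log ((l:ℕ) + 1 : ℝ) := fun l =>
        sub_nonneg.mpr (log_le_log (by positivity) (by linarith))
      refine le_trans ?_ (Finset.sum_le_sum fun l _ => mul_le_mul_of_nonneg_left (hN l) (hw0 l))
      have e : ∀ l : Fin k, (log ((l:ℕ) + 2 : ℝ) - log ((l:ℕ) + 1 : ℝ)) *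
          (x l + (∑ m : Fin k, min (x l) (x m)) - err)
          = (log ((l:ℕ) + 2 : ℝ) - log ((l:ℕ) + 1 : ℝ)) * (x l + ∑ m : Fin k, min (x l) (x m))
            - err * (log ((l:ℕ) + 2 : ℝ) - log ((l:ℕ) + 1 : ℝ)) := fun l => by ring
      show low ≤ ∑ l : Fin k, (log ((l:ℕ) + 2 : ℝ) - log ((l:ℕ) + 1 : ℝ)) *
          (x l + (∑ m : Fin k, min (x l) (x m)) - err)
      rw [Finset.sum_congr rfl (fun l _ => e l), Finset.sum_sub_distrib, ← Finset.mul_sum,
        entropy_identity x (fun l l' h => Nat.cast_le.mpr (hanti h)),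
        sum_telescope _ (fun a b _ _ => Finset.mem_univ a), Finset.card_univ, Fintype.card_fin, hlow]
      have : log ((k:ℝ) + 1) ≤ log ((K:ℝ) + 1) :=
        log_le_log (by positivity) (by linarith [show (k:ℝ) ≤ K by exact_mod_cast hk])
      nlinarith
    have h1 : exp low * ∑ b ∈ S.filter (P ⟨k, n⟩), a b
        ≤ F * exp (u + (∑ l, x l) + C * ((K:ℝ) + 1) ^ 2) := by
      rw [Finset.mul_sum]
      exact (Finset.sum_le_sum fun b hb => mul_le_mul_of_nonneg_right (hwt b hb) (ha b)).trans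
        (hmean g hg _ (Finset.filter_subset _ _) _ hWk)
    calc ∑ b ∈ S.filter (P ⟨k, n⟩), a b
        = exp (-low) * (exp low * ∑ b ∈ S.filter (P ⟨k, n⟩), a b) := by
          rw [← mul_assoc, ← exp_add, neg_add_cancel, exp_zero, one_mul]
      _ ≤ exp (-low) * (F * exp (u + (∑ l, x l) + C * ((K:ℝ) + 1) ^ 2)) :=
          mul_le_mul_of_nonneg_left h1 (exp_pos _).le
      _ = F * exp (-low + (u + (∑ l, x l) + C * ((K:ℝ) + 1) ^ 2)) := by rw [exp_add (-low)]; ring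
      _ ≤ _ := by
          refine mul_le_mul_of_nonneg_left (exp_le_exp.mpr ?_) hF
          rw [hlow, hE]; rw [hthr] at hent; linarith
  have hcard : (idx.card : ℝ) ≤ exp (((K:ℝ) + 1) + (K:ℝ) * ℓ) := by
    rw [hidx, Finset.card_sigma, Nat.cast_sum]
    calc ∑ k ∈ Finset.range (K + 1), ((Fintype.piFinset fun _ : Fin k => Finset.range (⌊u⌋₊ + 1)).card : ℝ)
        ≤ ∑ _k ∈ Finset.range (K + 1), exp ((K:ℝ) * ℓ) := Finset.sum_le_sum fun k hk => by
          rw [Fintype.card_piFinset, Finset.prod_const, Finset.card_univ, Fintype.card_fin,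
            Finset.card_range, Nat.cast_pow, Nat.cast_add, Nat.cast_one]
          have h1 : (⌊u⌋₊ : ℝ) + 1 ≤ exp ℓ := by
            rw [hℓ, exp_log (by linarith)]; linarith [Nat.floor_le hu0]
          calc ((⌊u⌋₊ : ℝ) + 1) ^ k ≤ exp ℓ ^ k := pow_le_pow_left₀ (by positivity) h1 k
            _ = exp ((k:ℝ) * ℓ) := (exp_nat_mul _ _).symm
            _ ≤ _ := exp_le_exp.mpr (mul_le_mul_of_nonneg_right
                (by exact_mod_cast Nat.lt_succ_iff.mp (Finset.mem_range.mp hk)) (by linarith))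
      _ = ((K:ℝ) + 1) * exp ((K:ℝ) * ℓ) := by
          rw [Finset.sum_const, Finset.card_range, nsmul_eq_mul]; push_cast; ring
      _ ≤ _ := by
          rw [exp_add]
          exact mul_le_mul_of_nonneg_right (by linarith [add_one_le_exp ((K:ℝ) + 1)]) (exp_pos _).le
  calc ∑ b ∈ S, a b ≤ ∑ b ∈ S, ∑ i ∈ idx, (if P i b then a b else 0) := by
        refine Finset.sum_le_sum fun b hb => ?_
        obtain ⟨i, hi, hPi⟩ := hex b hb
        refine le_trans (le_of_eq (if_pos hPi).symm) (Finset.single_le_sum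
          (f := fun i => if P i b then a b else 0) (fun j _ => ?_) hi)
        split_ifs
        · exact ha b
        · exact le_rfl
    _ = ∑ i ∈ idx, ∑ b ∈ S.filter (P i), a b := by
        rw [Finset.sum_comm]; exact Finset.sum_congr rfl fun i _ => (Finset.sum_filter _ _).symm
    _ ≤ ∑ _i ∈ idx, F * exp E := Finset.sum_le_sum hclass
    _ = (idx.card : ℝ) * (F * exp E) := by rw [Finset.sum_const, nsmul_eq_mul]
    _ ≤ exp (((K:ℝ) + 1) + (K:ℝ) * ℓ) * (F * exp E) := mul_le_mul_of_nonneg_right hcard (by positivity)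
    _ = F * exp (((K:ℝ) + 1) + (K:ℝ) * ℓ + E) := by rw [exp_add _ E]; ring
    _ ≤ _ := by
        refine mul_le_mul_of_nonneg_left (exp_le_exp.mpr ?_) hF
        have hmain := hU1 u huU
        set M := ℓ ^ 2 * Dv u with hM
        have hℓ2 : ℓ ≤ ℓ ^ 2 := by nlinarith
        have hℓM : ℓ ^ 2 ≤ M := by rw [hM]; exact le_mul_of_one_le_right (sq_nonneg _) hD1
        have b1 : log ((K:ℝ) + 2) ≤ 50 * ℓ := (log_le_self (by linarith)).trans (by linarith)
        have b2 : log ((K:ℝ) + 1) ≤ 50 * ℓ := (log_le_self (by linarith)).trans (by linarith)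
        have c1 : (K:ℝ) * log ((K:ℝ) + 2) ≤ 2500 * ℓ ^ 2 := by
          calc (K:ℝ) * log ((K:ℝ) + 2) ≤ (50 * ℓ) * (50 * ℓ) :=
                mul_le_mul (by linarith) b1 (log_nonneg (by linarith)) (by linarith)
            _ = _ := by ring
        have c2 : err * log ((K:ℝ) + 1) ≤ 7500 * M := by
          calc err * log ((K:ℝ) + 1) ≤ (3 * (50 * ℓ) * Dv u) * (50 * ℓ) := by
                refine mul_le_mul ?_ b2 (log_nonneg (by linarith)) (by positivity)
                rw [herr]; gcongr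
            _ = _ := by rw [hM]; ring
        have c3 : C * ((K:ℝ) + 1) ^ 2 ≤ 2500 * C * ℓ ^ 2 := by
          calc C * ((K:ℝ) + 1) ^ 2 ≤ C * (50 * ℓ) ^ 2 := by
                gcongr; linarith
            _ = _ := by ring
        have c4 : (K:ℝ) * ℓ ≤ 50 * ℓ ^ 2 := by nlinarith
        have c5 : 2500 * C * ℓ ^ 2 ≤ 2500 * C * M := mul_le_mul_of_nonneg_left hℓM (by positivity)
        rw [hE]
        nlinarith

theorem smooth_tail : ∃ U : ℝ, ∀ u Y : ℝ, U ≤ u → Y ≤ u / 4 → ∀ S : Finset ℕ,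
    (∀ a ∈ S, Smooth Y a ∧ exp (exp (u / 2)) < (a : ℝ)) →
    ∑ a ∈ S, (1 : ℝ) / a ≤ exp (-exp (u / 8)) := by
  obtain ⟨C, hC, hsum⟩ := bdd_weight_sum
  refine ⟨8 * (2 * (17 + 8 * C)), fun u Y hu hY S hS => ?_⟩
  have hu0 : 0 ≤ u := le_trans (by positivity) hu
  set Y' := max Y 0 with hY'
  have hY'u : Y' ≤ u / 4 := max_le hY (by linarith)
  set δ := exp (-Y') / 2 with hδ
  have hδ0 : 0 ≤ δ := by positivity
  have h1 : exp (u / 4) / 2 ≤ δ * exp (u / 2) := by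
    rw [hδ, div_mul_eq_mul_div, ← exp_add]
    exact div_le_div_of_nonneg_right (exp_le_exp.mpr (by linarith)) (by norm_num)
  have hpt : ∀ a ∈ S, (1:ℝ) / a ≤ exp (-(exp (u / 4) / 2)) * (wt (fun q => (q:ℝ) ^ δ) a / a) := by
    intro a ha
    obtain ⟨hsm, hbig⟩ := hS a ha
    have ha0 : (0:ℝ) < a := lt_trans (exp_pos _) hbig
    rw [wt_rpow δ hsm.1, ← mul_div_assoc]
    refine div_le_div_of_nonneg_right ?_ ha0.le
    have h2 : exp (δ * exp (u / 2)) ≤ (a:ℝ) ^ δ := by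
      rw [mul_comm δ, exp_mul]; exact Real.rpow_le_rpow (exp_pos _).le hbig.le hδ0
    calc (1:ℝ) = exp (-(exp (u / 4) / 2)) * exp (exp (u / 4) / 2) := by
          rw [← exp_add, neg_add_cancel, exp_zero]
      _ ≤ _ := mul_le_mul_of_nonneg_left ((exp_le_exp.mpr h1).trans h2) (exp_pos _).le
  refine (Finset.sum_le_sum hpt).trans ?_
  rw [← Finset.mul_sum]
  refine (mul_le_mul_of_nonneg_left (hsum Y 2 _ (by norm_num) (fun q hq => rpow_weight_ok hq) S
    fun a ha => (hS a ha).1) (exp_pos _).le).trans ?_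
  rw [← exp_add]
  refine exp_le_exp.mpr ?_
  have hE : u / 8 + 1 ≤ exp (u / 8) := add_one_le_exp _
  have hEE : exp (u / 4) = exp (u / 8) * exp (u / 8) := by rw [← exp_add]; ring_nf
  rw [hEE]
  have hE2 : 2 * (17 + 8 * C) ≤ exp (u / 8) := by linarith
  have := mul_le_mul_of_nonneg_right hE2 (exp_pos (u / 8)).le
  nlinarith

/-- Integers with only small primes are very rare. -/
theorem smooth_count : ∃ U : ℝ, ∀ X : ℕ, U ≤ LL X →
    (((Finset.Icc 1 (X * ⌈log (X : ℝ)⌉₊ ^ 2)).filter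
        fun n => Smooth (LL X - 2 * log (LL X)) n).card : ℝ) ≤ X / log X ^ 2 := by
  obtain ⟨C, hC, hsum⟩ := bdd_weight_sum
  refine ⟨48 + 16 * C, fun X hX => ?_⟩
  set L := LL X with hL
  have hL16 : 16 ≤ L := by linarith
  obtain ⟨hlog, hX1⟩ := exp_LL (X := X) (by linarith)
  set N := X * ⌈log (X : ℝ)⌉₊ ^ 2 with hN
  set v := L - 2 * log L with hv
  have hlogL : log L ≤ L / 2 := by
    have h1 := log_le_sub_one_of_pos (Real.sqrt_pos.mpr (by linarith : (0:ℝ) < L))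
    rw [log_sqrt (by linarith)] at h1
    have h2 : 4 ≤ √L := by rw [Real.le_sqrt (by norm_num) (by linarith)]; linarith
    nlinarith [Real.mul_self_sqrt (by linarith : (0:ℝ) ≤ L)]
  have hv0 : 0 ≤ v := by rw [hv]; linarith
  have hvL : v ≤ L := by
    rw [hv]; linarith [log_nonneg (by linarith : (1:ℝ) ≤ L)]
  set δ := exp (-max v 0) / 2 with hδ
  have hδ' : δ * exp L = L ^ 2 / 2 := by
    rw [hδ, max_eq_left hv0, div_mul_eq_mul_div, ← exp_add, hv,
      show -(L - 2 * log L) + L = ((2:ℕ):ℝ) * log L by push_cast; ring, exp_nat_mul,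
      exp_log (by linarith)]
  have hδ0 : 0 ≤ δ := by positivity
  have hXN : X ≤ N := Nat.le_mul_of_pos_right X
    (pow_pos (Nat.ceil_pos.mpr (by rw [← hlog]; exact exp_pos _)) 2)
  set T := (Finset.Icc 1 N).filter fun n => Smooth v n with hT
  have hpt : ∀ n ∈ T, (1:ℝ) ≤ (N:ℝ) * exp (-(L ^ 2 / 2)) * (wt (fun q => (q:ℝ) ^ δ) n / n) := by
    intro n hn
    obtain ⟨hn1, hsm⟩ := Finset.mem_filter.mp hn
    have hn0 : (1:ℝ) ≤ n := by exact_mod_cast (Finset.mem_Icc.mp hn1).1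
    have hnN : (n:ℝ) ≤ N := by exact_mod_cast (Finset.mem_Icc.mp hn1).2
    have hN0 : (0:ℝ) < N := by linarith
    have h1 : exp (L ^ 2 / 2) ≤ (N:ℝ) ^ δ := by
      rw [Real.rpow_def_of_pos hN0, ← hδ', mul_comm δ]
      refine exp_le_exp.mpr (mul_le_mul_of_nonneg_right ?_ hδ0)
      rw [hlog]; exact log_le_log (by linarith) (by exact_mod_cast hXN)
    have h2 : (n:ℝ) * (N:ℝ) ^ δ ≤ (N:ℝ) * (n:ℝ) ^ δ := by
      have hδ1 : δ ≤ 1 := by
        rw [hδ]; linarith [exp_le_one_iff.mpr (show -max v 0 ≤ 0 by simp)]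
      have h3 : ((n:ℝ) / N) ≤ ((n:ℝ) / N) ^ δ :=
        Real.self_le_rpow_of_le_one (by positivity) (by rw [div_le_one hN0]; exact hnN) hδ1
      rw [Real.div_rpow (by linarith) hN0.le, div_le_div_iff₀ hN0 (Real.rpow_pos_of_pos hN0 δ)] at h3
      linarith
    rw [wt_rpow δ hsm.1, exp_neg, mul_div_assoc', le_div_iff₀ (by linarith), one_mul,
      mul_right_comm, ← div_eq_mul_inv, le_div_iff₀ (exp_pos _)]
    exact (mul_le_mul_of_nonneg_left h1 (by linarith)).trans h2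
  have hcard : (T.card : ℝ) ≤ (N:ℝ) * exp (-(L ^ 2 / 2)) * exp (4 * 2 * (max v 0 + C)) := by
    have : (T.card : ℝ) = ∑ n ∈ T, (1:ℝ) := by simp
    rw [this]
    refine (Finset.sum_le_sum hpt).trans ?_
    rw [← Finset.mul_sum]
    exact mul_le_mul_of_nonneg_left (hsum v 2 _ (by norm_num) (fun q hq => rpow_weight_ok hq) T
      fun n hn => (Finset.mem_filter.mp hn).2) (by positivity)
  refine hcard.trans ?_
  have hNb : (N:ℝ) ≤ X * exp (2 * L + 4) := by
    rw [hN]; push_cast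
    refine mul_le_mul_of_nonneg_left ?_ (Nat.cast_nonneg X)
    have h1 : (⌈log (X:ℝ)⌉₊ : ℝ) ≤ exp (L + 2) := by
      refine (Nat.ceil_lt_add_one (log_natCast_nonneg X)).le.trans ?_
      rw [← hlog, exp_add]
      have a1 : 1 ≤ exp L := one_le_exp (by linarith)
      have a2 : (3:ℝ) ≤ exp 2 := by linarith [add_one_le_exp (2:ℝ)]
      nlinarith
    calc (⌈log (X:ℝ)⌉₊ : ℝ) ^ 2 ≤ exp (L + 2) ^ 2 := pow_le_pow_left₀ (Nat.cast_nonneg _) h1 2
      _ = _ := by rw [← exp_nat_mul]; push_cast; ring_nf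
  rw [max_eq_left hv0, ← hlog]
  calc (N:ℝ) * exp (-(L ^ 2 / 2)) * exp (4 * 2 * (v + C))
      ≤ X * exp (2 * L + 4) * exp (-(L ^ 2 / 2)) * exp (4 * 2 * (v + C)) := by gcongr
    _ = X * exp (2 * L + 4 - L ^ 2 / 2 + 4 * 2 * (v + C)) := by
        rw [mul_assoc, mul_assoc, ← exp_add, ← exp_add]; congr 2; ring
    _ ≤ X * exp (-(2 * L)) := by
        gcongr
        nlinarith
    _ = _ := by
        rw [exp_neg, ← div_eq_mul_inv, show (2:ℝ) * L = ((2:ℕ):ℝ) * L by norm_num, exp_nat_mul]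

theorem overfull_recip : ∃ U : ℝ, ∀ u : ℝ, U ≤ u → ∀ S : Finset ℕ,
    (∀ b ∈ S, HasOver u b) → ∑ b ∈ S, (1 : ℝ) / b ≤ exp (-Del u / 16) := by
  obtain ⟨U, hU, hmain⟩ := overfull_main
  refine ⟨U, fun u hu S hS => ?_⟩
  refine (hmain u hu S hS (fun b => (1:ℝ) / b) 1 zero_le_one (fun b => by positivity)
    (fun g _ T hT W hW => ?_)).trans ?_
  · rw [one_mul]
    exact le_of_eq_of_le (Finset.sum_congr rfl fun b _ => mul_one_div _ _)
      (hW T fun b hb => (hS b (hT hb)).1)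
  · rw [one_mul]
    refine exp_le_exp.mpr ?_
    have : 0 ≤ Del u := rpow_nonneg (hU.trans hu) _
    linarith

theorem overfull_count : ∃ U : ℝ, ∀ X : ℕ, U ≤ LL X →
    (((Finset.Icc 1 X).filter fun m => HasOver (LL X) m).card : ℝ)
      ≤ X / log X * exp (-Del (LL X) / 16) := by
  obtain ⟨U, hU, hmain⟩ := overfull_main
  obtain ⟨C, hC, hmean⟩ := weight_mean
  obtain ⟨U2, hU2⟩ := eventually_atTop.mp (err_eventually (16 * (50 * C)))
  refine ⟨max (max U U2) 1, fun X hX => ?_⟩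
  set u := LL X with hu
  have hu1 : 1 ≤ u := (le_max_right _ _).trans hX
  obtain ⟨-, hX1⟩ := exp_LL (X := X) (by linarith)
  set S := (Finset.Icc 1 X).filter fun m => HasOver u m with hS
  have hl : 0 < log (X:ℝ) := log_pos hX1
  set F := C * ((Kb u : ℝ) + 1) * ((X:ℝ) / log X) with hF
  have hF0 : 0 ≤ F := by positivity
  have h1 := hmain u ((le_max_left _ _).trans ((le_max_left _ _).trans hX)) S
    (fun b hb => (Finset.mem_filter.mp hb).2) (fun _ => 1) F hF0 (fun _ => zero_le_one)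
    (fun g hg T hT W hW => ?_)
  · rw [Finset.sum_const, nsmul_eq_mul, mul_one] at h1
    refine h1.trans ?_
    obtain ⟨hℓ1, hKℓ⟩ := Kb_le (by linarith : 0 ≤ u)
    have hD1 : 1 ≤ Dv u := Real.one_le_rpow hu1 (by norm_num)
    have h2 := hU2 u ((le_max_right _ _).trans ((le_max_left _ _).trans hX))
    have h3 : C * ((Kb u : ℝ) + 1) ≤ exp (Del u / 16) := by
      refine le_trans ?_ ((le_add_of_nonneg_right zero_le_one).trans (add_one_le_exp _))
      have h4 : log (u + 3) ≤ log (u + 3) ^ 2 := by nlinarith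
      have h5 : log (u + 3) ^ 2 ≤ log (u + 3) ^ 2 * Dv u := le_mul_of_one_le_right (sq_nonneg _) hD1
      have h6 : C * ((Kb u : ℝ) + 1) ≤ C * (50 * (log (u + 3) ^ 2 * Dv u)) :=
        mul_le_mul_of_nonneg_left (by linarith) hC.le
      linarith
    calc F * exp (-Del u / 8) ≤ exp (Del u / 16) * ((X:ℝ) / log X) * exp (-Del u / 8) := by
          rw [hF]; gcongr
      _ = (X:ℝ) / log X * exp (Del u / 16 + -Del u / 8) := by rw [exp_add]; ring
      _ = _ := by ring_nf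
  · simp only [mul_one]
    exact hmean u _ g (by linarith [Nat.cast_nonneg (α := ℝ) (Kb u)]) hg X hX1 W hW T fun m hm =>
      ⟨(Finset.mem_filter.mp (hT hm)).2.1,
        (Finset.mem_Icc.mp (Finset.mem_filter.mp (hT hm)).1).2⟩

end Vale.Agent.P031
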