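import Vale.Agent.P031.MainDefs
import Vale.Agent.P031.BadMass
import Vale.Agent.P031.Rankin
import Vale.Agent.P031.GBound

/-!
# Totient values: upper count through the main set and the window

Every totient value `m ≤ Y` is either exceptional (small, from a smooth or non squarefree
preimage, or carrying an overfull profile), or of the form `(p - 1) a` with a large prime `p` and
a cofactor `a`. The cofactor is then exceptional (negligible reciprocal mass), in the main set, or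
in the critical window.
-/

open Finset Real Filter
open scoped Classical

noncomputable section

namespace Vale.Agent.P031

namespace Upper

/-! ### elementary counting -/

lemma prod_le_succ_card (s : Finset ℕ) (h : ∀ p ∈ s, 2 ≤ p) :
    ∏ p ∈ s, p ≤ (s.card + 1) * ∏ p ∈ s, (p - 1) := by
  induction s using Finset.induction_on_max with
  | empty => simp
  | insert a s hlt ih =>
    have ha : a ∉ s := fun hh => lt_irrefl a (hlt a hh)
    have ha2 : 2 ≤ a := h a (Finset.mem_insert_self a s)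
    have hs : s ⊆ Finset.Ico 2 a := fun q hq =>
      Finset.mem_Ico.2 ⟨h q (Finset.mem_insert_of_mem hq), hlt q hq⟩
    have hc : s.card ≤ a - 2 := by simpa using Finset.card_le_card hs
    rw [Finset.prod_insert ha, Finset.prod_insert ha, Finset.card_insert_of_notMem ha]
    have ih' := ih fun q hq => h q (Finset.mem_insert_of_mem hq)
    obtain ⟨b, rfl⟩ : ∃ b, a = b + 2 := ⟨a - 2, by omega⟩
    have h1 : (b + 2) * (s.card + 1) ≤ (s.card + 1 + 1) * (b + 2 - 1) := by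
      have : s.card ≤ b := by omega
      rw [show b + 2 - 1 = b + 1 by omega]
      nlinarith
    calc (b + 2) * ∏ p ∈ s, p ≤ (b + 2) * ((s.card + 1) * ∏ p ∈ s, (p - 1)) :=
          Nat.mul_le_mul_left _ ih'
      _ ≤ (s.card + 1 + 1) * (b + 2 - 1) * ∏ p ∈ s, (p - 1) := by
          rw [← mul_assoc]; exact Nat.mul_le_mul_right _ h1
      _ = _ := by ring

lemma le_totient_mul_card (n : ℕ) :
    n ≤ Nat.totient n * (n.primeFactors.card + 1) := by
  have h2 : ∀ p ∈ n.primeFactors, 2 ≤ p := fun p hp => (Nat.prime_of_mem_primeFactors hp).two_le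
  have hpos : 0 < ∏ p ∈ n.primeFactors, (p - 1) :=
    Finset.prod_pos fun p hp => by have := h2 p hp; omega
  refine Nat.le_of_mul_le_mul_right ?_ hpos
  calc n * ∏ p ∈ n.primeFactors, (p - 1)
      = Nat.totient n * ∏ p ∈ n.primeFactors, p := (Nat.totient_mul_prod_primeFactors n).symm
    _ ≤ Nat.totient n * ((n.primeFactors.card + 1) * ∏ p ∈ n.primeFactors, (p - 1)) :=
        Nat.mul_le_mul_left _ (prod_le_succ_card _ h2)
    _ = _ := by ring

lemma sq_le_three_mul_two_pow : ∀ k : ℕ, (k + 1) ^ 2 ≤ 3 * 2 ^ k := by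
  intro k
  induction k with
  | zero => norm_num
  | succ k ih =>
    rcases Nat.lt_or_ge k 2 with hk | hk
    · interval_cases k <;> norm_num
    · have : (k + 1 + 1) ^ 2 ≤ 2 * (k + 1) ^ 2 := by nlinarith
      calc (k + 1 + 1) ^ 2 ≤ 2 * (k + 1) ^ 2 := this
        _ ≤ 2 * (3 * 2 ^ k) := Nat.mul_le_mul_left _ ih
        _ = _ := by ring

/-- A preimage of `m ≤ Y` is at most `Y (log Y) ^ 2`. -/
lemma witness_le {n Y : ℕ} (hn : 0 < n) (hm : Nat.totient n ≤ Y) (hY : 9 ≤ log (Y : ℝ)) :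
    n ≤ Y * ⌈log (Y : ℝ)⌉₊ ^ 2 := by
  set k := n.primeFactors.card with hk
  have h1 : n ≤ Y * (k + 1) := (le_totient_mul_card n).trans (Nat.mul_le_mul_right _ hm)
  have h2 : 2 ^ k ≤ n := by
    calc 2 ^ k = ∏ _p ∈ n.primeFactors, 2 := by rw [Finset.prod_const]
      _ ≤ ∏ p ∈ n.primeFactors, p :=
          Finset.prod_le_prod' fun p hp => (Nat.prime_of_mem_primeFactors hp).two_le
      _ ≤ n := Nat.le_of_dvd hn (Nat.prod_primeFactors_dvd n)
  have h3 : n ≤ 3 * Y ^ 2 := by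
    refine Nat.le_of_mul_le_mul_right (c := n) ?_ hn
    calc n * n ≤ (Y * (k + 1)) * (Y * (k + 1)) := Nat.mul_le_mul h1 h1
      _ = Y ^ 2 * (k + 1) ^ 2 := by ring
      _ ≤ Y ^ 2 * (3 * 2 ^ k) := Nat.mul_le_mul_left _ (sq_le_three_mul_two_pow k)
      _ ≤ Y ^ 2 * (3 * n) := by gcongr
      _ = _ := by ring
  have hY0 : (0 : ℝ) < Y := by
    rcases Nat.eq_zero_or_pos Y with rfl | h
    · simp at hY; linarith
    · exact_mod_cast h
  have h4 : (k : ℝ) * log 2 ≤ log 3 + 2 * log (Y : ℝ) := by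
    have h5 : ((2 : ℕ) : ℝ) ^ k ≤ ((3 * Y ^ 2 : ℕ) : ℝ) := by exact_mod_cast h2.trans h3
    have h6 := log_le_log (by positivity) h5
    push_cast at h6
    rw [log_pow, log_mul (by norm_num) (by positivity), log_pow] at h6
    push_cast at h6
    linarith
  have h7 := Real.log_two_gt_d9
  have h8 : log (3 : ℝ) ≤ 2 := by
    have := log_le_sub_one_of_pos (show (0 : ℝ) < 3 by norm_num); linarith
  have h9 : (k : ℝ) + 1 ≤ log (Y : ℝ) ^ 2 := by nlinarith [Nat.cast_nonneg (α := ℝ) k]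
  have hc := Nat.le_ceil (log (Y : ℝ))
  have h10 : ((k + 1 : ℕ) : ℝ) ≤ ((⌈log (Y : ℝ)⌉₊ ^ 2 : ℕ) : ℝ) := by
    push_cast
    exact h9.trans (pow_le_pow_left₀ (by linarith) hc 2)
  exact h1.trans (Nat.mul_le_mul_left _ (by exact_mod_cast h10))

lemma pi_le : ∃ Z0 : ℕ, ∀ Z : ℕ, Z0 ≤ Z → (Nat.primeCounting Z : ℝ) ≤ 4 * Z / log Z := by
  obtain ⟨x0, hx0⟩ := eventually_atTop.1 (Chebyshev.eventually_primeCounting_le one_pos)
  refine ⟨max ⌈x0⌉₊ 2, fun Z hZ => ?_⟩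
  have h := hx0 Z ((Nat.le_ceil x0).trans (by exact_mod_cast (le_max_left _ _).trans hZ))
  rw [Nat.floor_natCast] at h
  refine h.trans ?_
  have h4 : log (4 : ℝ) + 1 ≤ 4 := by
    have := log_le_sub_one_of_pos (show (0 : ℝ) < 4 by norm_num); linarith
  have hl : 0 ≤ log (Z : ℝ) := log_natCast_nonneg Z
  gcongr

lemma card_primes_le (Z : ℕ) (S : Finset ℕ) (h : ∀ p ∈ S, p.Prime ∧ p ≤ Z) :
    S.card ≤ Nat.primeCounting Z := by
  rw [← Nat.primesLE_card_eq_primeCounting]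
  exact Finset.card_le_card fun p hp => Nat.mem_primesLE.2 ⟨(h p hp).2, (h p hp).1⟩

lemma cast_div_add_one_le {Y a : ℕ} (ha : 1 ≤ a) (haY : a ≤ Y) :
    ((Y / a + 1 : ℕ) : ℝ) ≤ 2 * Y / a := by
  have h1 : (((Y / a : ℕ)) : ℝ) ≤ (Y : ℝ) / a := Nat.cast_div_le
  have h2 : (1 : ℝ) ≤ (Y : ℝ) / a := by
    rw [le_div_iff₀ (by exact_mod_cast ha)]; simpa using (show (a : ℝ) ≤ Y by exact_mod_cast haY)
  rw [Nat.cast_add, Nat.cast_one, mul_div_assoc]
  linarith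

/-- Large primes up to `Y / a + 1`. -/
lemma large_primes_le : ∃ l0 : ℝ, 0 < l0 ∧ ∀ (Y a : ℕ) (t : ℝ) (S : Finset ℕ), l0 ≤ t → 1 ≤ a →
    a ≤ Y → (∀ p ∈ S, p.Prime ∧ p ≤ Y / a + 1 ∧ t ≤ log (p : ℝ)) →
    (S.card : ℝ) ≤ 8 * Y / (a * t) := by
  obtain ⟨Z0, hZ0⟩ := pi_le
  refine ⟨log ((Z0 : ℝ) + 3), log_pos (by linarith [Nat.cast_nonneg (α := ℝ) Z0]),
    fun Y a t S ht ha haY hS => ?_⟩
  have ha0 : (0 : ℝ) < a := by exact_mod_cast ha
  have hl : 0 < log ((Z0 : ℝ) + 3) := log_pos (by linarith [Nat.cast_nonneg (α := ℝ) Z0])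
  have ht0 : 0 < t := hl.trans_le ht
  rcases S.eq_empty_or_nonempty with rfl | ⟨p, hp⟩
  · simp only [Finset.card_empty, Nat.cast_zero]; positivity
  obtain ⟨hpp, hpZ, hpt⟩ := hS p hp
  have hp0 : (0 : ℝ) < p := by exact_mod_cast hpp.pos
  have hpZ' : (p : ℝ) ≤ ((Y / a + 1 : ℕ) : ℝ) := by exact_mod_cast hpZ
  have htZ : t ≤ log ((Y / a + 1 : ℕ) : ℝ) := hpt.trans (log_le_log hp0 hpZ')
  have hZge : Z0 ≤ Y / a + 1 := by
    have h := (log_le_log_iff (by positivity) (hp0.trans_le hpZ')).1 (ht.trans htZ)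
    have : (Z0 : ℝ) ≤ ((Y / a + 1 : ℕ) : ℝ) := by linarith
    exact_mod_cast this
  calc (S.card : ℝ) ≤ Nat.primeCounting (Y / a + 1) := by
        exact_mod_cast card_primes_le _ S fun q hq => ⟨(hS q hq).1, (hS q hq).2.1⟩
    _ ≤ 4 * ((Y / a + 1 : ℕ) : ℝ) / log ((Y / a + 1 : ℕ) : ℝ) := hZ0 _ hZge
    _ ≤ 4 * (2 * Y / a) / t := by
        gcongr
        exact cast_div_add_one_le ha haY
    _ = _ := by field_simp; ring

lemma sq_count (N : ℕ) {Q : ℝ} (hQ : 0 < Q) :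
    (((Finset.Icc 1 N).filter fun n => ∃ q : ℕ, Q < (q : ℝ) ∧ q ^ 2 ∣ n).card : ℝ)
      ≤ N * (2 / Q) := by
  set R := Finset.Ioo ⌊Q⌋₊ (N + 1) with hR
  have hsub : ((Finset.Icc 1 N).filter fun n => ∃ q : ℕ, Q < (q : ℝ) ∧ q ^ 2 ∣ n) ⊆
      R.biUnion fun q => (Finset.Ioc 0 N).filter fun n => q ^ 2 ∣ n := by
    intro n hn
    simp only [Finset.mem_filter, Finset.mem_Icc] at hn
    obtain ⟨⟨hn1, hnN⟩, q, hq, hd⟩ := hn
    refine Finset.mem_biUnion.2 ⟨q, Finset.mem_Ioo.2 ⟨(Nat.floor_lt hQ.le).2 hq, ?_⟩,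
      Finset.mem_filter.2 ⟨Finset.mem_Ioc.2 ⟨hn1, hnN⟩, hd⟩⟩
    have := Nat.le_of_dvd hn1 ((dvd_pow_self q two_ne_zero).trans hd)
    omega
  calc (((Finset.Icc 1 N).filter fun n => ∃ q : ℕ, Q < (q : ℝ) ∧ q ^ 2 ∣ n).card : ℝ)
      ≤ ∑ q ∈ R, (((Finset.Ioc 0 N).filter fun n => q ^ 2 ∣ n).card : ℝ) := by
        exact_mod_cast (Finset.card_le_card hsub).trans Finset.card_biUnion_le
    _ ≤ ∑ q ∈ R, (N : ℝ) * ((q : ℝ) ^ 2)⁻¹ := by
        refine Finset.sum_le_sum fun q _ => ?_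
        rw [Nat.Ioc_filter_dvd_card_eq_div, ← div_eq_mul_inv]
        exact le_trans Nat.cast_div_le (le_of_eq (by push_cast; rfl))
    _ ≤ N * (2 / ((⌊Q⌋₊ : ℝ) + 1)) := by
        rw [← Finset.mul_sum]
        exact mul_le_mul_of_nonneg_left (sum_Ioo_inv_sq_le _ _) (Nat.cast_nonneg _)
    _ ≤ _ := by
        gcongr
        exact (Nat.lt_floor_add_one Q).le

/-! ### levels -/

lemma ent_bigs_mono {Y Y' : ℝ} (hY : 0 ≤ Y) (hYY : Y ≤ Y') (n : ℕ) :
    EntS (bigs Y' n) ≤ EntS (bigs Y n) := by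
  obtain ⟨j, hj⟩ := bigs_eq_take hYY n
  rw [hj]
  exact EntS_take_le (fun q hq => hY.trans (mem_bigs.1 hq).2.2.2.le) j

lemma ent_bigs_diff {Y Y' : ℝ} (hY : 0 ≤ Y) (hYY : Y ≤ Y') {n K : ℕ}
    (hK : (bigs Y n).length ≤ K) :
    EntS (bigs Y n) ≤ EntS (bigs Y' n) + (K : ℝ) ^ 2 * Y' := by
  obtain ⟨j, hj⟩ := bigs_eq_take hYY n
  have hK' : (bigs Y' n).length ≤ K := by rw [hj]; exact (List.length_take_le' _ _).trans hK
  have hY' : 0 ≤ Y' := hY.trans hYY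
  rw [EntS_eq hK, EntS_eq hK']
  have hterm : ∀ i ∈ Finset.range K, alpha (i + 1) * lv (bigs Y n) i
      ≤ alpha (i + 1) * lv (bigs Y' n) i + (K : ℝ) * Y' := by
    intro i hi
    have hiK : i < K := Finset.mem_range.1 hi
    have he : lv (bigs Y' n) i = if i < j then lv (bigs Y n) i else 0 := by rw [hj, lv_take]
    rw [he]
    split_ifs with hij
    · exact le_add_of_nonneg_right (by positivity)
    · have hle : lv (bigs Y n) i ≤ Y' := by
        by_cases hl : i < (bigs Y n).length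
        · rw [lv_of_lt hl]
          by_contra hc
          have hin : (bigs Y n).getD i 0 ∈ bigs Y' n := by
            obtain ⟨a, b, c, -⟩ := mem_bigs.1 (bigs_getD hl)
            exact mem_bigs.2 ⟨a, b, c, not_le.1 hc⟩
          rw [hj] at hin
          obtain ⟨t, ht, hte⟩ := List.getElem_of_mem hin
          rw [List.getElem_take, List.getD_eq_getElem _ _ hl] at hte
          have hnd : (bigs Y n).Nodup := (bigs_pairwise Y n).imp fun hab => (ne_of_lt hab).symm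
          have := hnd.getElem_inj_iff.1 hte
          simp at ht
          omega
        · rw [lv_of_ge (not_lt.1 hl)]; exact hY'
      have ha : alpha (i + 1) ≤ K := by
        refine (Vale.Agent.P031.alpha_le (i + 1)).trans
          ((log_le_sub_one_of_pos (by positivity)).trans ?_)
        have : ((i + 1 : ℕ) : ℝ) ≤ K := by exact_mod_cast hiK
        linarith
      have h0 : 0 ≤ lv (bigs Y n) i :=
        lv_nonneg (fun q hq => hY.trans (mem_bigs.1 hq).2.2.2.le) i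
      calc alpha (i + 1) * lv (bigs Y n) i ≤ (K : ℝ) * Y' :=
            mul_le_mul ha hle h0 (Nat.cast_nonneg _)
        _ = alpha (i + 1) * 0 + (K : ℝ) * Y' := by simp
  refine (Finset.sum_le_sum hterm).trans (le_of_eq ?_)
  rw [Finset.sum_add_distrib, Finset.sum_const, Finset.card_range, nsmul_eq_mul]
  ring

lemma hasOver_dvd {u : ℝ} {b m : ℕ} (hb : HasOver u b) (hd : b ∣ m) (hm : Smooth u m) :
    HasOver u m := by
  obtain ⟨hsb, k, hk, y, hy1, hy2, hy3, hy4⟩ := hb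
  obtain ⟨c, rfl⟩ := hd
  refine ⟨hm, k, hk, y, hy1, hy2, hy3, fun v hv hvu => (hy4 v hv hvu).trans ?_⟩
  have hc : c ≠ 0 := fun h0 => hm.1 (by simp [h0])
  rw [Nbt_mul hsb.1 hc]
  push_cast
  exact le_add_of_nonneg_right (Nat.cast_nonneg _)

lemma log_pred_prod_le {l : List ℕ} {v : ℝ} (h : ∀ q ∈ l, q.Prime ∧ sc q ≤ v) :
    log (((l.map fun q => q - 1).prod : ℕ) : ℝ) ≤ (l.length : ℝ) * exp v := by
  induction l with
  | nil => simp
  | cons q t ih =>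
    obtain ⟨hq, hv⟩ := h q List.mem_cons_self
    have ih' := ih fun r hr => h r (List.mem_cons_of_mem _ hr)
    have h2 := hq.two_le
    have hne : ((q - 1 : ℕ) : ℝ) ≠ 0 := Nat.cast_ne_zero.2 (by omega)
    have hne' : (((t.map fun q => q - 1).prod : ℕ) : ℝ) ≠ 0 :=
      Nat.cast_ne_zero.2 (pred_prod_ne_zero fun r hr => (h r (List.mem_cons_of_mem _ hr)).1)
    rw [List.map_cons, List.prod_cons, Nat.cast_mul, log_mul hne hne', List.length_cons]
    have hq1 : log ((q - 1 : ℕ) : ℝ) ≤ log (q : ℝ) :=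
      log_le_log (Nat.cast_pos.2 (by omega)) (Nat.cast_le.2 (Nat.sub_le q 1))
    have hq2 : log (q : ℝ) ≤ exp v := by
      rw [← exp_log (log_prime_pos hq)]; exact exp_le_exp.2 hv
    rw [Nat.cast_add, Nat.cast_one]
    linarith

/-! ### classification of values -/

/-- Primes `p` that can complete the cofactor `a` to a value at most `Y`. -/
def bigP (Y a : ℕ) : Finset ℕ :=
  (Finset.Icc 1 (Y / a + 1)).filter fun p => p.Prime ∧ LL Y - 2 * log (LL Y) < sc p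

/-- Cofactors with a bad node above `W`. -/
def Abad (W : ℝ) (Y : ℕ) : Finset ℕ :=
  (Finset.Icc 1 Y).filter fun a =>
    ∃ n, Smooth (LL Y) n ∧ Nat.totient n = a ∧ ∃ p ∈ bigs W n, BadNode n p

/-- Smooth large tails. -/
def Btail (L : ℝ) (Y : ℕ) : Finset ℕ :=
  (Finset.Icc 1 Y).filter fun c => Smooth (Y0 L) c ∧ exp (exp (L / 2)) < (c : ℝ)

/-- Cofactors with a large smooth tail. -/
def Atail (L : ℝ) (Y : ℕ) : Finset ℕ :=
  (Finset.Icc 1 Y).filter fun a => ∃ b ∈ Gset (LL Y) Y, ∃ c ∈ Btail L Y, a = b * c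

/-- Values read off a set of cofactors and a set of primes for each of them. -/
def vals (A : Finset ℕ) (P : ℕ → Finset ℕ) : Finset ℕ :=
  A.biUnion fun a => (P a).image fun p => (p - 1) * a

lemma mem_vals {A : Finset ℕ} {P : ℕ → Finset ℕ} {a p : ℕ} (ha : a ∈ A) (hp : p ∈ P a) :
    (p - 1) * a ∈ vals A P :=
  Finset.mem_biUnion.2 ⟨a, ha, Finset.mem_image.2 ⟨p, hp, rfl⟩⟩

lemma card_vals_le (A : Finset ℕ) (P : ℕ → Finset ℕ) :
    ((vals A P).card : ℝ) ≤ ∑ a ∈ A, ((P a).card : ℝ) := by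
  have h : (vals A P).card ≤ ∑ a ∈ A, (P a).card :=
    Finset.card_biUnion_le.trans (Finset.sum_le_sum fun a _ => Finset.card_image_le)
  exact_mod_cast h

lemma Kb_succ_le {L : ℝ} (hL : 0 ≤ L) : (Kb (L + 1) : ℝ) + 3 ≤ 2 * ((Kb L : ℝ) + 3) := by
  have h2 : log (L + 1 + 2) ≤ log (L + 2) + 1 := by
    have h3 := log_le_sub_one_of_pos (show (0 : ℝ) < (L + 1 + 2) / (L + 2) by positivity)
    rw [log_div (by linarith) (by linarith)] at h3
    have : (L + 1 + 2) / (L + 2) ≤ 2 := by rw [div_le_iff₀ (by linarith)]; linarith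
    linarith
  have h4 : ⌈20 * log (L + 1 + 2)⌉₊ ≤ ⌈20 * log (L + 2)⌉₊ + 20 := by
    rw [Nat.ceil_le]; push_cast
    have := Nat.le_ceil (20 * log (L + 2))
    linarith
  have h1 : Kb (L + 1) ≤ Kb L + 20 := by simp only [Kb]; omega
  have h5 : (Kb (L + 1) : ℝ) ≤ (Kb L : ℝ) + 20 := by exact_mod_cast h1
  have h6 : (20 : ℝ) ≤ Kb L := by exact_mod_cast Kb_ge L
  linarith

lemma half_rpow_le {L s : ℝ} (hL : 0 ≤ L) (hs0 : 0 ≤ s) (hs1 : s ≤ 1) :
    (1 / 2 : ℝ) * L ^ s ≤ (L / 2) ^ s := by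
  rw [show L / 2 = (1 / 2 : ℝ) * L by ring, mul_rpow (by norm_num) hL]
  refine mul_le_mul_of_nonneg_right ?_ (rpow_nonneg hL _)
  conv_lhs => rw [← rpow_one (1 / 2 : ℝ)]
  exact rpow_le_rpow_of_exponent_ge' (by norm_num) (by norm_num) hs0 hs1

lemma good_mono {W Z : ℝ} {n : ℕ} (h : GoodAbove W n) (hZ : W ≤ Z) : GoodAbove Z n := by
  intro q hq
  obtain ⟨a1, a2, a3, a4⟩ := mem_bigs.1 hq
  exact h q (mem_bigs.2 ⟨a1, a2, a3, lt_of_le_of_lt hZ a4⟩)

lemma good_init {Z : ℝ} {n : ℕ} (h : GoodAbove Z n) : GoodInit n (bigs Z n) :=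
  fun _ hi => h _ (bigs_getD (by omega))

lemma good_node {Z : ℝ} {n : ℕ} (h : GoodAbove Z n) :
    ∀ q ∈ bigs Z n, q.Prime ∧ q ∣ n ∧ ¬ q ^ 2 ∣ n := fun q hq =>
  ⟨(mem_bigs.1 hq).1, (mem_bigs.1 hq).2.1, fun hh => h q hq (Or.inl (Or.inl hh))⟩

lemma bigs_nodup (Z : ℝ) (n : ℕ) : (bigs Z n).Nodup :=
  (bigs_pairwise Z n).imp fun hab => (ne_of_lt hab).symm

lemma short_above : ∃ U : ℝ, ∀ L : ℝ, U ≤ L → ∀ n : ℕ, Smooth (L + 1) n →
    GoodAbove (Y0 (L / 2)) n → (bigs (Y0 (L / 2)) n).length ≤ Kb (L + 1) ∧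
      (bigs (Y0 L) n).length ≤ Kb (L + 1) := by
  obtain ⟨U1, -, hshort⟩ := bigs_short
  obtain ⟨U, hU⟩ := eventually_atTop.1
    (((tendsto_rpow_atTop (show (0 : ℝ) < 3 / 16 by norm_num)).eventually_ge_atTop (2 * U1)).and
    ((eventually_Y0_le one_pos).and (eventually_ge_atTop (1 : ℝ))))
  refine ⟨U, fun L hL n hn hg => ?_⟩
  obtain ⟨h1, h2, h3⟩ := hU L hL
  have hWL : Y0 (L / 2) ≤ Y0 L := Y0_mono (by linarith) (by linarith)
  have hW : U1 ≤ Y0 (L / 2) := by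
    have := half_rpow_le (show 0 ≤ L by linarith) (show (0 : ℝ) ≤ 3 / 16 by norm_num) (by norm_num)
    simp only [Y0] at this ⊢
    linarith
  have h := hshort _ (L + 1) hW (by linarith) n (good_init hg) fun q hq =>
    hn.2 q (mem_bigs.1 hq).1 (mem_bigs.1 hq).2.1
  obtain ⟨j, hj⟩ := bigs_eq_take hWL n
  have hlen : (bigs (Y0 L) n).length ≤ (bigs (Y0 (L / 2)) n).length := by
    rw [hj]; exact List.length_take_le' _ _
  omega

lemma top_entropy : ∃ U : ℝ, ∀ L v : ℝ, ∀ n : ℕ, U ≤ L → L / 2 ≤ v → v ≤ L + 1 →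
    (bigs (Y0 (L / 2)) n).length ≤ Kb (L + 1) →
    L + 2 * Del L < EntS (bigs (Y0 L) n) → v + Del v < EntS (bigs (Y0 v) n) := by
  obtain ⟨U, hU⟩ := eventually_atTop.1
    ((eventually_Kb_cost (show (0 : ℝ) < 9 / 16 by norm_num) 8 2).and
      (eventually_ge_atTop (4 : ℝ)))
  refine ⟨U, fun L v n hL hv hv1 hlen hE => ?_⟩
  obtain ⟨hcost, hL4⟩ := hU L hL
  have hW0 : 0 ≤ Y0 (L / 2) := Y0_nonneg (by linarith)
  have h1 := ent_bigs_mono hW0 (Y0_mono (by linarith) (show L / 2 ≤ L by linarith)) n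
  have h2 := ent_bigs_diff hW0 (Y0_mono (by linarith) hv) hlen
  have h7 : (1 : ℝ) ≤ Y0 L := one_le_rpow (by linarith) (by norm_num)
  have hY : Y0 v ≤ 2 * Y0 L := by
    calc Y0 v ≤ Y0 (2 * L) := Y0_mono (by linarith) (by linarith)
      _ = (2 : ℝ) ^ (3 / 16 : ℝ) * Y0 L := by rw [Y0, Y0, mul_rpow (by norm_num) (by linarith)]
      _ ≤ 2 * Y0 L := by
          refine mul_le_mul_of_nonneg_right ?_ (Y0_nonneg (by linarith))
          conv_rhs => rw [← rpow_one (2 : ℝ)]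
          exact rpow_le_rpow_of_exponent_le (by norm_num) (by norm_num)
  have hD : Del v ≤ Del L + 1 := by
    calc Del v ≤ Del (L + 1) := Del_mono' (by linarith) hv1
      _ ≤ L ^ (3 / 4 : ℝ) + 1 ^ (3 / 4 : ℝ) :=
          rpow_add_le_add_rpow (by linarith) zero_le_one (by norm_num) (by norm_num)
      _ = Del L + 1 := by rw [one_rpow, Del]
  have hK := Kb_succ_le (show 0 ≤ L by linarith)
  have h6 : (Kb (L + 1) : ℝ) ^ 2 * Y0 v + 2 ≤ Del L := by
    calc (Kb (L + 1) : ℝ) ^ 2 * Y0 v + 2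
        ≤ ((Kb (L + 1) : ℝ) ^ 2 + 1) * (2 * Y0 L) := by
          have := mul_le_mul_of_nonneg_left hY (sq_nonneg (Kb (L + 1) : ℝ))
          linarith
      _ ≤ (2 * ((Kb L : ℝ) + 3)) ^ 2 * (2 * Y0 L) := by
          refine mul_le_mul_of_nonneg_right ?_ (by linarith)
          have := pow_le_pow_left₀ (by positivity) hK 2
          nlinarith [Nat.cast_nonneg (α := ℝ) (Kb (L + 1))]
      _ = (8 * ((Kb L : ℝ) + 3) ^ 2) * Y0 L := by ring
      _ ≤ L ^ (9 / 16 : ℝ) * Y0 L := mul_le_mul_of_nonneg_right hcost (by linarith)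
      _ = Del L := by rw [Y0, Del, ← rpow_add (by linarith)]; norm_num
  linarith

/-- An overfull top gives an overfull value. -/
lemma top_over : ∃ U : ℝ, ∀ (L u : ℝ) (p n : ℕ), U ≤ L → L ≤ u → u ≤ L + 1 → p.Prime → Normal p →
    u - 2 * log u < sc p → sc p ≤ u → L / 2 ≤ sc p → Smooth (sc p) n → ¬ p ∣ n →
    GoodAbove (Y0 (L / 2)) n → L + 2 * Del L < EntS (bigs (Y0 L) n) →
    HasOver u ((p - 1) * Nat.totient n) := by
  obtain ⟨U1, hU1, hshort⟩ := bigs_short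
  obtain ⟨U2, hover⟩ := eventually_atTop.1 hasOver_node
  obtain ⟨U3, hlen⟩ := short_above
  obtain ⟨U4, hent⟩ := top_entropy
  obtain ⟨U5, hU5⟩ := eventually_atTop.1
    (((tendsto_rpow_atTop (show (0 : ℝ) < 3 / 16 by norm_num)).eventually_ge_atTop (2 * U1)).and
      (eventually_ge_atTop (max (max U2 U3) (max U4 4))))
  refine ⟨U5, fun L u p n hL hLu huL hp hN hps hpu hv hsm hpn hg hE => ?_⟩
  obtain ⟨hY, hmax⟩ := hU5 L hL
  simp only [max_le_iff] at hmax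
  obtain ⟨⟨hL2, hL3⟩, hL4, hL4'⟩ := hmax
  set v := sc p with hvdef
  have hv1 : v ≤ L + 1 := hpu.trans huL
  have hWv : Y0 (L / 2) ≤ Y0 v := Y0_mono (by linarith) hv
  have hgv := good_mono hg hWv
  have hv0 : Y0 v ≤ v := by
    calc Y0 v ≤ v ^ (1 : ℝ) := rpow_le_rpow_of_exponent_le (by linarith) (by norm_num)
      _ = v := rpow_one _
  have hUW : U1 ≤ Y0 v := by
    have := half_rpow_le (show 0 ≤ L by linarith) (show (0 : ℝ) ≤ 3 / 16 by norm_num) (by norm_num)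
    simp only [Y0] at this hWv ⊢
    linarith
  have hlv : (bigs (Y0 v) n).length ≤ Kb v := by
    have := hshort (Y0 v) v hUW hv0 n (good_init hgv) fun q hq =>
      hsm.2 q (mem_bigs.1 hq).1 (mem_bigs.1 hq).2.1
    omega
  have hb : below n p = bigs (Y0 v) n := by
    have hfil : (bigs (Y0 v) n).filter (fun q => decide (q < p)) = bigs (Y0 v) n := by
      refine List.filter_eq_self.2 fun q hq => ?_
      obtain ⟨a1, a2, -, -⟩ := mem_bigs.1 hq
      simp only [decide_eq_true_eq]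
      exact lt_of_le_of_ne (le_of_sc_le hp.two_le (hsm.2 q a1 a2)) fun e => hpn (e ▸ a2)
    rw [below, ← hvdef, hfil, List.take_of_length_le hlv]
  have hEv : sc p + Del (sc p) < EntS (below n p) := by
    rw [hb]
    exact hent L v n hL4 hv hv1 (hlen L hL3 n (hsm.mono hv1) hg).1 hE
  have hl : log u ≤ log (u + 3) := log_le_log (by linarith) (by linarith)
  have hl0 : 0 ≤ log (u + 3) := log_nonneg (by linarith)
  have hov := hover u (hL2.trans hLu) n p hp hN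
    (fun q hq => by
      rw [hb] at hq
      exact not_not.1 fun hh => hgv q hq (Or.inl (Or.inr hh)))
    hpu (by linarith) hEv
  refine hasOver_dvd hov (mul_dvd_mul_left _ ?_)
    (Smooth.mul (by simpa using smooth_pred_prod (l := [p]) (by simpa using ⟨hp, hpu⟩))
      (hsm.mono hpu).totient)
  obtain ⟨r, -, hr, -, -, -⟩ := totient_split hsm.1 (bigs_nodup _ _) (good_node hgv)
  rw [hb, hr]
  exact dvd_mul_right _ _

lemma cofactor_cases : ∃ U : ℝ, ∀ (L : ℝ) (Y n : ℕ) (v : ℝ), U ≤ L → L ≤ LL Y → LL Y ≤ L + 1 →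
    Smooth v n → v ≤ LL Y → GoodAbove (Y0 (L / 2)) n →
    EntS (bigs (Y0 L) n) ≤ L + 2 * Del L → Nat.totient n ≤ Y →
    Nat.totient n ∈ Atail L Y ∨ Nat.totient n ∈ Amain L ∨ (Nat.totient n ∈ Awin L Y ∧
      log (Nat.totient n : ℝ) ≤ (Kb (L + 1) : ℝ) * exp v + exp (L / 2)) := by
  obtain ⟨U1, hlen⟩ := short_above
  obtain ⟨U2, hU2⟩ := eventually_atTop.1
    ((eventually_Del_le (show (0 : ℝ) < 1 / 2 by norm_num)).and
    ((eventually_Kb_cost (show (0 : ℝ) < 3 / 4 by norm_num) 16 1).and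
    ((eventually_Y0_le (show (0 : ℝ) < 1 / 2 by norm_num)).and
      (eventually_ge_atTop (max U1 4)))))
  refine ⟨U2, fun L Y n v hL hLY hYL hsm hvu hg hEbig haY => ?_⟩
  obtain ⟨hDel, hcost1, hY0half, hmax⟩ := hU2 L hL
  obtain ⟨hL1, hL4⟩ := max_le_iff.1 hmax
  have hDel0 : 0 ≤ Del L := Del_nonneg' (by linarith)
  have hv1 : v ≤ L + 1 := hvu.trans hYL
  have hlenL := (hlen L hL1 n (hsm.mono hv1) hg).2
  have hgL : GoodAbove (Y0 L) n := good_mono hg (Y0_mono (by linarith) (by linarith))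
  have ha1 : 1 ≤ Nat.totient n := Nat.totient_pos.2 (Nat.pos_of_ne_zero hsm.1)
  set l := bigs (Y0 L) n with hl
  obtain ⟨r, hr1, hr2, hr3, -, hr5⟩ := totient_split hsm.1 (bigs_nodup _ _) (good_node hgL)
  have hrsm : Smooth (Y0 L) (Nat.totient r) := by
    refine Smooth.totient ⟨fun h0 => hsm.1 (by rw [hr5, h0, mul_zero]), fun q hq hd => ?_⟩
    by_contra hc
    exact hr3 q (mem_bigs.2 ⟨hq, hd.trans hr1, hsm.1, not_le.1 hc⟩) hd
  have hc1 : 1 ≤ Nat.totient r := Nat.pos_of_ne_zero hrsm.1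
  have hb1 : 1 ≤ (l.map fun q => q - 1).prod :=
    Nat.pos_of_ne_zero (pred_prod_ne_zero fun q hq => (good_node hgL q hq).1)
  by_cases htail : exp (exp (L / 2)) < (Nat.totient r : ℝ)
  · left
    refine Finset.mem_filter.2 ⟨Finset.mem_Icc.2 ⟨ha1, haY⟩, _, ?_, _, ?_, hr2⟩
    · have hpd : l.prod ∣ n := Dvd.intro r hr5.symm
      have hprod0 : l.prod ≠ 0 := fun h0 => hsm.1 (by rw [hr5, h0, zero_mul])
      obtain ⟨s, -, hs2, -, -, hs5⟩ := totient_split hprod0 (bigs_nodup _ _) fun q hq =>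
        ⟨(good_node hgL q hq).1, List.dvd_prod hq, fun hh => (good_node hgL q hq).2.2 (hh.trans hpd)⟩
      have hs1 : s = 1 := by
        have h : l.prod * s = l.prod * 1 := by rw [mul_one]; exact hs5.symm
        exact Nat.eq_of_mul_eq_mul_left (Nat.pos_of_ne_zero hprod0) h
      subst hs1
      rw [Nat.totient_one, mul_one] at hs2
      rw [← hs2]
      refine totient_mem_Gset ((hsm.mono hvu).of_dvd hpd) ?_
      rw [hs2]
      exact le_trans (Nat.le_mul_of_pos_right _ hc1) (hr2 ▸ haY)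
    · exact Finset.mem_filter.2 ⟨Finset.mem_Icc.2
        ⟨hc1, le_trans (Nat.le_mul_of_pos_left _ hb1) (hr2 ▸ haY)⟩, hrsm, htail⟩
  right
  have hlogc : log (Nat.totient r : ℝ) ≤ exp (L / 2) := by
    rw [← log_exp (exp (L / 2))]
    exact log_le_log (Nat.cast_pos.2 hc1) (not_lt.1 htail)
  have hloga : ∀ w : ℝ, (∀ q ∈ l, sc q ≤ w) →
      log (Nat.totient n : ℝ) ≤ (Kb (L + 1) : ℝ) * exp w + exp (L / 2) := by
    intro w hwl
    have h1 := log_pred_prod_le (l := l) (v := w) fun q hq => ⟨(good_node hgL q hq).1, hwl q hq⟩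
    have h2 : (l.length : ℝ) * exp w ≤ (Kb (L + 1) : ℝ) * exp w :=
      mul_le_mul_of_nonneg_right (Nat.cast_le.2 hlenL) (exp_nonneg _)
    rw [hr2, Nat.cast_mul,
      log_mul (Nat.cast_ne_zero.2 (Nat.pos_iff_ne_zero.1 hb1))
        (Nat.cast_ne_zero.2 (Nat.pos_iff_ne_zero.1 hc1))]
    linarith
  by_cases hmain : Smooth (L - Del L / 2) n ∧ EntS l ≤ L - Del L / 2
  · left
    refine Finset.mem_filter.2 ⟨Finset.mem_Icc.2 ⟨ha1, Nat.le_floor ?_⟩, n, hmain.1, rfl, hgL,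
      hmain.2⟩
    rw [← log_le_iff_le_exp (Nat.cast_pos.2 ha1)]
    refine (hloga (L - Del L / 2) fun q hq =>
      hmain.1.2 q (mem_bigs.1 hq).1 (mem_bigs.1 hq).2.1).trans ?_
    have h1 : exp (L / 2) ≤ exp (L - Del L / 2) := exp_le_exp.2 (by linarith)
    have h2 : (Kb (L + 1) : ℝ) + 1 ≤ exp (Del L / 4) := by
      rw [pow_one] at hcost1
      have := add_one_le_exp (Del L / 4)
      have : 16 * ((Kb L : ℝ) + 3) ≤ Del L := hcost1
      have := Kb_succ_le (show 0 ≤ L by linarith)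
      linarith
    calc (Kb (L + 1) : ℝ) * exp (L - Del L / 2) + exp (L / 2)
        ≤ ((Kb (L + 1) : ℝ) + 1) * exp (L - Del L / 2) := by linarith
      _ ≤ exp (Del L / 4) * exp (L - Del L / 2) := mul_le_mul_of_nonneg_right h2 (exp_nonneg _)
      _ = exp (L - Del L / 4) := by rw [← exp_add]; ring_nf
  · right
    refine ⟨Finset.mem_filter.2 ⟨Finset.mem_Icc.2 ⟨ha1, haY⟩, n, hsm.mono hv1, rfl, hgL, hEbig,
      ?_⟩, hloga v fun q hq => hsm.2 q (mem_bigs.1 hq).1 (mem_bigs.1 hq).2.1⟩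
    by_cases h1 : Smooth (L - Del L / 2) n
    · left
      have : L - Del L / 2 < EntS l := not_le.1 fun hh => hmain ⟨h1, hh⟩
      linarith
    · right
      have h2 : ∃ q : ℕ, q.Prime ∧ q ∣ n ∧ L - Del L / 2 < sc q := by
        by_contra hc
        push Not at hc
        exact h1 ⟨hsm.1, hc⟩
      obtain ⟨q, hq, hqn, hqs⟩ := h2
      exact ⟨q, mem_bigs.2 ⟨hq, hqn, hsm.1, by linarith⟩, by linarith⟩

lemma top_log {L u v : ℝ} {Y m a p : ℕ} {K : ℕ} (hp : p.Prime) (ha : 1 ≤ a)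
    (hm : m = (p - 1) * a) (hu : u = LL Y) (hv : exp v = log (p : ℝ)) (hL : 32 ≤ L) (hLu : L ≤ u)
    (hloga : log (a : ℝ) ≤ (K : ℝ) * exp v + exp (L / 2)) (hY : 2 ≤ Y)
    (hmbig : (Y : ℝ) / log (Y : ℝ) ^ 2 < m) :
    log (Y : ℝ) / (2 * ((K : ℝ) + 3)) ≤ log (p : ℝ) := by
  have hp1 : 1 ≤ p - 1 := by have := hp.two_le; omega
  rw [hv] at hloga
  have h2 : log (m : ℝ) ≤ log (p : ℝ) + log (a : ℝ) := by
    rw [hm, Nat.cast_mul,
      log_mul (Nat.cast_ne_zero.2 (by omega)) (Nat.cast_ne_zero.2 (by omega))]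
    exact add_le_add (log_le_log (Nat.cast_pos.2 hp1) (Nat.cast_le.2 (Nat.sub_le p 1))) le_rfl
  have hY1 : 0 < log (Y : ℝ) := log_pos (by exact_mod_cast hY)
  have hexpu : exp u = log (Y : ℝ) := by rw [hu]; exact exp_log hY1
  have hY2 : (0 : ℝ) < Y := by exact_mod_cast Nat.zero_lt_of_lt hY
  have h3 : log (Y : ℝ) - 2 * u < log (m : ℝ) := by
    have h4 := log_lt_log (div_pos hY2 (pow_pos hY1 2)) hmbig
    rw [log_div hY2.ne' (pow_pos hY1 2).ne', log_pow] at h4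
    have : log (log (Y : ℝ)) = u := by rw [← hexpu, log_exp]
    rw [this] at h4
    push_cast at h4
    linarith
  have h5 : exp (L / 2) * 8 ≤ log (Y : ℝ) := by
    rw [← hexpu]
    calc exp (L / 2) * 8 ≤ exp (L / 2) * exp (L / 2) := by
          refine mul_le_mul_of_nonneg_left ?_ (exp_nonneg _)
          linarith [add_one_le_exp (L / 2)]
      _ = exp L := by rw [← exp_add]; ring_nf
      _ ≤ exp u := exp_le_exp.2 hLu
  have h6 : 16 * u ≤ log (Y : ℝ) := by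
    rw [← hexpu]
    have := Real.quadratic_le_exp_of_nonneg (show 0 ≤ u by linarith)
    nlinarith
  rw [div_le_iff₀ (by positivity)]
  nlinarith [Nat.cast_nonneg (α := ℝ) K, log_prime_pos hp]

lemma classify : ∃ U : ℝ, ∀ (L : ℝ) (Y n m : ℕ), U ≤ L → L ≤ LL Y → LL Y ≤ L + 1 →
    0 < n → Nat.totient n = m → m < Y → (Y : ℝ) / log (Y : ℝ) ^ 2 < m →
    ¬ Smooth (LL Y - 2 * log (LL Y)) n →
    (¬ ∃ q : ℕ, exp (exp (LL Y - 2 * log (LL Y))) < (q : ℝ) ∧ q ^ 2 ∣ n) →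
    HasOver (LL Y) m ∨ ∃ a p : ℕ, m = (p - 1) * a ∧ p ∈ bigP Y a ∧
      ((a ∈ Gset (LL Y) Y ∧ ¬ Normal p) ∨ a ∈ Abad (Y0 (L / 2)) Y ∨ a ∈ Atail L Y ∨
        a ∈ Amain L ∨
        (a ∈ Awin L Y ∧ log (Y : ℝ) / (2 * ((Kb (L + 1) : ℝ) + 3)) ≤ log (p : ℝ))) := by
  obtain ⟨U1, hover⟩ := top_over
  obtain ⟨U2, hcof⟩ := cofactor_cases
  obtain ⟨U3, hlog⟩ := eventually_atTop.1 ((polylog_le_rpow 1 (show (0 : ℝ) < 1 by norm_num) 16).and
    (eventually_ge_atTop (max (max U1 U2) 32)))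
  refine ⟨U3, fun L Y n m hL hLY hYL hn hnm hmY hmbig hns hnsq => ?_⟩
  obtain ⟨hlogsmall, hmax⟩ := hlog L hL
  simp only [max_le_iff] at hmax
  obtain ⟨⟨hL1, hL2⟩, hL32⟩ := hmax
  set u := LL Y with hu
  -- the largest prime factor
  have hex : ∃ q : ℕ, q.Prime ∧ q ∣ n ∧ u - 2 * log u < sc q := by
    by_contra hc
    push Not at hc
    exact hns ⟨by omega, hc⟩
  obtain ⟨q0, hq0, hq0n, hq0s⟩ := hex
  have hne : n.primeFactors.Nonempty :=
    ⟨q0, Nat.mem_primeFactors.2 ⟨hq0, hq0n, by omega⟩⟩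
  set p := n.primeFactors.max' hne with hpdef
  obtain ⟨hp, hpn, -⟩ := Nat.mem_primeFactors.1 (n.primeFactors.max'_mem hne)
  have hmax : ∀ q : ℕ, q.Prime → q ∣ n → q ≤ p := fun q hq hd =>
    Finset.le_max' _ _ (Nat.mem_primeFactors.2 ⟨hq, hd, by omega⟩)
  have hps : u - 2 * log u < sc p := hq0s.trans_le (sc_mono hq0.two_le (hmax q0 hq0 hq0n))
  have hp2 : ¬ p ^ 2 ∣ n := fun hh => hnsq ⟨p, (lt_sc_iff hp.two_le).1 hps, hh⟩
  obtain ⟨n', hn'⟩ := hpn
  have hn'0 : n' ≠ 0 := fun h0 => by rw [hn', h0, mul_zero] at hn; exact lt_irrefl 0 hn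
  have hpn' : ¬ p ∣ n' := fun hh => hp2 (by rw [hn', pow_two]; exact mul_dvd_mul_left p hh)
  set a := Nat.totient n' with ha
  have hma : m = (p - 1) * a := by
    rw [← hnm, hn', Nat.totient_mul ((hp.coprime_iff_not_dvd).2 hpn'), Nat.totient_prime hp]
  have ha1 : 1 ≤ a := Nat.totient_pos.2 (Nat.pos_of_ne_zero hn'0)
  have hp1 : 1 ≤ p - 1 := by have := hp.two_le; omega
  have haY : a ≤ Y := by
    have : a ≤ m := hma ▸ Nat.le_mul_of_pos_left a hp1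
    omega
  have hpY : p ≤ Y := by
    have : p - 1 ≤ m := hma ▸ Nat.le_mul_of_pos_right (p - 1) ha1
    omega
  have hpu : sc p ≤ u := sc_le_LL' hp.two_le hpY
  have hpZ : p ∈ bigP Y a := by
    refine Finset.mem_filter.2 ⟨Finset.mem_Icc.2 ⟨hp.one_le, ?_⟩, hp, hps⟩
    have h : p - 1 ≤ Y / a := (Nat.le_div_iff_mul_le ha1).2 (hma ▸ hmY.le)
    omega
  have hsm : Smooth (sc p) n' := ⟨hn'0, fun q hq hd =>
    sc_mono hq.two_le (hmax q hq (by rw [hn']; exact hd.mul_left p))⟩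
  by_cases hN : Normal p
  swap
  · exact Or.inr ⟨a, p, hma, hpZ, Or.inl ⟨totient_mem_Gset (hsm.mono hpu) haY, hN⟩⟩
  by_cases hbad : ∃ q ∈ bigs (Y0 (L / 2)) n', BadNode n' q
  · exact Or.inr ⟨a, p, hma, hpZ, Or.inr (Or.inl
      (Finset.mem_filter.2 ⟨Finset.mem_Icc.2 ⟨ha1, haY⟩, n', hsm.mono hpu, rfl, hbad⟩))⟩
  have hg : GoodAbove (Y0 (L / 2)) n' := fun q hq hh => hbad ⟨q, hq, hh⟩
  have hv : L / 2 ≤ sc p := by
    have h1 : log u ≤ log (L + 3) := log_le_log (by linarith) (by linarith)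
    simp only [pow_one, rpow_one] at hlogsmall
    linarith
  by_cases hEbig : L + 2 * Del L < EntS (bigs (Y0 L) n')
  · exact Or.inl (hma ▸ hover L u p n' hL1 hLY hYL hp hN hps hpu hv hsm hpn' hg hEbig)
  refine Or.inr ⟨a, p, hma, hpZ, ?_⟩
  rcases hcof L Y n' (sc p) hL2 hLY hYL hsm hpu hg (not_lt.1 hEbig) haY with h | h | ⟨h, h'⟩
  · exact Or.inr (Or.inr (Or.inl h))
  · exact Or.inr (Or.inr (Or.inr (Or.inl h)))
  · exact Or.inr (Or.inr (Or.inr (Or.inr ⟨h, top_log hp ha1 hma hu (exp_log (log_prime_pos hp))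
      hL32 hLY h' (hp.two_le.trans hpY) hmbig⟩)))

/-- Lower powers of `L` absorb polylogarithmic exponents. -/
lemma absorb (A c s B : ℝ) (hc : 0 < c) (hs : 1 / 500 < s) :
    ∀ᶠ L : ℝ in atTop,
      B * ((L + 1) ^ 2 * (exp (-c * L ^ s) * exp (A * log (L + 4) ^ 2))) ≤
        exp (-L ^ (1 / 500 : ℝ)) := by
  have hs0 : 0 < s := lt_trans (by norm_num) hs
  filter_upwards [polylog_le_rpow 2 hs0 ((|B| + 2 + 4 * |A|) / (c / 2)),
    rpow_le_small hs (half_pos hc), eventually_ge_atTop (3 : ℝ)] with L h1 h2 hL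
  have hl : 1 ≤ log (L + 3) := log_ge_one (by linarith)
  rw [div_mul_eq_mul_div, div_le_iff₀ (half_pos hc)] at h1
  have h4 : log (L + 4) ≤ 2 * log (L + 3) := by
    rw [← log_rpow (by linarith), rpow_two]
    exact log_le_log (by linarith) (by nlinarith)
  have h4' : 0 ≤ log (L + 4) := log_nonneg (by linarith)
  have h5 : A * log (L + 4) ^ 2 ≤ 4 * |A| * log (L + 3) ^ 2 := by
    calc A * log (L + 4) ^ 2 ≤ |A| * log (L + 4) ^ 2 :=
          mul_le_mul_of_nonneg_right (le_abs_self A) (sq_nonneg _)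
      _ ≤ |A| * (2 * log (L + 3)) ^ 2 :=
          mul_le_mul_of_nonneg_left (pow_le_pow_left₀ h4' h4 2) (abs_nonneg A)
      _ = _ := by ring
  have h6 : B ≤ exp (|B| * log (L + 3) ^ 2) := by
    have := add_one_le_exp (|B| * log (L + 3) ^ 2)
    nlinarith [le_abs_self B, abs_nonneg B, mul_le_mul_of_nonneg_left
      (show (1 : ℝ) ≤ log (L + 3) ^ 2 by nlinarith) (abs_nonneg B)]
  have h7 : (L + 1) ^ 2 ≤ exp (2 * log (L + 3) ^ 2) := by
    calc (L + 1) ^ 2 ≤ exp (log (L + 3)) ^ 2 := by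
          rw [exp_log (by linarith)]; gcongr; linarith
      _ = exp (2 * log (L + 3)) := by rw [← exp_nat_mul]; norm_num
      _ ≤ _ := exp_le_exp.2 (by nlinarith)
  calc B * ((L + 1) ^ 2 * (exp (-c * L ^ s) * exp (A * log (L + 4) ^ 2)))
      ≤ exp (|B| * log (L + 3) ^ 2) *
          (exp (2 * log (L + 3) ^ 2) * (exp (-c * L ^ s) * exp (A * log (L + 4) ^ 2))) := by
        gcongr
    _ = exp (|B| * log (L + 3) ^ 2 + (2 * log (L + 3) ^ 2 + (-c * L ^ s +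
          A * log (L + 4) ^ 2))) := by simp only [exp_add]
    _ ≤ _ := exp_le_exp.2 (by nlinarith)

/-- All totient values up to `Y`. -/
def values (Y : ℕ) : Finset ℕ :=
  (Finset.Icc 1 Y).filter fun a => ∃ n, 0 < n ∧ Nat.totient n = a

/-- Values coming from a preimage with a repeated large prime. -/
def sqVals (Y : ℕ) : Finset ℕ :=
  ((Finset.Icc 1 (Y * ⌈log (Y : ℝ)⌉₊ ^ 2)).filter fun n =>
    ∃ q : ℕ, exp (exp (LL Y - 2 * log (LL Y))) < (q : ℝ) ∧ q ^ 2 ∣ n).image Nat.totient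

/-- Values coming from a smooth preimage. -/
def smVals (Y : ℕ) : Finset ℕ :=
  ((Finset.Icc 1 (Y * ⌈log (Y : ℝ)⌉₊ ^ 2)).filter fun n =>
    Smooth (LL Y - 2 * log (LL Y)) n).image Nat.totient

lemma scale_facts : ∃ U : ℝ, ∀ (L : ℝ) (Y : ℕ), U ≤ L → L ≤ LL Y → LL Y ≤ L + 1 →
    1 < log (Y : ℝ) ∧ exp (LL Y) = log (Y : ℝ) ∧ 200 ≤ LL Y ∧
      L / 2 ≤ LL Y - 2 * log (LL Y) ∧
      exp (LL Y - 2 * log (LL Y)) = log (Y : ℝ) / LL Y ^ 2 ∧ 9 ≤ log (Y : ℝ) := by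
  obtain ⟨U, hU⟩ := eventually_atTop.1 ((polylog_le_rpow 1 (show (0 : ℝ) < 1 by norm_num) 16).and
    (eventually_ge_atTop (200 : ℝ)))
  refine ⟨U, fun L Y hL hLY hYL => ?_⟩
  obtain ⟨hlog, h200⟩ := hU L hL
  have hlY : 0 < log (Y : ℝ) := by
    rcases lt_or_ge 0 (log (Y : ℝ)) with h | h
    · exact h
    · exfalso
      have h0 : log (Y : ℝ) = 0 := le_antisymm h (log_natCast_nonneg Y)
      rw [LL, h0, log_zero] at hLY
      linarith
  have hexpu : exp (LL Y) = log (Y : ℝ) := exp_log hlY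
  have h1 := add_one_le_exp (LL Y)
  have h2 : log (LL Y) ≤ log (L + 3) := log_le_log (by linarith) (by linarith)
  simp only [pow_one, rpow_one] at hlog
  refine ⟨by linarith, hexpu, by linarith, by linarith, ?_, by linarith⟩
  rw [exp_sub, hexpu, show 2 * log (LL Y) = log (LL Y ^ 2) by rw [log_pow]; norm_num,
    exp_log (pow_pos (by linarith) 2)]

lemma small_classes : ∃ U : ℝ, ∀ (L : ℝ) (Y : ℕ), U ≤ L → L ≤ LL Y → LL Y ≤ L + 1 →
    1 ≤ (Y : ℝ) / log (Y : ℝ) ^ 2 ∧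
      (Y : ℝ) / log (Y : ℝ) ^ 2 ≤ (Y : ℝ) / log (Y : ℝ) * exp (-L ^ (1 / 500 : ℝ)) ∧
      ((sqVals Y).card : ℝ) ≤ (Y : ℝ) / log (Y : ℝ) ^ 2 := by
  obtain ⟨U, hU⟩ := scale_facts
  refine ⟨max U 1, fun L Y hL hLY hYL => ?_⟩
  obtain ⟨hL', hL1⟩ := max_le_iff.1 hL
  obtain ⟨hlY, hexpu, hu200, -, hv0e, hlY9⟩ := hU L Y hL' hLY hYL
  set u := LL Y with hu
  have hY0 : (0 : ℝ) < Y := by
    rcases Nat.eq_zero_or_pos Y with h | h
    · rw [h, Nat.cast_zero, log_zero] at hlY; linarith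
    · exact_mod_cast h
  refine ⟨?_, ?_, ?_⟩
  · rw [one_le_div (by positivity)]
    have h := pow_div_factorial_le_exp (log (Y : ℝ)) (by linarith) 3
    rw [exp_log hY0] at h
    norm_num [Nat.factorial] at h
    have h9 := mul_le_mul_of_nonneg_left (show (6 : ℝ) ≤ log (Y : ℝ) by linarith)
      (sq_nonneg (log (Y : ℝ)))
    nlinarith
  · have hL500 : L ^ (1 / 500 : ℝ) ≤ L := by
      conv_rhs => rw [← rpow_one L]
      exact rpow_le_rpow_of_exponent_le (by linarith) (by norm_num)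
    calc (Y : ℝ) / log (Y : ℝ) ^ 2 = (Y : ℝ) / log (Y : ℝ) * exp (-u) := by
          rw [exp_neg, hexpu]; field_simp
      _ ≤ _ := mul_le_mul_of_nonneg_left (exp_le_exp.2 (by linarith)) (by positivity)
  · set v0 := u - 2 * log u with hv0
    calc ((sqVals Y).card : ℝ)
        ≤ ((Y * ⌈log (Y : ℝ)⌉₊ ^ 2 : ℕ) : ℝ) * (2 / exp (exp v0)) :=
          le_trans (Nat.cast_le.2 Finset.card_image_le) (sq_count _ (exp_pos _))
      _ ≤ (Y * (2 * log (Y : ℝ)) ^ 2) * (2 / exp (exp v0)) := by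
          refine mul_le_mul_of_nonneg_right ?_ (by positivity)
          push_cast
          gcongr
          have := Nat.ceil_lt_add_one (show 0 ≤ log (Y : ℝ) by linarith)
          linarith
      _ ≤ (Y : ℝ) / log (Y : ℝ) ^ 2 := by
          have h1 : 8 * log (Y : ℝ) ^ 4 ≤ exp (exp v0) := by
            calc 8 * log (Y : ℝ) ^ 4 = exp (log 8) * exp u ^ 4 := by
                  rw [exp_log (by norm_num), hexpu]
              _ = exp (log 8 + 4 * u) := by rw [← exp_nat_mul, ← exp_add]; norm_num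
              _ ≤ _ := by
                  refine exp_le_exp.2 ?_
                  have h8 : log (8 : ℝ) ≤ 7 := by
                    have := log_le_sub_one_of_pos (show (0 : ℝ) < 8 by norm_num); linarith
                  rw [hv0e, le_div_iff₀ (pow_pos (by linarith) 2)]
                  have := pow_div_factorial_le_exp u (show (0 : ℝ) ≤ u by linarith) 4
                  rw [hexpu] at this
                  norm_num [Nat.factorial] at this
                  have h9 := mul_le_mul_of_nonneg_left hu200 (pow_nonneg (show 0 ≤ u by linarith) 3)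
                  nlinarith [sq_nonneg u]
          rw [mul_pow, ← mul_div_assoc, div_le_div_iff₀ (exp_pos _) (by positivity)]
          calc (Y : ℝ) * (2 ^ 2 * log (Y : ℝ) ^ 2) * 2 * log (Y : ℝ) ^ 2
              = Y * (8 * log (Y : ℝ) ^ 4) := by ring
            _ ≤ _ := mul_le_mul_of_nonneg_left h1 hY0.le

/-- Counting values from a set of cofactors of small reciprocal mass. -/
lemma vals_mass : ∃ U : ℝ, ∀ (L : ℝ) (Y : ℕ), U ≤ L → L ≤ LL Y → LL Y ≤ L + 1 →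
    ∀ S : Finset ℕ, S ⊆ Finset.Icc 1 Y → ∀ M : ℝ, ∑ a ∈ S, (1 : ℝ) / a ≤ M →
    ((vals S (bigP Y)).card : ℝ) ≤ (Y : ℝ) / log (Y : ℝ) * (8 * (L + 1) ^ 2 * M) := by
  obtain ⟨U, hU⟩ := scale_facts
  obtain ⟨l0, hl0, hlarge⟩ := large_primes_le
  refine ⟨max U (max 1 (2 * l0)), fun L Y hL hLY hYL S hS M hM => ?_⟩
  simp only [max_le_iff] at hL
  obtain ⟨hL', hL1, hLl⟩ := hL
  obtain ⟨hlY, -, hu200, hv0L, hv0e, -⟩ := hU L Y hL' hLY hYL
  refine (card_vals_le S _).trans ?_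
  calc ∑ a ∈ S, ((bigP Y a).card : ℝ)
      ≤ ∑ a ∈ S, 8 * Y * LL Y ^ 2 / log (Y : ℝ) * (1 / a) := by
        refine Finset.sum_le_sum fun a ha => ?_
        obtain ⟨ha1, haY⟩ := Finset.mem_Icc.1 (hS ha)
        refine (hlarge Y a (exp (LL Y - 2 * log (LL Y))) _ ?_ ha1 haY fun p hp => ?_).trans
          (le_of_eq ?_)
        · linarith [add_one_le_exp (LL Y - 2 * log (LL Y))]
        · obtain ⟨h1, h2, h3⟩ := Finset.mem_filter.1 hp
          refine ⟨h2, (Finset.mem_Icc.1 h1).2, ?_⟩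
          rw [← exp_log (log_prime_pos h2)]
          exact exp_le_exp.2 (le_of_lt h3)
        · rw [hv0e]; field_simp
    _ = (Y : ℝ) / log (Y : ℝ) * (8 * LL Y ^ 2) * ∑ a ∈ S, (1 : ℝ) / a := by
        rw [← Finset.mul_sum]; ring
    _ ≤ (Y : ℝ) / log (Y : ℝ) * (8 * (L + 1) ^ 2) * M := by
        refine mul_le_mul ?_ hM (Finset.sum_nonneg fun a _ => by positivity) (by positivity)
        refine mul_le_mul_of_nonneg_left ?_ (by positivity)
        exact mul_le_mul_of_nonneg_left (pow_le_pow_left₀ (by linarith) hYL 2) (by norm_num)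
    _ = _ := by ring

lemma Gsum_le_scale : ∃ A : ℝ, ∀ (L : ℝ) (Y : ℕ), 0 ≤ L → L ≤ LL Y → LL Y ≤ L + 1 →
    Gsum (LL Y) Y ≤ exp (A * log (L + 4) ^ 2) := by
  obtain ⟨A, hA0, hG⟩ := Gsum_bound
  refine ⟨A, fun L Y hL hLY hYL => ?_⟩
  refine (hG _ (hL.trans hLY) Y).trans (exp_le_exp.2 (mul_le_mul_of_nonneg_left ?_ hA0.le))
  exact pow_le_pow_left₀ (log_nonneg (by linarith)) (log_le_log (by linarith) (by linarith)) 2

lemma abn_class : ∃ U : ℝ, ∀ (L : ℝ) (Y : ℕ), U ≤ L → L ≤ LL Y → LL Y ≤ L + 1 →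
    ((vals (Gset (LL Y) Y) (fun a => (bigP Y a).filter fun p => ¬ Normal p)).card : ℝ) ≤
      (Y : ℝ) / log (Y : ℝ) * exp (-L ^ (1 / 500 : ℝ)) := by
  obtain ⟨U, hU⟩ := scale_facts
  obtain ⟨ca, Ua, hca, habn⟩ := abn_count
  obtain ⟨A, hA⟩ := Gsum_le_scale
  obtain ⟨Ue, hev⟩ := eventually_atTop.1
    ((absorb A (ca * (1 / 2)) (1 / 3) 4 (by positivity) (by norm_num)).and
      (eventually_ge_atTop (max U (max 1 (2 * |Ua|)))))
  refine ⟨Ue, fun L Y hL hLY hYL => ?_⟩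
  obtain ⟨e1, hmax⟩ := hev L hL
  simp only [max_le_iff] at hmax
  obtain ⟨hL', hL1, hUa⟩ := hmax
  obtain ⟨hlY, -, hu200, hv0L, hv0e, -⟩ := hU L Y hL' hLY hYL
  set u := LL Y with hu
  set v0 := u - 2 * log u with hv0
  set D := (Y : ℝ) / log (Y : ℝ) with hD
  have hD0 : 0 ≤ D := by positivity
  refine (card_vals_le _ _).trans ?_
  calc ∑ a ∈ Gset u Y, (((bigP Y a).filter fun p => ¬ Normal p).card : ℝ)
      ≤ ∑ a ∈ Gset u Y, D * (2 * u ^ 2 * exp (-(ca * (1 / 2)) * L ^ (1 / 3 : ℝ))) * (1 / a) := by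
        refine Finset.sum_le_sum fun a ha => ?_
        obtain ⟨ha1, haY, -⟩ := mem_Gset.1 ha
        rcases ((bigP Y a).filter fun p => ¬ Normal p).eq_empty_or_nonempty with h | ⟨p, hp⟩
        · rw [h, Finset.card_empty, Nat.cast_zero]; positivity
        obtain ⟨h1, h2, h3⟩ := Finset.mem_filter.1 (Finset.mem_filter.1 hp).1
        have hpZ := (Finset.mem_Icc.1 h1).2
        have h4 : v0 < LL (Y / a + 1) := h3.trans_le (sc_le_LL' h2.two_le hpZ)
        have h5 : log (Y : ℝ) / u ^ 2 ≤ log ((Y / a + 1 : ℕ) : ℝ) := by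
          rw [← hv0e, ← log_exp (exp v0)]
          exact log_le_log (exp_pos _) (((lt_sc_iff h2.two_le).1 h3).le.trans (Nat.cast_le.2 hpZ))
        have hsub : ((bigP Y a).filter fun p => ¬ Normal p) ⊆
            (Finset.Icc 1 (Y / a + 1)).filter fun p => p.Prime ∧ ¬ Normal p := fun q hq => by
          obtain ⟨hq1, hq2⟩ := Finset.mem_filter.1 hq
          obtain ⟨hq3, hq4, -⟩ := Finset.mem_filter.1 hq1
          exact Finset.mem_filter.2 ⟨hq3, hq4, hq2⟩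
        refine ((Nat.cast_le.2 (Finset.card_le_card hsub)).trans (habn _ ?_)).trans ?_
        · linarith [le_abs_self Ua]
        have h6 := mul_le_mul_of_nonneg_left ((half_rpow_le (show 0 ≤ L by linarith)
          (show (0 : ℝ) ≤ 1 / 3 by norm_num) (by norm_num)).trans
          (rpow_le_rpow (by linarith) (hv0L.trans h4.le) (by norm_num))) hca.le
        calc ((Y / a + 1 : ℕ) : ℝ) / log ((Y / a + 1 : ℕ) : ℝ) *
              exp (-ca * LL (Y / a + 1) ^ (1 / 3 : ℝ))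
            ≤ (2 * Y / a) / (log (Y : ℝ) / u ^ 2) * exp (-(ca * (1 / 2)) * L ^ (1 / 3 : ℝ)) := by
              refine mul_le_mul (div_le_div₀ (by positivity) (cast_div_add_one_le ha1 haY) ?_ h5)
                (exp_le_exp.2 (by linarith)) (exp_nonneg _) (by positivity)
              exact div_pos (by linarith) (pow_pos (by linarith) 2)
          _ = _ := by rw [hD]; field_simp
    _ = D * (2 * u ^ 2 * exp (-(ca * (1 / 2)) * L ^ (1 / 3 : ℝ))) * Gsum u Y := by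
        rw [← Finset.mul_sum]; rfl
    _ ≤ D * (4 * ((L + 1) ^ 2 * (exp (-(ca * (1 / 2)) * L ^ (1 / 3 : ℝ)) *
          exp (A * log (L + 4) ^ 2)))) := by
        rw [mul_assoc]
        refine mul_le_mul_of_nonneg_left ?_ hD0
        calc 2 * u ^ 2 * exp (-(ca * (1 / 2)) * L ^ (1 / 3 : ℝ)) * Gsum u Y
            ≤ 4 * (L + 1) ^ 2 * exp (-(ca * (1 / 2)) * L ^ (1 / 3 : ℝ)) *
                exp (A * log (L + 4) ^ 2) := by
              refine mul_le_mul ?_ (hA L Y (by linarith) hLY hYL) (Gsum_nonneg u Y) (by positivity)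
              refine mul_le_mul_of_nonneg_right ?_ (exp_nonneg _)
              have := pow_le_pow_left₀ (show (0 : ℝ) ≤ u by linarith) hYL 2
              linarith [sq_nonneg u]
          _ = _ := by ring
    _ ≤ _ := mul_le_mul_of_nonneg_left e1 hD0

lemma bad_class : ∃ U : ℝ, ∀ (L : ℝ) (Y : ℕ), U ≤ L → L ≤ LL Y → LL Y ≤ L + 1 →
    ((vals (Abad (Y0 (L / 2)) Y) (bigP Y)).card : ℝ) ≤
      (Y : ℝ) / log (Y : ℝ) * exp (-L ^ (1 / 500 : ℝ)) := by
  obtain ⟨Uv, hmass⟩ := vals_mass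
  obtain ⟨Ub, hbm⟩ := bad_mass
  obtain ⟨A, hA⟩ := Gsum_le_scale
  obtain ⟨Ue, hev⟩ := eventually_atTop.1
    ((absorb A (1 / 2) (3 / 1024) 32 (by norm_num) (by norm_num)).and
    (((tendsto_rpow_atTop (show (0 : ℝ) < 3 / 16 by norm_num)).eventually_ge_atTop (2 * Ub)).and
      (eventually_ge_atTop (max Uv 1))))
  refine ⟨Ue, fun L Y hL hLY hYL => ?_⟩
  obtain ⟨e1, e2, hmax⟩ := hev L hL
  obtain ⟨hL', hL1⟩ := max_le_iff.1 hmax
  have hW : (1 / 2 : ℝ) * L ^ (3 / 16 : ℝ) ≤ Y0 (L / 2) :=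
    half_rpow_le (by linarith) (by norm_num) (by norm_num)
  have hsum : ∑ a ∈ Abad (Y0 (L / 2)) Y, (1 : ℝ) / a ≤
      exp (-(1 / 2) * L ^ (3 / 1024 : ℝ)) * exp (A * log (L + 4) ^ 2) := by
    refine (hbm (Y0 (L / 2)) (LL Y) (by linarith) Y _ fun a ha => ?_).trans
      (mul_le_mul (exp_le_exp.2 ?_) (hA L Y (by linarith) hLY hYL) (Gsum_nonneg _ Y) (exp_nonneg _))
    · obtain ⟨h1, n, h2, h3, h4⟩ := Finset.mem_filter.1 ha
      exact ⟨(Finset.mem_Icc.1 h1).2, n, h2, h3, h4⟩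
    · have h1 : ((1 / 2 : ℝ) * L ^ (3 / 16 : ℝ)) ^ (1 / 64 : ℝ) ≤ Y0 (L / 2) ^ (1 / 64 : ℝ) :=
        rpow_le_rpow (mul_nonneg (by norm_num) (rpow_nonneg (by linarith) _)) hW (by norm_num)
      rw [mul_rpow (by norm_num) (rpow_nonneg (by linarith) _), ← rpow_mul (by linarith)] at h1
      norm_num at h1 ⊢
      have h2 : (1 / 2 : ℝ) ≤ (1 / 2 : ℝ) ^ (1 / 64 : ℝ) := by
        conv_lhs => rw [← rpow_one (1 / 2 : ℝ)]
        exact rpow_le_rpow_of_exponent_ge' (by norm_num) (by norm_num) (by norm_num) (by norm_num)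
      have h3 := mul_le_mul_of_nonneg_right h2
        (rpow_nonneg (show (0 : ℝ) ≤ L by linarith) (3 / 1024 : ℝ))
      norm_num at h3
      linarith
  refine (hmass L Y hL' hLY hYL _ (Finset.filter_subset _ _) _ hsum).trans
    (mul_le_mul_of_nonneg_left (le_trans ?_ e1) (by positivity))
  have : (0 : ℝ) ≤ (L + 1) ^ 2 *
      (exp (-(1 / 2) * L ^ (3 / 1024 : ℝ)) * exp (A * log (L + 4) ^ 2)) := by positivity
  linarith

lemma tail_class : ∃ U : ℝ, ∀ (L : ℝ) (Y : ℕ), U ≤ L → L ≤ LL Y → LL Y ≤ L + 1 →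
    ((vals (Atail L Y) (bigP Y)).card : ℝ) ≤
      (Y : ℝ) / log (Y : ℝ) * exp (-L ^ (1 / 500 : ℝ)) := by
  obtain ⟨Uv, hmass⟩ := vals_mass
  obtain ⟨Ut, htail⟩ := smooth_tail
  obtain ⟨A, hA⟩ := Gsum_le_scale
  obtain ⟨Ue, hev⟩ := eventually_atTop.1
    ((absorb A (1 / 8) 1 32 (by norm_num) (by norm_num)).and
    ((eventually_Y0_le (show (0 : ℝ) < 1 / 4 by norm_num)).and
      (eventually_ge_atTop (max (max Uv Ut) 1))))
  refine ⟨Ue, fun L Y hL hLY hYL => ?_⟩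
  obtain ⟨e1, e2, hmax⟩ := hev L hL
  simp only [max_le_iff] at hmax
  obtain ⟨⟨hL', hLt⟩, hL1⟩ := hmax
  have hsum : ∑ a ∈ Atail L Y, (1 : ℝ) / a ≤
      exp (A * log (L + 4) ^ 2) * exp (-exp (L / 8)) := by
    refine (sum_recip_le_mul _ (Gset (LL Y) Y) (Btail L Y) fun a ha => ?_).trans
      (mul_le_mul (hA L Y (by linarith) hLY hYL) ?_
        (Finset.sum_nonneg fun c _ => by positivity) (exp_nonneg _))
    · exact (Finset.mem_filter.1 ha).2
    · exact htail L (Y0 L) hLt (by linarith) _ fun c hc => (Finset.mem_filter.1 hc).2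
  refine (hmass L Y hL' hLY hYL _ (Finset.filter_subset _ _) _ hsum).trans
    (mul_le_mul_of_nonneg_left (le_trans ?_ e1) (by positivity))
  have h1 : exp (-exp (L / 8)) ≤ exp (-(1 / 8) * L ^ (1 : ℝ)) := by
    refine exp_le_exp.2 ?_
    rw [rpow_one]
    linarith [add_one_le_exp (L / 8)]
  have h2 := mul_le_mul_of_nonneg_left h1
    (show (0 : ℝ) ≤ 32 * (L + 1) ^ 2 * exp (A * log (L + 4) ^ 2) by positivity)
  have h3 : (0 : ℝ) ≤ (L + 1) ^ 2 * exp (A * log (L + 4) ^ 2) * exp (-exp (L / 8)) := by positivity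
  linarith

lemma win_class : ∃ U : ℝ, ∀ (L : ℝ) (Y : ℕ), U ≤ L → L ≤ LL Y → LL Y ≤ L + 1 →
    ((vals (Awin L Y) (fun a => (bigP Y a).filter fun p : ℕ =>
        log (Y : ℝ) / (2 * ((Kb (L + 1) : ℝ) + 3)) ≤ log (p : ℝ))).card : ℝ) ≤
      (Y : ℝ) / log (Y : ℝ) * (64 * ((Kb L : ℝ) + 3) * ∑ a ∈ Awin L Y, (1 : ℝ) / a) := by
  obtain ⟨Us, hU⟩ := scale_facts
  obtain ⟨l0, hl0, hlarge⟩ := large_primes_le
  obtain ⟨Ue, hev⟩ := eventually_atTop.1
    ((eventually_Kb_cost (show (0 : ℝ) < 1 by norm_num) (4 * l0) 1).and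
      (eventually_ge_atTop (max Us 1)))
  refine ⟨Ue, fun L Y hL hLY hYL => ?_⟩
  obtain ⟨e1, hmax⟩ := hev L hL
  obtain ⟨hL', hL1⟩ := max_le_iff.1 hmax
  obtain ⟨hlY, hexpu, -, -, -, -⟩ := hU L Y hL' hLY hYL
  have hK := Kb_succ_le (show 0 ≤ L by linarith)
  refine (card_vals_le _ _).trans ?_
  calc ∑ a ∈ Awin L Y, (((bigP Y a).filter fun p : ℕ =>
          log (Y : ℝ) / (2 * ((Kb (L + 1) : ℝ) + 3)) ≤ log (p : ℝ)).card : ℝ)
      ≤ ∑ a ∈ Awin L Y, (Y : ℝ) / log (Y : ℝ) * (16 * ((Kb (L + 1) : ℝ) + 3)) * (1 / a) := by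
        refine Finset.sum_le_sum fun a ha => ?_
        obtain ⟨ha1, haY⟩ := Finset.mem_Icc.1 (Finset.mem_filter.1 ha).1
        refine (hlarge Y a (log (Y : ℝ) / (2 * ((Kb (L + 1) : ℝ) + 3))) _ ?_ ha1 haY
          fun p hp => ?_).trans (le_of_eq ?_)
        · rw [le_div_iff₀ (by positivity)]
          simp only [pow_one, rpow_one] at e1
          have h1 := mul_le_mul_of_nonneg_left hK hl0.le
          linarith [add_one_le_exp (LL Y)]
        · obtain ⟨h1, h2⟩ := Finset.mem_filter.1 hp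
          exact ⟨(Finset.mem_filter.1 h1).2.1,
            (Finset.mem_Icc.1 (Finset.mem_filter.1 h1).1).2, h2⟩
        · field_simp; ring
    _ = (Y : ℝ) / log (Y : ℝ) * (16 * ((Kb (L + 1) : ℝ) + 3)) *
          ∑ a ∈ Awin L Y, (1 : ℝ) / a := by rw [Finset.mul_sum]
    _ ≤ (Y : ℝ) / log (Y : ℝ) * (64 * ((Kb L : ℝ) + 3)) * ∑ a ∈ Awin L Y, (1 : ℝ) / a := by
        refine mul_le_mul_of_nonneg_right (mul_le_mul_of_nonneg_left ?_ (by positivity))
          (Finset.sum_nonneg fun a _ => by positivity)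
        linarith [Nat.cast_nonneg (α := ℝ) (Kb L)]
    _ = _ := by ring

lemma cover : ∃ U : ℝ, ∀ (L : ℝ) (Y : ℕ), U ≤ L → L ≤ LL Y → LL Y ≤ L + 1 →
    values Y ⊆ {Y} ∪ (Finset.Icc 1 ⌊(Y : ℝ) / log (Y : ℝ) ^ 2⌋₊) ∪ smVals Y ∪ sqVals Y ∪
      ((Finset.Icc 1 Y).filter fun m => HasOver (LL Y) m) ∪
      vals (Gset (LL Y) Y) (fun a => (bigP Y a).filter fun p => ¬ Normal p) ∪
      vals (Abad (Y0 (L / 2)) Y) (bigP Y) ∪ vals (Atail L Y) (bigP Y) ∪
      vals (Amain L) (bigP Y) ∪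
      vals (Awin L Y) (fun a => (bigP Y a).filter fun p : ℕ =>
        log (Y : ℝ) / (2 * ((Kb (L + 1) : ℝ) + 3)) ≤ log (p : ℝ)) := by
  obtain ⟨Us, hU⟩ := scale_facts
  obtain ⟨Uc, hclass⟩ := classify
  refine ⟨max Us Uc, fun L Y hL hLY hYL m hm => ?_⟩
  obtain ⟨hL', hUc⟩ := max_le_iff.1 hL
  obtain ⟨-, -, -, -, -, hlY9⟩ := hU L Y hL' hLY hYL
  obtain ⟨hmI, n, hn, hnm⟩ := Finset.mem_filter.1 hm
  obtain ⟨hm1, hmY⟩ := Finset.mem_Icc.1 hmI
  simp only [Finset.mem_union, Finset.mem_singleton, or_assoc]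
  by_cases hY : m = Y
  · exact Or.inl hY
  refine Or.inr ?_
  by_cases h0 : (m : ℝ) ≤ (Y : ℝ) / log (Y : ℝ) ^ 2
  · exact Or.inl (Finset.mem_Icc.2 ⟨hm1, Nat.le_floor h0⟩)
  refine Or.inr ?_
  have hnN := witness_le hn (hnm.trans_le hmY) hlY9
  by_cases h1 : Smooth (LL Y - 2 * log (LL Y)) n
  · exact Or.inl (Finset.mem_image.2
      ⟨n, Finset.mem_filter.2 ⟨Finset.mem_Icc.2 ⟨hn, hnN⟩, h1⟩, hnm⟩)
  refine Or.inr ?_
  by_cases h2 : ∃ q : ℕ, exp (exp (LL Y - 2 * log (LL Y))) < (q : ℝ) ∧ q ^ 2 ∣ n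
  · exact Or.inl (Finset.mem_image.2
      ⟨n, Finset.mem_filter.2 ⟨Finset.mem_Icc.2 ⟨hn, hnN⟩, h2⟩, hnm⟩)
  refine Or.inr ?_
  rcases hclass L Y n m hUc hLY hYL hn hnm (lt_of_le_of_ne hmY hY) (not_le.1 h0) h1 h2 with
    h3 | ⟨a, p, rfl, hp, hcase⟩
  · exact Or.inl (Finset.mem_filter.2 ⟨hmI, h3⟩)
  refine Or.inr ?_
  rcases hcase with ⟨ha, hN'⟩ | ha | ha | ha | ⟨ha, hlp⟩
  · exact Or.inl (mem_vals ha (Finset.mem_filter.2 ⟨hp, hN'⟩))
  · exact Or.inr (Or.inl (mem_vals ha hp))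
  · exact Or.inr (Or.inr (Or.inl (mem_vals ha hp)))
  · exact Or.inr (Or.inr (Or.inr (Or.inl (mem_vals ha hp))))
  · exact Or.inr (Or.inr (Or.inr (Or.inr (mem_vals ha (Finset.mem_filter.2 ⟨hp, hlp⟩)))))

lemma main_class (L : ℝ) (Y : ℕ) :
    ((vals (Amain L) (bigP Y)).card : ℝ) ≤
      ∑ a ∈ Amain L, (Nat.primeCounting (Y / a + 1) : ℝ) := by
  refine (card_vals_le _ _).trans (Finset.sum_le_sum fun a _ => ?_)
  exact Nat.cast_le.2 (card_primes_le _ _ fun p hp =>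
    ⟨(Finset.mem_filter.1 hp).2.1, (Finset.mem_Icc.1 (Finset.mem_filter.1 hp).1).2⟩)

lemma over_class : ∃ U : ℝ, ∀ (L : ℝ) (Y : ℕ), U ≤ L → L ≤ LL Y → LL Y ≤ L + 1 →
    (((Finset.Icc 1 Y).filter fun m => HasOver (LL Y) m).card : ℝ) ≤
        (Y : ℝ) / log (Y : ℝ) * exp (-L ^ (1 / 500 : ℝ)) ∧
      ((smVals Y).card : ℝ) ≤ (Y : ℝ) / log (Y : ℝ) ^ 2 := by
  obtain ⟨Us, hsmooth⟩ := smooth_count
  obtain ⟨Uo, hoverc⟩ := overfull_count
  obtain ⟨Ue, hev⟩ := eventually_atTop.1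
    ((rpow_le_small (show (1 / 500 : ℝ) < 3 / 4 by norm_num)
      (show (0 : ℝ) < 1 / 16 by norm_num)).and (eventually_ge_atTop (max (max Us Uo) 0)))
  refine ⟨Ue, fun L Y hL hLY hYL => ?_⟩
  obtain ⟨e1, hmax⟩ := hev L hL
  simp only [max_le_iff] at hmax
  obtain ⟨⟨hLs, hLo⟩, hL0⟩ := hmax
  refine ⟨(hoverc Y (by linarith)).trans (mul_le_mul_of_nonneg_left (exp_le_exp.2 ?_) (by positivity)),
    le_trans (Nat.cast_le.2 Finset.card_image_le) (hsmooth Y (by linarith))⟩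
  have h := Del_mono' hL0 hLY
  simp only [Del] at h ⊢
  linarith

lemma total_error : ∀ᶠ L : ℝ in atTop,
    8 * exp (-L ^ (1 / 500 : ℝ)) ≤ exp (-L ^ (1 / 1000 : ℝ)) := by
  filter_upwards [rpow_le_small (show (1 / 1000 : ℝ) < 1 / 500 by norm_num)
      (show (0 : ℝ) < 1 / 2 by norm_num),
    (tendsto_rpow_atTop (show (0 : ℝ) < 1 / 500 by norm_num)).eventually_ge_atTop (2 * log 8)]
    with L h1 h2
  rw [← exp_log (show (0 : ℝ) < 8 by norm_num), ← exp_add]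
  exact exp_le_exp.2 (by linarith)

lemma upper_bound : ∃ U : ℝ, ∀ (L : ℝ) (Y : ℕ), U ≤ L → L ≤ LL Y → LL Y ≤ L + 1 →
    (Vn Y : ℝ) ≤ (∑ a ∈ Amain L, (Nat.primeCounting (Y / a + 1) : ℝ)) +
      Y / log Y * (exp (-L ^ (1 / 1000 : ℝ)) +
        64 * ((Kb L : ℝ) + 3) * ∑ a ∈ Awin L Y, (1 : ℝ) / a) := by
  obtain ⟨U1, hsmall⟩ := small_classes
  obtain ⟨U2, hover⟩ := over_class
  obtain ⟨U3, habn⟩ := abn_class
  obtain ⟨U4, hbad⟩ := bad_class
  obtain ⟨U5, htail⟩ := tail_class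
  obtain ⟨U6, hwin⟩ := win_class
  obtain ⟨U7, hcov⟩ := cover
  obtain ⟨U8, herr⟩ := eventually_atTop.1 (total_error.and
    (eventually_ge_atTop (max (max (max U1 U2) (max U3 U4)) (max (max U5 U6) U7))))
  refine ⟨U8, fun L Y hL hLY hYL => ?_⟩
  obtain ⟨h8, hmax⟩ := herr L hL
  simp only [max_le_iff] at hmax
  obtain ⟨⟨⟨l1, l2⟩, l3, l4⟩, ⟨l5, l6⟩, l7⟩ := hmax
  obtain ⟨hone, hDe, csq⟩ := hsmall L Y l1 hLY hYL
  obtain ⟨cov, csm⟩ := hover L Y l2 hLY hYL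
  have cabn := habn L Y l3 hLY hYL
  have cbad := hbad L Y l4 hLY hYL
  have ctail := htail L Y l5 hLY hYL
  have cwin := hwin L Y l6 hLY hYL
  have cmain := main_class L Y
  have c0 : ((Finset.Icc 1 ⌊(Y : ℝ) / log (Y : ℝ) ^ 2⌋₊).card : ℝ) ≤
      (Y : ℝ) / log (Y : ℝ) ^ 2 := by
    rw [Nat.card_Icc, Nat.add_sub_cancel]
    exact Nat.floor_le (le_trans zero_le_one hone)
  have hY1 : ((({Y} : Finset ℕ)).card : ℝ) ≤ (Y : ℝ) / log (Y : ℝ) ^ 2 := by
    rw [Finset.card_singleton, Nat.cast_one]; exact hone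
  have hD0 : (0 : ℝ) ≤ (Y : ℝ) / log (Y : ℝ) := by positivity
  have h8' := mul_le_mul_of_nonneg_left h8 hD0
  have hVn : (Vn Y : ℝ) = ((values Y).card : ℝ) := rfl
  have hun : ∀ (s t : Finset ℕ) (a b : ℝ), (s.card : ℝ) ≤ a → (t.card : ℝ) ≤ b →
      ((s ∪ t).card : ℝ) ≤ a + b := fun s t a b hs ht => by
    have h : ((s ∪ t).card : ℝ) ≤ (s.card : ℝ) + t.card := by
      exact_mod_cast Finset.card_union_le s t
    linarith
  rw [hVn]
  refine le_trans (le_trans (Nat.cast_le.2 (Finset.card_le_card (hcov L Y l7 hLY hYL)))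
    (hun _ _ _ _ (hun _ _ _ _ (hun _ _ _ _ (hun _ _ _ _ (hun _ _ _ _ (hun _ _ _ _ (hun _ _ _ _
      (hun _ _ _ _ (hun _ _ _ _ hY1 c0) csm) csq) cov) cabn) cbad) ctail) cmain) cwin)) ?_
  rw [mul_add]
  linarith

end Upper

open Upper in
theorem upper_count : ∃ C U : ℝ, ∀ X : ℕ, U ≤ LL X → ∀ Y : ℕ, X ≤ Y → Y ≤ X ^ 2 →
    (Vn Y : ℝ) ≤ (∑ a ∈ Amain (LL X), (Nat.primeCounting (Y / a + 1) : ℝ)) +
      Y / log Y * (exp (-LL X ^ (1 / 1000 : ℝ)) +
        C * ((Kb (LL X) : ℝ) + 3) * ∑ a ∈ Awin (LL X) Y, (1 : ℝ) / a) := by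
  obtain ⟨U, hU⟩ := upper_bound
  refine ⟨64, max U 1, fun X hX Y hXY hYX => ?_⟩
  obtain ⟨hXU, hX1⟩ := max_le_iff.1 hX
  have hX2 : 2 ≤ X := by
    by_contra hc
    have h0 : log (X : ℝ) = 0 := by interval_cases X <;> simp
    rw [LL, h0, log_zero] at hX1
    linarith
  have hX2' : (2 : ℝ) ≤ X := by exact_mod_cast hX2
  have hlX : 0 < log (X : ℝ) := log_pos (by linarith)
  have hlY : log (X : ℝ) ≤ log (Y : ℝ) := log_le_log (by linarith) (Nat.cast_le.2 hXY)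
  have hlY2 : log (Y : ℝ) ≤ 2 * log (X : ℝ) := by
    rw [show (2 : ℝ) * log (X : ℝ) = log ((X : ℝ) ^ 2) by rw [log_pow]; norm_num]
    exact log_le_log (by linarith [show (X : ℝ) ≤ Y from Nat.cast_le.2 hXY]) (by exact_mod_cast hYX)
  refine hU (LL X) Y hXU (log_le_log hlX hlY) ?_
  have h := log_le_log (hlX.trans_le hlY) hlY2
  rw [log_mul (by norm_num) hlX.ne'] at h
  have := log_le_sub_one_of_pos (show (0 : ℝ) < 2 by norm_num)
  simp only [LL]
  linarith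

end Vale.Agent.P031
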