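import Mathlib

/-!
# Totient values: shared definitions for the theorem `V (c x) / V x → c`

Scales are double logarithms: a prime `p` has scale `sc p = log (log p)`.
-/

open Finset Real
open scoped Classical

noncomputable section

namespace Vale.Agent.P031

/-- Number of distinct totient values in `[1, x]`. -/
def V (x : ℝ) : ℕ :=
  Set.ncard {v : ℕ | (∃ n : ℕ, 0 < n ∧ Nat.totient n = v) ∧ (v : ℝ) ≤ x}

/-- The scale `log log p` of a prime `p`. -/
def sc (p : ℕ) : ℝ := log (log (p : ℝ))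

/-- `log log x` for a natural number `x`. -/
def LL (x : ℕ) : ℝ := log (log (x : ℝ))

/-- Number of prime factors of `m`, with multiplicity, of scale at most `v`. -/
def Nle (m : ℕ) (v : ℝ) : ℕ := (m.primeFactorsList.filter fun q => decide (sc q ≤ v)).length

/-- Number of prime factors of `m`, with multiplicity, of scale in `(a, v]`. -/
def Nbt (m : ℕ) (a v : ℝ) : ℕ :=
  (m.primeFactorsList.filter fun q => decide (a < sc q ∧ sc q ≤ v)).length

/-- Completely multiplicative weight with value `g q` at the prime `q`. -/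
def wt (g : ℕ → ℝ) (m : ℕ) : ℝ := (m.primeFactorsList.map g).prod

/-- `a` is nonzero and all its primes have scale at most `u`. -/
def Smooth (u : ℝ) (a : ℕ) : Prop := a ≠ 0 ∧ ∀ q : ℕ, q.Prime → q ∣ a → sc q ≤ u

/-- Primes of scale in `(a, b]`. -/
def primesIn (a b : ℝ) : Finset ℕ :=
  (Finset.range (⌊exp (exp b)⌋₊ + 1)).filter fun p => p.Prime ∧ a < sc p ∧ sc p ≤ b

/-- Primes of scale at most `u`. -/
def primesTo (u : ℝ) : Finset ℕ :=
  (Finset.range (⌊exp (exp u)⌋₊ + 1)).filter fun p => p.Prime ∧ sc p ≤ u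

/-- Allowed deviation of `Ω(p - 1; ≤ v)` from `v`. -/
def Dv (u : ℝ) : ℝ := u ^ (2 / 3 : ℝ)

/-- Entropy slack at scale `u`. -/
def Del (u : ℝ) : ℝ := u ^ (3 / 4 : ℝ)

/-- Truncation scale below `u`. -/
def Y0 (u : ℝ) : ℝ := u ^ (3 / 16 : ℝ)

/-- Bound on the number of levels below scale `u`. -/
def Kb (u : ℝ) : ℕ := ⌈20 * log (u + 2)⌉₊ + 20

/-- A prime is normal if the prime factors of `p - 1` are regularly spread and one is large. -/
def Normal (p : ℕ) : Prop :=
  (∀ v : ℝ, 0 ≤ v → v ≤ sc p → |(Nle (p - 1) v : ℝ) - v| ≤ Dv (sc p)) ∧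
    ∃ q : ℕ, q.Prime ∧ q ∣ p - 1 ∧ sc p - 3 * log (sc p + 2) ≤ sc q

/-- The coefficients of Ford's linear forms. -/
def alpha (l : ℕ) : ℝ := ((l : ℝ) + 1) * log ((l : ℝ) + 1) - (l : ℝ) * log (l : ℝ) - 1

/-- Entropy of a vector of levels. -/
def EntF {k : ℕ} (y : Fin k → ℝ) : ℝ := ∑ l : Fin k, alpha ((l : ℕ) + 1) * y l

/-- Entropy of the levels of a list of primes. -/
def EntS (ps : List ℕ) : ℝ := EntF fun l : Fin ps.length => sc (ps.get l)

/-- Totient values up to `N` of integers all whose primes have scale at most `u`. -/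
def Gset (u : ℝ) (N : ℕ) : Finset ℕ :=
  (Finset.Icc 1 N).filter fun a => ∃ n : ℕ, Smooth u n ∧ Nat.totient n = a

/-- Reciprocal sum over `Gset`. -/
def Gsum (u : ℝ) (N : ℕ) : ℝ := ∑ a ∈ Gset u N, (1 : ℝ) / a

/-- `b` carries an overfull level profile at scale `u`. -/
def HasOver (u : ℝ) (b : ℕ) : Prop :=
  Smooth u b ∧ ∃ k : ℕ, k ≤ Kb u ∧ ∃ y : Fin k → ℝ, Antitone y ∧ (∀ l, 0 ≤ y l ∧ y l ≤ u) ∧
    u + Del u / 4 ≤ EntF y ∧
    ∀ v : ℝ, 0 ≤ v → v ≤ u →
      v + (∑ l : Fin k, min v (y l)) - 3 * ((Kb u : ℝ) + 3) * Dv u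
        ≤ (Nbt b (log (u + 3)) v : ℝ)

/-- A representation: decreasing large primes and a smooth cofactor. -/
structure Rep where
  ps : List ℕ
  tl : ℕ
deriving DecidableEq

/-- The value represented. -/
def Rep.val (r : Rep) : ℕ := (r.ps.map fun p => p - 1).prod * r.tl

/-- Well-formed representation at scale `u`, cut at `Y`. -/
def RepOK (u Y : ℝ) (r : Rep) : Prop :=
  r.ps ≠ [] ∧ r.ps.Pairwise (fun p q => q < p) ∧ r.ps.length ≤ Kb u + 1 ∧
    (∀ p ∈ r.ps, p.Prime ∧ Normal p ∧ Y < sc p ∧ sc p ≤ u + 1) ∧ Smooth Y r.tl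

/-- Two representations of one value with different top primes and slack on the larger side. -/
def CollPair (u Y : ℝ) (x : Rep × Rep) : Prop :=
  RepOK u Y x.1 ∧ RepOK u Y x.2 ∧ x.1.val = x.2.val ∧ x.2.ps.headI < x.1.ps.headI ∧
    u - 4 * log (u + 2) - 4 ≤ sc x.1.ps.headI ∧ EntS x.1.ps.tail ≤ u - Del u / 4

/-- The level above index `i`. -/
def par (L : ℝ) {k : ℕ} (y : Fin k → ℝ) (i : Fin k) : ℝ :=
  if (i : ℕ) = 0 then L else y ⟨(i : ℕ) - 1, Nat.lt_of_le_of_lt (Nat.sub_le _ _) i.isLt⟩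

/-- Entropy of the levels from index `i` on, seen from the level above `i`. -/
def sufE {k : ℕ} (y : Fin k → ℝ) (i : Fin k) : ℝ :=
  ∑ l : Fin k, if i ≤ l then alpha ((l : ℕ) - (i : ℕ) + 1) * y l else 0

/-- Admissible level vectors below `L`, above `T`, with slack `σ`. -/
def Reg (L T σ : ℝ) (k : ℕ) : Set (Fin k → ℝ) :=
  {y | (∀ l, T ≤ y l) ∧ ∀ i : Fin k,
    y i ≤ par L y i + σ * Del (par L y i) ∧ sufE y i ≤ par L y i + σ * Del (par L y i)}

/-- Integer points of `Reg`. -/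
def Lat (L T σ : ℝ) (k : ℕ) : Finset (Fin k → ℕ) :=
  (Fintype.piFinset fun _ : Fin k => Finset.range (⌈3 * L⌉₊ + 1)).filter
    fun n => (fun l => (n l : ℝ)) ∈ Reg L T σ k

/-- Total number of integer points of all `Reg L T σ k`. -/
def latSum (L T σ : ℝ) : ℕ := ∑ k ∈ Finset.range (Kb L + 1), (Lat L T σ k).card

end Vale.Agent.P031
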