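import Vale.Agent.P031.Asymp

/-!
# Totient values: levels of an integer, bad nodes, geometric decay
-/

open Finset Real Filter
open scoped Classical

noncomputable section

namespace Vale.Agent.P031

/-- Primes of `n` of scale above `Y`, in decreasing order. -/
def bigs (Y : ℝ) (n : ℕ) : List ℕ := (n.primeFactors.filter fun q => Y < sc q).sort (· ≥ ·)

/-- A prime of `n` that is repeated or abnormal. -/
def Bad1 (n p : ℕ) : Prop := p ^ 2 ∣ n ∨ ¬ Normal p

/-- The first levels of `n` strictly below `p`. -/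
def below (n p : ℕ) : List ℕ :=
  ((bigs (Y0 (sc p)) n).filter fun q => decide (q < p)).take (Kb (sc p))

/-- A node that is repeated, abnormal, or overfull. -/
def BadNode (n p : ℕ) : Prop := Bad1 n p ∨ sc p + Del (sc p) < EntS (below n p)

/-- The scale sequence of a list, extended by zero. -/
def lv (l : List ℕ) (i : ℕ) : ℝ := if i < l.length then sc (l.getD i 0) else 0

/-- All nodes of the list except possibly the last are good. -/
def GoodInit (n : ℕ) (l : List ℕ) : Prop :=
  ∀ i : ℕ, i + 1 < l.length → ¬ BadNode n (l.getD i 0)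

lemma mem_bigs {Y : ℝ} {n q : ℕ} :
    q ∈ bigs Y n ↔ q.Prime ∧ q ∣ n ∧ n ≠ 0 ∧ Y < sc q := by
  simp [bigs, Nat.mem_primeFactors, and_assoc]

lemma bigs_pairwise (Y : ℝ) (n : ℕ) : (bigs Y n).Pairwise (fun p q => q < p) :=
  (Finset.sortedGT_sort _).pairwise

lemma desc_ext {l₁ l₂ : List ℕ} (h₁ : l₁.Pairwise fun p q => q < p)
    (h₂ : l₂.Pairwise fun p q => q < p) (h : ∀ q, q ∈ l₁ ↔ q ∈ l₂) : l₁ = l₂ := by
  have n₁ : l₁.Nodup := h₁.imp (fun hab => (ne_of_lt hab).symm)
  have n₂ : l₂.Nodup := h₂.imp (fun hab => (ne_of_lt hab).symm)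
  exact List.Perm.eq_of_pairwise (fun a b _ _ hab hba => absurd hab (not_lt.2 hba.le)) h₁ h₂
    ((List.perm_ext_iff_of_nodup n₁ n₂).2 h)

lemma desc_filter_up {l : List ℕ} (h : l.Pairwise fun p q => q < p) (P : ℕ → Bool)
    (hP : ∀ a b, b < a → P b = true → P a = true) : l.filter P = l.take (l.countP P) := by
  induction l with
  | nil => simp
  | cons a t ih =>
    rw [List.pairwise_cons] at h
    by_cases ha : P a = true
    · rw [List.filter_cons_of_pos ha, List.countP_cons_of_pos ha, List.take_succ_cons, ih h.2]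
    · have ht : ∀ b ∈ t, ¬ P b = true := fun b hb hPb => ha (hP a b (h.1 b hb) hPb)
      rw [List.filter_cons_of_neg ha, List.countP_cons_of_neg ha,
        List.countP_eq_zero.2 ht, List.filter_eq_nil_iff.2 ht]
      rfl

lemma desc_filter_lt {l : List ℕ} (h : l.Pairwise fun p q => q < p) {i : ℕ} (hi : i < l.length) :
    l.filter (fun q => decide (q < l.getD i 0)) = l.drop (i + 1) := by
  induction l generalizing i with
  | nil => simp at hi
  | cons a t ih =>
    rw [List.pairwise_cons] at h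
    cases i with
    | zero =>
      rw [List.getD_cons_zero, List.filter_cons_of_neg (by simp),
        List.filter_eq_self.2 (fun b hb => by simpa using h.1 b hb)]
      rfl
    | succ j =>
      have hj : j < t.length := by simpa using hi
      have hmem : t.getD j 0 ∈ t := by
        rw [List.getD_eq_getElem _ _ hj]; exact List.getElem_mem hj
      rw [List.getD_cons_succ, List.filter_cons_of_neg (by simpa using (h.1 _ hmem).le),
        ih h.2 hj]
      rfl

lemma bigs_filter {Y Y' : ℝ} (hY : Y ≤ Y') (n : ℕ) :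
    bigs Y' n = (bigs Y n).filter fun q => decide (Y' < sc q) := by
  refine desc_ext (bigs_pairwise _ _) ((bigs_pairwise Y n).filter _) fun q => ?_
  simp only [List.mem_filter, mem_bigs, decide_eq_true_eq]
  constructor
  · exact fun h => ⟨⟨h.1, h.2.1, h.2.2.1, lt_of_le_of_lt hY h.2.2.2⟩, h.2.2.2⟩
  · exact fun h => ⟨h.1.1, h.1.2.1, h.1.2.2.1, h.2⟩

lemma bigs_eq_take {Y Y' : ℝ} (hY : Y ≤ Y') (n : ℕ) :
    ∃ m, bigs Y' n = (bigs Y n).take m := by
  refine ⟨(bigs Y n).countP fun q => decide (Y' < sc q), ?_⟩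
  have hl : (bigs Y n).filter (fun q => decide (2 ≤ q ∧ Y' < sc q))
      = (bigs Y n).filter fun q => decide (Y' < sc q) := by
    refine List.filter_congr fun q hq => ?_
    simp [(mem_bigs.1 hq).1.two_le]
  have hc : (bigs Y n).countP (fun q => decide (2 ≤ q ∧ Y' < sc q))
      = (bigs Y n).countP fun q => decide (Y' < sc q) := by
    rw [List.countP_eq_length_filter, List.countP_eq_length_filter, hl]
  rw [bigs_filter hY, ← hl, ← hc]
  refine desc_filter_up (bigs_pairwise _ _) _ fun a b hab hb => ?_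
  simp only [decide_eq_true_eq] at hb ⊢
  exact ⟨by omega, lt_of_lt_of_le hb.2 (sc_mono hb.1 hab.le)⟩

/-! ### the scale sequence -/

lemma lv_of_lt {l : List ℕ} {i : ℕ} (h : i < l.length) : lv l i = sc (l.getD i 0) := if_pos h

lemma lv_of_ge {l : List ℕ} {i : ℕ} (h : l.length ≤ i) : lv l i = 0 := if_neg (by omega)

lemma lv_take (l : List ℕ) (m i : ℕ) : lv (l.take m) i = if i < m then lv l i else 0 := by
  by_cases hm : i < m
  · rw [if_pos hm]
    by_cases hl : i < l.length
    · have h1 : i < (l.take m).length := by simp [hm, hl]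
      rw [lv_of_lt hl, lv_of_lt h1, List.getD_eq_getElem _ _ h1, List.getD_eq_getElem _ _ hl,
        List.getElem_take]
    · rw [lv_of_ge (not_lt.1 hl), lv_of_ge]
      simp; omega
  · rw [if_neg hm, lv_of_ge]
    simp; omega

lemma lv_drop (l : List ℕ) (m i : ℕ) : lv (l.drop m) i = lv l (m + i) := by
  by_cases hl : m + i < l.length
  · have h1 : i < (l.drop m).length := by simp; omega
    rw [lv_of_lt hl, lv_of_lt h1, List.getD_eq_getElem _ _ h1, List.getD_eq_getElem _ _ hl,
      List.getElem_drop]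
  · rw [lv_of_ge (not_lt.1 hl), lv_of_ge]
    simp; omega

lemma getD_take {l : List ℕ} {m i : ℕ} (h : i < (l.take m).length) :
    (l.take m).getD i 0 = l.getD i 0 := by
  have h' : i < l.length := by simp at h; omega
  rw [List.getD_eq_getElem _ _ h, List.getD_eq_getElem _ _ h', List.getElem_take]

lemma EntS_eq {l : List ℕ} {N : ℕ} (hN : l.length ≤ N) :
    EntS l = ∑ i ∈ Finset.range N, alpha (i + 1) * lv l i := by
  have h : ∀ i ∈ Finset.range N, i ∉ Finset.range l.length → alpha (i + 1) * lv l i = 0 := by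
    intro i _ hi
    rw [lv_of_ge (by simpa using hi), mul_zero]
  rw [← Finset.sum_subset (Finset.range_subset_range.2 hN) h, Finset.sum_range, EntS, EntF]
  refine Finset.sum_congr rfl fun i _ => ?_
  rw [lv_of_lt i.isLt, List.getD_eq_getElem _ _ i.isLt]
  simp [List.get_eq_getElem]

lemma lv_nonneg {l : List ℕ} (h : ∀ q ∈ l, 0 ≤ sc q) (i : ℕ) : 0 ≤ lv l i := by
  by_cases hi : i < l.length
  · rw [lv_of_lt hi]
    exact h _ (by rw [List.getD_eq_getElem _ _ hi]; exact List.getElem_mem hi)
  · rw [lv_of_ge (not_lt.1 hi)]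

lemma EntS_nonneg {l : List ℕ} (h : ∀ q ∈ l, 0 ≤ sc q) : 0 ≤ EntS l := by
  rw [EntS_eq le_rfl]
  exact Finset.sum_nonneg fun i _ => mul_nonneg (alpha_nonneg' i) (lv_nonneg h i)

lemma EntS_take_le {l : List ℕ} (h : ∀ q ∈ l, 0 ≤ sc q) (m : ℕ) : EntS (l.take m) ≤ EntS l := by
  rw [EntS_eq (List.length_take_le' m l), EntS_eq le_rfl]
  refine Finset.sum_le_sum fun i _ => mul_le_mul_of_nonneg_left ?_ (alpha_nonneg' i)
  rw [lv_take]
  split
  · exact le_rfl
  · exact lv_nonneg h i

lemma bigs_getD {Y : ℝ} {n i : ℕ} (hi : i < (bigs Y n).length) :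
    (bigs Y n).getD i 0 ∈ bigs Y n := by
  rw [List.getD_eq_getElem _ _ hi]; exact List.getElem_mem hi

lemma lv_bigs_gt {Y : ℝ} {n i : ℕ} (hi : i < (bigs Y n).length) : Y < lv (bigs Y n) i := by
  rw [lv_of_lt hi]; exact (mem_bigs.1 (bigs_getD hi)).2.2.2

lemma lv_bigs_strict {Y : ℝ} {n i j : ℕ} (hij : i < j) (hj : j < (bigs Y n).length) :
    lv (bigs Y n) j < lv (bigs Y n) i := by
  have hi : i < (bigs Y n).length := hij.trans hj
  rw [lv_of_lt hj, lv_of_lt hi]
  refine sc_lt_sc (mem_bigs.1 (bigs_getD hj)).1.two_le ?_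
  rw [List.getD_eq_getElem _ _ hi, List.getD_eq_getElem _ _ hj]
  exact List.pairwise_iff_getElem.1 (bigs_pairwise Y n) i j hi hj hij

lemma lv_bigs_anti {Y : ℝ} {n i j : ℕ} (hY : 0 ≤ Y) (hij : i ≤ j) :
    lv (bigs Y n) j ≤ lv (bigs Y n) i := by
  rcases hij.eq_or_lt with rfl | h
  · exact le_rfl
  · by_cases hj : j < (bigs Y n).length
    · exact (lv_bigs_strict h hj).le
    · rw [lv_of_ge (not_lt.1 hj)]
      exact lv_nonneg (fun q hq => hY.trans (mem_bigs.1 hq).2.2.2.le) i

lemma below_nonneg {n p : ℕ} (hp : 0 ≤ sc p) : ∀ q ∈ below n p, 0 ≤ sc q := by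
  intro q hq
  have h := List.mem_of_mem_filter (List.mem_of_mem_take hq)
  exact (Y0_nonneg hp).trans (mem_bigs.1 h).2.2.2.le

/-- The levels under a node contribute to its entropy. -/
lemma node_ineq {Y : ℝ} {n : ℕ} (hY : 0 ≤ Y) {i m : ℕ} (hm : i + 1 + m ≤ (bigs Y n).length)
    (hmK : m ≤ Kb (lv (bigs Y n) i))
    (hbig : 0 < m → Y0 (lv (bigs Y n) i) < lv (bigs Y n) (i + m)) :
    ∑ j ∈ Finset.range m, alpha (j + 1) * lv (bigs Y n) (i + 1 + j)
      ≤ EntS (below n ((bigs Y n).getD i 0)) := by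
  have hil : i < (bigs Y n).length := by omega
  have hp := mem_bigs.1 (bigs_getD hil)
  have hu : lv (bigs Y n) i = sc ((bigs Y n).getD i 0) := lv_of_lt hil
  have hp0 : 0 ≤ sc ((bigs Y n).getD i 0) := hY.trans hp.2.2.2.le
  rw [hu] at hmK hbig
  rcases Nat.eq_zero_or_pos m with rfl | hm0
  · simpa using EntS_nonneg (below_nonneg hp0)
  have hbig' := hbig hm0
  set p := (bigs Y n).getD i 0 with hpdef
  obtain ⟨M, hM⟩ := bigs_eq_take (le_max_left Y (Y0 (sc p))) n
  obtain ⟨M', hM'⟩ := bigs_eq_take (min_le_right Y (Y0 (sc p))) n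
  obtain ⟨M'', hM''⟩ := bigs_eq_take (min_le_left Y (Y0 (sc p))) n
  set l := bigs (min Y (Y0 (sc p))) n with hl
  -- both `bigs Y` and `bigs Y0` are initial segments of `l`
  have hlen : ∀ j, j ≤ i + m → j < (bigs (Y0 (sc p)) n).length ∧ j < l.length ∧
      lv (bigs (Y0 (sc p)) n) j = lv (bigs Y n) j ∧ lv (bigs Y n) j = lv l j := by
    intro j hj
    have hjY : j < (bigs Y n).length := by omega
    have hjl : j < l.length := by
      have h := hjY; rw [hM''] at h; simp at h; omega
    have hjM : j < M'' := by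
      have h := hjY; rw [hM''] at h; simp at h; omega
    have e1 : lv (bigs Y n) j = lv l j := by rw [hM'', lv_take, if_pos hjM]
    have hbj : Y0 (sc p) < lv l j := by
      rw [← e1]; exact lt_of_lt_of_le hbig' (lv_bigs_anti hY hj)
    have hjM' : j < (bigs (Y0 (sc p)) n).length := by
      rw [bigs_filter (min_le_right Y (Y0 (sc p))) n]
      by_contra hcon
      have hin : l.getD j 0 ∈ l.filter fun q => decide (Y0 (sc p) < sc q) := by
        rw [List.mem_filter]
        exact ⟨bigs_getD hjl, by simpa [lv_of_lt hjl] using hbj⟩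
      rw [← bigs_filter (min_le_right Y (Y0 (sc p))) n, hM'] at hin
      rw [← bigs_filter (min_le_right Y (Y0 (sc p))) n, hM'] at hcon
      obtain ⟨t, ht, hte⟩ := List.getElem_of_mem hin
      rw [List.getElem_take, List.getD_eq_getElem _ _ hjl] at hte
      have hnd : l.Nodup := (bigs_pairwise _ n).imp fun hab => (ne_of_lt hab).symm
      have := hnd.getElem_inj_iff.1 hte
      omega
    refine ⟨hjM', hjl, ?_, e1⟩
    have hj2 : j < M' := by
      have h := hjM'; rw [hM'] at h; simp at h; omega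
    rw [e1, hM', lv_take, if_pos hj2]
  have hpi : (bigs (Y0 (sc p)) n).getD i 0 = p := by
    obtain ⟨h1, h2, -, -⟩ := hlen i (Nat.le_add_right i m)
    have e1 : (bigs Y n).getD i 0 = l.getD i 0 := by
      have h := hil
      rw [hM''] at h
      exact (congrArg (fun t => t.getD i 0) hM'').trans (getD_take h)
    have e2 : (bigs (Y0 (sc p)) n).getD i 0 = l.getD i 0 := by
      have h := h1
      rw [hM'] at h
      exact (congrArg (fun t => t.getD i 0) hM').trans (getD_take h)
    exact e2.trans e1.symm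
  have hb : below n p = ((bigs (Y0 (sc p)) n).drop (i + 1)).take (Kb (sc p)) := by
    have h := desc_filter_lt (bigs_pairwise (Y0 (sc p)) n) (hlen i (Nat.le_add_right i m)).1
    rw [hpi] at h
    rw [below, h]
  have hmlen : m ≤ (below n p).length := by
    obtain ⟨h1, -, -, -⟩ := hlen (i + m) le_rfl
    rw [hb]; simp; omega
  rw [EntS_eq le_rfl]
  calc ∑ j ∈ Finset.range m, alpha (j + 1) * lv (bigs Y n) (i + 1 + j)
      = ∑ j ∈ Finset.range m, alpha (j + 1) * lv (below n p) j := by
        refine Finset.sum_congr rfl fun j hj => ?_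
        have hjm := Finset.mem_range.1 hj
        rw [hb, lv_take, if_pos (by omega), lv_drop, (hlen (i + 1 + j) (by omega)).2.2.1]
    _ ≤ _ := Finset.sum_le_sum_of_subset_of_nonneg (Finset.range_subset_range.2 hmlen)
        fun j _ _ => mul_nonneg (alpha_nonneg' j) (lv_nonneg (below_nonneg hp0) j)

end Vale.Agent.P031
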