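import Vale.Agent.P031.RegionVolume

/-!
# The region of admissible level vectors: cascade and critical window
-/

open Finset Real MeasureTheory
open scoped Classical ENNReal Pointwise
noncomputable section
namespace Vale.Agent.P031

set_option linter.unusedSectionVars false

/-- Admissible vectors are short. -/
theorem reg_short : ∃ T0 : ℝ, ∀ T L : ℝ, T0 ≤ T → T ≤ L → ∀ k : ℕ, ∀ y : Fin k → ℝ,
    y ∈ Reg L T 16 k → k ≤ Kb L ∧ ∀ l, y l ≤ 3 * L :=
  ⟨Tbig, fun T L hT hTL k y hy =>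
    ⟨Reg_short hT hTL (by norm_num) hy, Reg_le_three hT hTL (by norm_num) hy⟩⟩

/-- Raising the cut costs a power of the new cut. -/
theorem latSum_trunc {L T T1 : ℝ} (hT1 : Tbig ≤ T1) (h12 : T1 ≤ T) (h21 : T ≤ 10 * T1)
    (hTL : T ≤ L) : latSum L T1 (-1) ≤ 61 * (⌊2 * T⌋₊ + 1) ^ 60 * latSum L T (-1) := by
  set B : ℕ := ⌊2 * T⌋₊ + 1 with hB
  have hT : Tbig ≤ T := hT1.trans h12
  have hTp : 0 < T := Tbig_pos.trans_le hT
  have key : ∀ k : ℕ, ∀ n ∈ Lat L T1 (-1) k, ∃ j : ℕ, ∃ hjk : j ≤ k, k ≤ j + 60 ∧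
      (fun l : Fin j => n ⟨l, l.isLt.trans_le hjk⟩) ∈ Lat L T (-1) j ∧
      ∀ l : Fin k, j ≤ (l : ℕ) → n l < B := by
    intro k n hn
    have hr := (mem_Lat.1 hn).2
    set z : Fin k → ℝ := fun l => (n l : ℝ) with hz
    have hex : ∃ j : ℕ, j = k ∨ ∃ h : j < k, z ⟨j, h⟩ < T := ⟨k, Or.inl rfl⟩
    set j := Nat.find hex with hj
    have hjk : j ≤ k := Nat.find_min' hex (Or.inl rfl)
    have hbelow : ∀ l : Fin k, (l : ℕ) < j → T ≤ z l := by
      intro l hl
      by_contra h
      exact Nat.find_min hex hl (Or.inr ⟨l.isLt, not_le.1 h⟩)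
    refine ⟨j, hjk, ?_, ?_, ?_⟩
    · by_contra hlt
      have h0 : j + 61 ≤ k := by omega
      have hjlt : z ⟨j, by omega⟩ < T := by
        rcases Nat.find_spec hex with h | ⟨h, h'⟩
        · exfalso; omega
        · exact h'
      have h1 := par_lower hT1 (h12.trans hTL) (by norm_num) hr (⟨j + 1, by omega⟩ : Fin k)
      rw [par_succ (i := j) (by omega : j + 1 < k)] at h1
      have h2 : (59 : ℕ) ≤ k - 1 - (j + 1) := by omega
      have h3 : T1 * (1.06 : ℝ) ^ (59 : ℕ) ≤ T1 * (1.06 : ℝ) ^ (k - 1 - (j + 1)) :=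
        mul_le_mul_of_nonneg_left (pow_le_pow_right₀ (by norm_num) h2) (Tbig_pos.le.trans hT1)
      have h4 : T1 * (25 : ℝ) ≤ T1 * (1.06 : ℝ) ^ (59 : ℕ) := by
        refine mul_le_mul_of_nonneg_left ?_ (Tbig_pos.le.trans hT1)
        norm_num
      simp only at h1
      linarith [Tbig_pos.trans_le hT1]
    · refine mem_Lat.2 ⟨fun l => (mem_Lat.1 hn).1 _, fun l => hbelow _ l.isLt, fun i => ?_⟩
      set i' : Fin k := ⟨i, i.isLt.trans_le hjk⟩
      have hpar : par L (fun l : Fin j => (n ⟨l, l.isLt.trans_le hjk⟩ : ℝ)) i = par L z i' := by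
        unfold par
        simp only [i', hz]
      rw [hpar]
      refine ⟨(hr.2 i').1, le_trans ?_ (hr.2 i').2⟩
      have hnn : ∀ l, 0 ≤ z l := fun l => Nat.cast_nonneg _
      unfold sufE
      have e : (Finset.univ.map (Fin.castLEEmb hjk) : Finset (Fin k)) ⊆ Finset.univ :=
        Finset.subset_univ _
      refine le_trans (le_of_eq ?_) (Finset.sum_le_sum_of_subset_of_nonneg e
        (fun l _ _ => sufE_term_nonneg hnn i' l))
      rw [Finset.sum_map]
      refine Finset.sum_congr rfl fun l _ => ?_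
      simp only [i', hz, Fin.le_def, Fin.coe_castLEEmb, Fin.val_castLE]
      rfl
    · intro l hl
      have hlT : z l ≤ 2 * T := by
        rcases eq_or_lt_of_le hl with h | h
        · rcases Nat.find_spec hex with h' | ⟨h', h''⟩
          · exfalso; have := l.isLt; omega
          · have e : (⟨j, h'⟩ : Fin k) = l := Fin.ext h
            have : z l < T := by rw [← e]; exact h''
            linarith
        · have hjk' : j < k := by have := l.isLt; omega
          have hjlt : z ⟨j, hjk'⟩ < T := by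
            rcases Nat.find_spec hex with h' | ⟨h', h''⟩
            · exfalso; omega
            · exact h''
          have hjd : (j + 1) + ((l : ℕ) - (j + 1)) < k := by have := l.isLt; omega
          have h1 := par_decay hT1 (h12.trans hTL) (by norm_num) hr ((l : ℕ) - (j + 1)) (j + 1) hjd
          rw [par_succ (i := j) (by omega : j + 1 < k)] at h1
          have e : (⟨(j + 1) + ((l : ℕ) - (j + 1)), hjd⟩ : Fin k) = l := by ext; simp; omega
          rw [e] at h1
          have h2 := (Reg_le_par hT1 (h12.trans hTL) (by norm_num) hr l).1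
          have h3 : par L z l ≤ par L z l * 1.06 ^ ((l : ℕ) - (j + 1)) :=
            le_mul_of_one_le_right
              ((Tbig_pos.le.trans hT1).trans (le_par (h12.trans hTL) hr.1 l))
              (one_le_pow₀ (by norm_num))
          linarith
      have : n l ≤ ⌊2 * T⌋₊ := Nat.le_floor hlT
      omega
  choose jf hjle hlen hpre hsuf using key
  set K := Kb L
  set enc : (Σ k : ℕ, Fin k → ℕ) → (Σ j : ℕ, Fin j → ℕ) × Fin 61 × (Fin 60 → Fin B) := fun x =>
    if h : x.2 ∈ Lat L T1 (-1) x.1 then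
      (⟨jf x.1 x.2 h, fun l => x.2 ⟨l, l.isLt.trans_le (hjle x.1 x.2 h)⟩⟩,
        ⟨x.1 - jf x.1 x.2 h, by have := hlen x.1 x.2 h; omega⟩,
        fun d => if hd : jf x.1 x.2 h + (d : ℕ) < x.1 then
          ⟨x.2 ⟨_, hd⟩, hsuf x.1 x.2 h ⟨_, hd⟩ (Nat.le_add_right _ _)⟩ else ⟨0, Nat.succ_pos _⟩)
    else (⟨0, Fin.elim0⟩, 0, fun _ => ⟨0, Nat.succ_pos _⟩) with henc
  set S := (Finset.range (K + 1)).sigma fun k => Lat L T1 (-1) k
  set P := (Finset.range (K + 1)).sigma fun k => Lat L T (-1) k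
  have hmaps : ∀ x ∈ S, enc x ∈ P ×ˢ (Finset.univ : Finset (Fin 61 × (Fin 60 → Fin B))) := by
    intro x hx
    obtain ⟨hx1, hx2⟩ := Finset.mem_sigma.1 hx
    simp only [henc, dif_pos hx2, Finset.mem_product, Finset.mem_univ, and_true]
    refine Finset.mem_sigma.2 ⟨?_, hpre x.1 x.2 hx2⟩
    have h1 := hjle x.1 x.2 hx2
    have h2 := Finset.mem_range.1 hx1
    exact Finset.mem_range.2 (show jf x.1 x.2 hx2 < K + 1 by omega)
  have hinj : Set.InjOn enc S := by
    rintro ⟨k, n⟩ hx ⟨k', n'⟩ hx' he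
    have h := (Finset.mem_sigma.1 hx).2
    have h' := (Finset.mem_sigma.1 hx').2
    simp only [henc, dif_pos h, dif_pos h', Prod.mk.injEq, Fin.mk.injEq] at he
    obtain ⟨he1, he2, he3⟩ := he
    have hj : jf k n h = jf k' n' h' := congrArg Sigma.fst he1
    have hk : k = k' := by
      have := hjle k n h
      have := hjle k' n' h'
      omega
    subst hk
    have hfun : n = n' := by
      funext l
      by_cases hl : (l : ℕ) < jf k n h
      · have key : ∀ (s t : Σ j : ℕ, Fin j → ℕ), s = t → ∀ (a : Fin s.1) (b : Fin t.1),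
            (a : ℕ) = b → s.2 a = t.2 b := by
          rintro s t rfl a b hab
          rw [Fin.ext hab]
        exact key _ _ he1 ⟨l, hl⟩ ⟨l, show (l : ℕ) < jf k n' h' by omega⟩ rfl
      · have hd : (l : ℕ) - jf k n h < 60 := by have := hlen k n h; have := l.isLt; omega
        have h1 := congrFun he3 ⟨(l : ℕ) - jf k n h, hd⟩
        have hl' := l.isLt
        rw [dif_pos (show jf k n h + ((l : ℕ) - jf k n h) < k by omega),
          dif_pos (show jf k n' h' + ((l : ℕ) - jf k n h) < k by omega)] at h1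
        have h2 := congrArg Fin.val h1
        simp only at h2
        have e1 : (⟨jf k n h + ((l : ℕ) - jf k n h), by omega⟩ : Fin k) = l := by ext; simp; omega
        have e2 : (⟨jf k n' h' + ((l : ℕ) - jf k n h), by omega⟩ : Fin k) = l := by
          ext; simp; omega
        rw [e1, e2] at h2
        exact h2
    subst hfun
    rfl
  have hc := Finset.card_le_card_of_injOn enc hmaps hinj
  rw [Finset.card_product, Finset.card_univ, Fintype.card_prod, Fintype.card_fun,
    Fintype.card_fin, Fintype.card_fin, Fintype.card_fin, Finset.card_sigma,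
    Finset.card_sigma] at hc
  unfold latSum
  linarith

theorem trunc_const {T : ℝ} (hT : Tbig ≤ T) :
    2 * (61 * (((⌊2 * T⌋₊ + 1) ^ 60 : ℕ) : ℝ)) ≤ T ^ 63 := by
  have hT4 : (123 : ℝ) ≤ T := le_trans (by unfold Tbig; norm_num) hT
  have h1 : ((⌊2 * T⌋₊ : ℕ) : ℝ) + 1 ≤ 3 * T := by
    have := Nat.floor_le (show 0 ≤ 2 * T by linarith)
    linarith
  have h2 : ((⌊2 * T⌋₊ : ℕ) + 1 : ℝ) ^ 60 ≤ (3 * T) ^ 60 :=
    pow_le_pow_left₀ (by positivity) h1 _
  have h3 : (122 : ℝ) * 3 ^ 60 ≤ T ^ 3 := by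
    refine le_trans ?_ (pow_le_pow_left₀ Tbig_pos.le hT 3)
    unfold Tbig
    norm_num
  push_cast
  calc 2 * (61 * (((⌊2 * T⌋₊ : ℕ) : ℝ) + 1) ^ 60) ≤ 2 * (61 * (3 * T) ^ 60) := by gcongr
    _ = (122 * 3 ^ 60) * T ^ 60 := by ring
    _ ≤ T ^ 3 * T ^ 60 := mul_le_mul_of_nonneg_right h3 (by positivity)
    _ = T ^ 63 := by ring

/-- The total volume of looser regions is controlled by `latSum` at the cut `T`. -/
theorem volSum_le {L T T' σ : ℝ} (hT : 10 * Tbig ≤ T) (h1 : T / 4 ≤ T') (h2 : T' ≤ T) (hTL : T ≤ L)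
    (hσ : σ ≤ 40) :
    (∑ k ∈ Finset.range (Kb L + 1), volume (Reg L T' σ k))
      ≤ (((2 * (61 * (⌊2 * T⌋₊ + 1) ^ 60 * latSum L T (-1))) : ℕ) : ℝ≥0∞) := by
  have hT0 := Tbig_pos
  have hT1 : Tbig ≤ T' := by linarith
  have hone := one_le_Tbig
  set T1 : ℝ := T' / 2 - 1 with hT1d
  have hbig : (10 : ℝ) ^ 3 ≤ Tbig := by unfold Tbig; exact pow_le_pow_right₀ (by norm_num) (by norm_num)
  have hT1b : Tbig ≤ T1 := by linarith
  have hstep : ∀ k, volume (Reg L T' σ k) ≤ 2 * ((Lat L T1 (-1) k).card : ℝ≥0∞) := by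
    intro k
    refine (volume_slack hT1 (by linarith) hσ).trans ?_
    gcongr
    have e : T' / 2 = T1 + 1 := by rw [hT1d]; ring
    rw [e]
    refine (measure_mono (Reg_mono (show (-3 : ℝ) ≤ -2 by norm_num) le_rfl (by linarith)
      (by linarith))).trans ?_
    refine (volume_le_card hT1b (by linarith) (by norm_num)).trans ?_
    norm_num
  have htr : latSum L T1 (-1) ≤ 61 * (⌊2 * T⌋₊ + 1) ^ 60 * latSum L T (-1) :=
    latSum_trunc hT1b (by linarith) (by linarith) hTL
  calc (∑ k ∈ Finset.range (Kb L + 1), volume (Reg L T' σ k))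
      ≤ ∑ k ∈ Finset.range (Kb L + 1), 2 * ((Lat L T1 (-1) k).card : ℝ≥0∞) :=
        Finset.sum_le_sum fun k _ => hstep k
    _ = ((2 * latSum L T1 (-1) : ℕ) : ℝ≥0∞) := by
        rw [← Finset.mul_sum]; simp [latSum]
    _ ≤ _ := by exact_mod_cast Nat.mul_le_mul_left 2 htr

/-- Loosening the slack and lowering the cut costs only a power of the cut. -/
theorem lat_cascade : ∃ C : ℕ, ∃ T0 : ℝ, ∀ T L : ℝ, T0 ≤ T → 2 * T ≤ L →
    (latSum L (T / 2) 16 : ℝ) ≤ T ^ C * latSum L T (-1) := by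
  refine ⟨63, 20 * Tbig, fun T L hT hTL => ?_⟩
  have hT0 := Tbig_pos
  have h1 : ((latSum L (T / 2) 16 : ℕ) : ℝ≥0∞)
      ≤ ∑ k ∈ Finset.range (Kb L + 1), volume (Reg L (T / 2) 17 k) := by
    unfold latSum
    push_cast
    refine Finset.sum_le_sum fun k _ => card_le_volume fun n hn => ?_
    have := cube_subset (σ := 16) (by linarith) (by linarith) (by norm_num) (by norm_num) hn
    norm_num at this
    exact this
  have h2 := h1.trans (volSum_le (σ := 17) (L := L) (T := T) (T' := T / 2) (by linarith) (by linarith) (by linarith)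
    (by linarith) (by norm_num))
  have h3 : latSum L (T / 2) 16 ≤ 2 * (61 * (⌊2 * T⌋₊ + 1) ^ 60 * latSum L T (-1)) := by
    exact_mod_cast h2
  have h4 : ((latSum L (T / 2) 16 : ℕ) : ℝ) ≤
      2 * (61 * (((⌊2 * T⌋₊ + 1) ^ 60 : ℕ) : ℝ)) * (latSum L T (-1) : ℝ) := by
    have h5 : ((latSum L (T / 2) 16 : ℕ) : ℝ) ≤
        ((2 * (61 * (⌊2 * T⌋₊ + 1) ^ 60 * latSum L T (-1)) : ℕ) : ℝ) := by exact_mod_cast h3
    push_cast at h5 ⊢
    linarith
  exact h4.trans (mul_le_mul_of_nonneg_right (trunc_const (by linarith)) (Nat.cast_nonneg _))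

theorem sufE_smul {k : ℕ} (s : ℝ) (y : Fin k → ℝ) (i : Fin k) :
    sufE (s • y) i = s * sufE y i := by
  unfold sufE
  rw [Finset.mul_sum]
  refine Finset.sum_congr rfl fun l _ => ?_
  split_ifs
  · simp; ring
  · simp

theorem smul_Reg {L T s : ℝ} {k : ℕ} {y : Fin k → ℝ} (hT : Tbig ≤ T) (hTL : T ≤ L)
    (hs : 1 / 2 ≤ s) (hs1 : s ≤ 1) (hy : y ∈ Reg L T 17 k) :
    s • y ∈ Reg L (T / 2) 17 k := by
  have hy0 := Reg_nonneg hT hTL (by norm_num) hy
  have hTp := Tbig_pos.trans_le hT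
  refine ⟨fun l => ?_, fun i => ?_⟩
  · simp only [Pi.smul_apply, smul_eq_mul]
    have := mul_le_mul_of_nonneg_right hs (hy0 l)
    linarith [hy.1 l]
  set p := par L y i with hp
  have hp0 : T ≤ p := le_par hTL hy.1 i
  have hpp : 0 < p := hTp.trans_le hp0
  have hd : 0 ≤ Del p := Del_nonneg hpp.le
  have hkey : s * (p + 17 * Del p) ≤ par L (s • y) i + 17 * Del (par L (s • y) i) := by
    rcases Nat.eq_zero_or_pos (i : ℕ) with h0 | h0
    · have e1 : par L (s • y) i = p := by simp [hp, par, h0]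
      rw [e1]
      exact mul_le_of_le_one_left (by positivity) hs1
    · have e1 : par L (s • y) i = s * p := by simp [hp, par, h0.ne']
      rw [e1]
      have h2 : s * Del p ≤ Del (s * p) := by
        unfold Del
        rw [mul_rpow (by linarith) hpp.le]
        exact mul_le_mul_of_nonneg_right
          (Real.self_le_rpow_of_le_one (by linarith) hs1 (by norm_num)) (by positivity)
      linarith
  constructor
  · simp only [Pi.smul_apply, smul_eq_mul]
    exact (mul_le_mul_of_nonneg_left (hy.2 i).1 (by linarith)).trans hkey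
  · rw [sufE_smul]
    exact (mul_le_mul_of_nonneg_left (hy.2 i).2 (by linarith)).trans hkey

/-- A thin window of a homogeneous functional has small volume. -/
theorem volume_window {L T : ℝ} {k M : ℕ} (hT : Tbig ≤ T) (hTL : T ≤ L)
    (φ : (Fin k → ℝ) → ℝ) (hφm : Measurable φ) (hφs : ∀ (s : ℝ) y, φ (s • y) = s * φ y)
    (hφu : ∀ y ∈ Reg L T 17 k, φ y ≤ L + 17 * Del L) (hL : 40 * Del L ≤ L)
    (hsM : (M : ℝ) * k * (40 * Del L / L) ≤ 1 / 2) (hk : 1 ≤ k) :
    (M : ℝ≥0∞) * volume (Reg L T 17 k ∩ {y | L - 8 * Del L ≤ φ y})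
      ≤ 2 * volume (Reg L (T / 2) 17 k) := by
  set A := Reg L T 17 k ∩ {y | L - 8 * Del L ≤ φ y}
  have hLp : 0 < L := (Tbig_pos.trans_le hT).trans_le hTL
  have hD : 0 < Del L := rpow_pos_of_pos hLp _
  set s : ℕ → ℝ := fun j => 1 - (j : ℝ) * (40 * Del L / L) with hsdef
  have hk1 : (1 : ℝ) ≤ k := by exact_mod_cast hk
  have hstep : 0 < 40 * Del L / L := by positivity
  have hs : ∀ j < M, 1 / 2 ≤ s j ∧ s j ≤ 1 ∧ 1 / 2 ≤ s j ^ k := by
    intro j hj
    have hjM : (j : ℝ) ≤ M := by exact_mod_cast hj.le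
    have h0 : 0 ≤ (j : ℝ) * (40 * Del L / L) := by positivity
    have h1 : (j : ℝ) * (40 * Del L / L) * k ≤ 1 / 2 := by
      refine le_trans (le_of_eq ?_) ((mul_le_mul_of_nonneg_right
        (mul_le_mul_of_nonneg_right hjM (Nat.cast_nonneg k)) hstep.le).trans hsM)
      ring
    have h2 : (j : ℝ) * (40 * Del L / L) ≤ (j : ℝ) * (40 * Del L / L) * k :=
      le_mul_of_one_le_right h0 hk1
    have h3 := one_add_mul_le_pow (show (-2 : ℝ) ≤ -((j : ℝ) * (40 * Del L / L)) by linarith) k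
    simp only [hsdef]
    refine ⟨by linarith, by linarith, ?_⟩
    rw [sub_eq_add_neg]
    linarith
  have hsub : ∀ j < M, s j • A ⊆ Reg L (T / 2) 17 k := by
    rintro j hj _ ⟨y, hy, rfl⟩
    exact smul_Reg hT hTL (hs j hj).1 (hs j hj).2.1 hy.1
  have hdis : Set.PairwiseDisjoint ((Finset.range M : Finset ℕ) : Set ℕ) fun j => s j • A := by
    have hlt : ∀ a < M, ∀ b < M, a < b → Disjoint (s a • A) (s b • A) := by
      intro a ha b hb hab
      refine Set.disjoint_left.2 ?_
      rintro _ ⟨y, hy, rfl⟩ ⟨z, hz, he⟩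
      have h1 : s b * φ z = s a * φ y := by
        rw [← hφs, ← hφs]
        exact congrArg φ he
      have h2 : L - 8 * Del L ≤ φ y := hy.2
      have h3 := hφu z hz.1
      have ha' := hs a ha
      have hb' := hs b hb
      have h4 : s a * (L - 8 * Del L) ≤ s b * (L + 17 * Del L) := by
        refine (mul_le_mul_of_nonneg_left h2 (by linarith)).trans ?_
        rw [← h1]
        exact mul_le_mul_of_nonneg_left h3 (by linarith)
      have h5 : 40 * Del L / L ≤ s a - s b := by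
        have : (a : ℝ) + 1 ≤ b := by exact_mod_cast hab
        simp only [hsdef]
        have := mul_le_mul_of_nonneg_right this hstep.le
        linarith
      have h6 : 40 * Del L / L * (L - 8 * Del L) ≤ (s a - s b) * (L - 8 * Del L) :=
        mul_le_mul_of_nonneg_right h5 (by linarith)
      have h7 : 40 * Del L / L * (L - 8 * Del L) = 40 * Del L - 320 * (Del L * Del L) / L := by
        field_simp
        ring
      have h8 : 320 * (Del L * Del L) / L ≤ 8 * Del L := by
        rw [div_le_iff₀ hLp]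
        have := mul_le_mul_of_nonneg_left hL (show (0 : ℝ) ≤ 8 * Del L by positivity)
        linarith
      have h9 : s b * (25 * Del L) ≤ 25 * Del L := mul_le_of_le_one_left (by positivity) hb'.2.1
      linarith
    intro a ha b hb hab
    simp only [Finset.coe_range, Set.mem_Iio] at ha hb
    rcases lt_or_gt_of_ne hab with h | h
    · exact hlt a ha b hb h
    · exact (hlt b hb a ha h).symm
  have hAm : MeasurableSet A := measurableSet_Reg.inter (measurableSet_le measurable_const hφm)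
  have hm : ∀ j ∈ Finset.range M, MeasurableSet (s j • A) := fun j hj =>
    hAm.const_smul_of_ne_zero (by linarith [(hs j (Finset.mem_range.1 hj)).1])
  have hvol : ∀ j ∈ Finset.range M, volume A ≤ 2 * volume (s j • A) := by
    intro j hj
    have h := hs j (Finset.mem_range.1 hj)
    rw [Measure.addHaar_smul, Module.finrank_fin_fun, ← mul_assoc]
    refine le_mul_of_one_le_left (zero_le) ?_
    rw [← ENNReal.ofReal_ofNat 2, ← ENNReal.ofReal_mul (by norm_num), ENNReal.one_le_ofReal]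
    have := le_abs_self (s j ^ k)
    linarith
  calc (M : ℝ≥0∞) * volume A = ∑ j ∈ Finset.range M, volume A := by simp
    _ ≤ ∑ j ∈ Finset.range M, 2 * volume (s j • A) := Finset.sum_le_sum hvol
    _ = 2 * volume (⋃ j ∈ Finset.range M, s j • A) := by
        rw [measure_biUnion_finset hdis hm, Finset.mul_sum]
    _ ≤ _ := by
        gcongr
        exact Set.iUnion₂_subset fun j hj => hsub j (Finset.mem_range.1 hj)

theorem window_params : ∃ L0 : ℝ, ∀ L : ℝ, L0 ≤ L → 40 * Del L ≤ L ∧ 0 < L ∧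
    ((⌊L ^ (1 / 8 : ℝ)⌋₊ : ℕ) : ℝ) * (Kb L : ℝ) * (40 * Del L / L) ≤ 1 / 2 ∧
    16 ≤ L ^ (1 / 8 : ℝ) ∧ 16 * L ^ (-(1 / 8) : ℝ) ≤ L ^ (-(1 / 10) : ℝ) := by
  have h1 := (isLittleO_log_rpow_atTop (show (0 : ℝ) < 1 / 8 by norm_num)).bound
    (show (0 : ℝ) < 1 / 8000 by norm_num)
  have h2 := (tendsto_rpow_atTop (show (0 : ℝ) < 1 / 40 by norm_num)).eventually_ge_atTop 10000
  obtain ⟨L0, hL0⟩ := Filter.eventually_atTop.1 ((h1.and h2).and (Filter.eventually_ge_atTop 2))
  refine ⟨L0, fun L hL => ?_⟩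
  obtain ⟨⟨hlog, h40⟩, hL2⟩ := hL0 L hL
  have hLp : 0 < L := by linarith
  have h8 : 10000 ≤ L ^ (1 / 8 : ℝ) :=
    h40.trans (rpow_le_rpow_of_exponent_le (by linarith) (by norm_num))
  have h4 : 10000 ≤ L ^ (1 / 4 : ℝ) :=
    h40.trans (rpow_le_rpow_of_exponent_le (by linarith) (by norm_num))
  have hDel : Del L * L ^ (1 / 4 : ℝ) = L := by
    unfold Del
    rw [← rpow_add hLp, show (3 / 4 : ℝ) + 1 / 4 = 1 by norm_num, rpow_one]
  have hD0 : 0 ≤ Del L := Del_nonneg hLp.le
  refine ⟨?_, hLp, ?_, by linarith, ?_⟩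
  · have := mul_le_mul_of_nonneg_left h4 hD0
    linarith
  · rw [Real.norm_eq_abs, Real.norm_eq_abs, abs_of_nonneg (Real.log_nonneg (by linarith)),
      abs_of_nonneg (by positivity)] at hlog
    have hl2 : log (L + 2) ≤ 2 * log L := by
      rw [← Real.log_rpow hLp]
      refine Real.log_le_log (by linarith) ?_
      norm_num
      have := mul_le_mul_of_nonneg_right hL2 hLp.le
      linarith
    have hK : (Kb L : ℝ) ≤ 20 * log (L + 2) + 21 := by
      unfold Kb
      push_cast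
      have := Nat.ceil_lt_add_one (show 0 ≤ 20 * log (L + 2) from
        mul_nonneg (by norm_num) (Real.log_nonneg (by linarith)))
      linarith
    have hK2 : (Kb L : ℝ) ≤ L ^ (1 / 8 : ℝ) / 80 := by linarith
    have hfl : ((⌊L ^ (1 / 8 : ℝ)⌋₊ : ℕ) : ℝ) ≤ L ^ (1 / 8 : ℝ) := Nat.floor_le (by positivity)
    calc ((⌊L ^ (1 / 8 : ℝ)⌋₊ : ℕ) : ℝ) * (Kb L : ℝ) * (40 * Del L / L)
        ≤ L ^ (1 / 8 : ℝ) * (L ^ (1 / 8 : ℝ) / 80) * (40 * Del L / L) := by
          refine mul_le_mul_of_nonneg_right (mul_le_mul hfl hK2 (Nat.cast_nonneg _)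
            (by positivity)) (by positivity)
      _ = (L ^ (1 / 8 : ℝ) * L ^ (1 / 8 : ℝ)) * Del L / L / 2 := by ring
      _ = 1 / 2 := by
          rw [← rpow_add hLp, show (1 / 8 : ℝ) + 1 / 8 = 1 / 4 by norm_num,
            mul_comm, hDel, div_self hLp.ne']
  · have e : L ^ (-(1 / 10) : ℝ) = L ^ (1 / 40 : ℝ) * L ^ (-(1 / 8) : ℝ) := by
      rw [← rpow_add hLp]; norm_num
    rw [e]
    exact mul_le_mul_of_nonneg_right (by linarith) (by positivity)

/-- The critical window is negligible. -/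
theorem lat_window : ∃ C : ℕ, ∃ T0 : ℝ, ∀ T : ℝ, T0 ≤ T → ∃ L0 : ℝ, ∀ L : ℝ, L0 ≤ L →
    (∑ k ∈ Finset.range (Kb L + 1), (((Lat L (T / 2) 16 k).filter fun n =>
        L - 8 * Del L ≤ EntF (fun l => (n l : ℝ)) ∨
          ∃ l : Fin k, (l : ℕ) = 0 ∧ L - 8 * Del L ≤ (n l : ℝ)).card : ℝ))
      ≤ T ^ C * L ^ (-(1 / 10 : ℝ)) * latSum L T (-1) := by
  obtain ⟨L1, hL1⟩ := window_params
  refine ⟨63, 20 * Tbig, fun T hT => ⟨max L1 T, fun L hL => ?_⟩⟩
  obtain ⟨hL40, hLp, hsM, hM16, hfin⟩ := hL1 L ((le_max_left _ _).trans hL)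
  have hTL : T ≤ L := (le_max_right _ _).trans hL
  have hT0 := Tbig_pos
  have hT2 : Tbig ≤ T / 2 := by linarith
  have hT2L : T / 2 ≤ L := by linarith
  set M := ⌊L ^ (1 / 8 : ℝ)⌋₊ with hM
  set W : ℕ → ℕ := fun k => ((Lat L (T / 2) 16 k).filter fun n =>
        L - 8 * Del L ≤ EntF (fun l => (n l : ℝ)) ∨
          ∃ l : Fin k, (l : ℕ) = 0 ∧ L - 8 * Del L ≤ (n l : ℝ)).card with hW
  have key : ∀ k ∈ Finset.range (Kb L + 1),
      (M : ℝ≥0∞) * (W k : ℝ≥0∞) ≤ 4 * volume (Reg L (T / 4) 17 k) := by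
    intro k hk
    rcases Nat.eq_zero_or_pos k with rfl | hkp
    · have : W 0 = 0 := by
        simp only [hW, Finset.card_eq_zero, Finset.filter_eq_empty_iff]
        intro n _ h
        rcases h with h | ⟨l, _⟩
        · simp [EntF] at h
          linarith
        · exact l.elim0
      simp [this]
    have hkK : (k : ℝ) ≤ Kb L := by
      exact_mod_cast Nat.lt_succ_iff.1 (Finset.mem_range.1 hk)
    have hsMk : (M : ℝ) * k * (40 * Del L / L) ≤ 1 / 2 := by
      refine le_trans ?_ hsM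
      have : 0 ≤ 40 * Del L / L := div_nonneg (mul_nonneg (by norm_num) (Del_nonneg hLp.le)) hLp.le
      gcongr
    set z : Fin k := ⟨0, hkp⟩
    have hentm : Measurable fun y : Fin k → ℝ => EntF y := by
      unfold EntF
      exact Finset.measurable_sum _ fun l _ => (measurable_pi_apply l).const_mul _
    have h1 := volume_window (M := M) hT2 hT2L (fun y => EntF y) hentm
      (fun s y => by simp only [EntF, Pi.smul_apply, smul_eq_mul, Finset.mul_sum]
                     exact Finset.sum_congr rfl fun l _ => by ring)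
      (fun y hy => by
        have := (hy.2 z).2
        rwa [sufE_zero, show par L y z = L from par_zero hkp] at this)
      hL40 hsMk hkp
    have h2 := volume_window (M := M) hT2 hT2L (fun y => y z) (measurable_pi_apply z)
      (fun s y => by simp)
      (fun y hy => by
        have := (hy.2 z).1
        rwa [show par L y z = L from par_zero hkp] at this)
      hL40 hsMk hkp
    have h3 : (W k : ℝ≥0∞) ≤ volume (Reg L (T / 2) 17 k ∩ {y | L - 8 * Del L ≤ EntF y}) +
        volume (Reg L (T / 2) 17 k ∩ {y | L - 8 * Del L ≤ y z}) := by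
      refine le_trans (card_le_volume fun n hn y hy => ?_) (measure_union_le _ _)
      obtain ⟨hn1, hn2⟩ := Finset.mem_filter.1 hn
      have hy' : y ∈ Reg L (T / 2) 17 k := by
        have := cube_subset hT2 hT2L (by norm_num) (by norm_num) hn1 hy
        norm_num at this
        exact this
      rw [mem_cube] at hy
      rcases hn2 with h | ⟨l, hl, h⟩
      · exact Or.inl ⟨hy', h.trans (EntF_mono fun l => (hy l).1)⟩
      · have : l = z := Fin.ext hl
        subst this
        exact Or.inr ⟨hy', h.trans (hy z).1⟩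
    have e : T / 4 = T / 2 / 2 := by ring
    rw [e]
    calc (M : ℝ≥0∞) * (W k : ℝ≥0∞) ≤ _ := mul_le_mul_of_nonneg_left h3 (zero_le)
      _ ≤ 2 * volume (Reg L (T / 2 / 2) 17 k) + 2 * volume (Reg L (T / 2 / 2) 17 k) := by
          rw [mul_add]; exact add_le_add h1 h2
      _ = _ := by rw [← add_mul]; norm_num
  clear_value W
  have htot : ((M * ∑ k ∈ Finset.range (Kb L + 1), W k : ℕ) : ℝ≥0∞)
      ≤ ((4 * (2 * (61 * (⌊2 * T⌋₊ + 1) ^ 60 * latSum L T (-1))) : ℕ) : ℝ≥0∞) := by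
    push_cast
    rw [Finset.mul_sum]
    refine (Finset.sum_le_sum key).trans ?_
    rw [← Finset.mul_sum]
    gcongr
    have := volSum_le (σ := 17) (T := T) (T' := T / 4) (L := L) (by linarith) le_rfl
      (by linarith) hTL (by norm_num)
    push_cast at this
    exact this
  have htot' : M * ∑ k ∈ Finset.range (Kb L + 1), W k
      ≤ 4 * (2 * (61 * (⌊2 * T⌋₊ + 1) ^ 60 * latSum L T (-1))) := by exact_mod_cast htot
  have htotR : (M : ℝ) * ∑ k ∈ Finset.range (Kb L + 1), (W k : ℝ)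
      ≤ 4 * (T ^ 63 * latSum L T (-1)) := by
    have h5 : ((M * ∑ k ∈ Finset.range (Kb L + 1), W k : ℕ) : ℝ)
        ≤ ((4 * (2 * (61 * (⌊2 * T⌋₊ + 1) ^ 60 * latSum L T (-1))) : ℕ) : ℝ) := by
      exact_mod_cast htot'
    have h6 := mul_le_mul_of_nonneg_right (trunc_const (show Tbig ≤ T by linarith))
      (Nat.cast_nonneg (α := ℝ) (latSum L T (-1)))
    push_cast at h5 h6 ⊢
    linarith
  have hMlow : L ^ (1 / 8 : ℝ) / 2 ≤ (M : ℝ) := by
    have := Nat.lt_floor_add_one (L ^ (1 / 8 : ℝ))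
    linarith
  set S : ℝ := ∑ k ∈ Finset.range (Kb L + 1), (W k : ℝ)
  have hS0 : 0 ≤ S := Finset.sum_nonneg fun k _ => Nat.cast_nonneg _
  have hB0 : 0 ≤ T ^ 63 * (latSum L T (-1) : ℝ) :=
    mul_nonneg (pow_nonneg (by linarith) _) (Nat.cast_nonneg _)
  have h7 : L ^ (1 / 8 : ℝ) * S ≤ 8 * (T ^ 63 * latSum L T (-1)) := by
    have := mul_le_mul_of_nonneg_right hMlow hS0
    linarith
  have h8 : S ≤ 16 * L ^ (-(1 / 8) : ℝ) * (T ^ 63 * latSum L T (-1)) := by
    have h9 : 0 < L ^ (1 / 8 : ℝ) := by positivity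
    rw [rpow_neg hLp.le]
    rw [show 16 * (L ^ (1 / 8 : ℝ))⁻¹ * (T ^ 63 * (latSum L T (-1) : ℝ))
      = 16 * (T ^ 63 * latSum L T (-1)) / L ^ (1 / 8 : ℝ) by ring, le_div_iff₀ h9]
    linarith
  have h10 : S ≤ T ^ 63 * L ^ (-(1 / 10 : ℝ)) * latSum L T (-1) := by
    refine h8.trans ?_
    have := mul_le_mul_of_nonneg_right hfin hB0
    linarith
  simp only [S, hW] at h10
  exact h10

end Vale.Agent.P031
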