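import Vale.Agent.P031.MainDefs
import Vale.Agent.P031.Region
import Vale.Agent.P031.Cells

/-!
# Totient values: lists of normal primes over strict lattice cell vectors
-/

open Finset Real
open scoped Classical

noncomputable section

namespace Vale.Agent.P031

/-- A list of normal primes over a strict lattice vector at scale `L`. -/
def CellList (L T : ℝ) (l : List ℕ) : Prop :=
  ∃ k : ℕ, ∃ n ∈ Lat L T (-1) k, ∃ P ∈ cellTuples n, (∀ j, Normal (P j)) ∧ l = List.ofFn P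

/-- The cell containing the scale of `p`. -/
def cellOf (p : ℕ) : ℕ := ⌈sc p⌉₊ - 1

lemma cellOf_eq {n p : ℕ} (h : p ∈ primesIn (n : ℝ) ((n : ℝ) + 1)) : cellOf p = n := by
  obtain ⟨-, h1, h2⟩ := mem_primesIn.1 h
  have : ⌈sc p⌉₊ = n + 1 := by
    rw [Nat.ceil_eq_iff (Nat.succ_ne_zero n)]
    constructor
    · simpa using h1
    · push_cast; exact h2
  simp [cellOf, this]

lemma mem_cellTuples {k : ℕ} {n P : Fin k → ℕ} :
    P ∈ cellTuples n ↔ ∀ j, P j ∈ primesIn (n j : ℝ) ((n j : ℝ) + 1) := by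
  simp [cellTuples, Fintype.mem_piFinset]

/-- The part of a vector after index `i`. -/
def after {α : Type*} {k : ℕ} (i : ℕ) (y : Fin k → α) : Fin (k - (i + 1)) → α :=
  fun j => y ⟨i + 1 + j, by have := j.isLt; omega⟩

lemma sufE_after {k i : ℕ} (y : Fin k → ℝ) (j : Fin (k - (i + 1))) :
    sufE (after i y) j = sufE y ⟨i + 1 + j, by have := j.isLt; omega⟩ := by
  unfold sufE
  rw [← Finset.sum_filter, ← Finset.sum_filter]
  refine Finset.sum_bij (fun m _ => (⟨i + 1 + m, by have := m.isLt; omega⟩ : Fin k)) ?_ ?_ ?_ ?_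
  · intro m hm
    simp only [Finset.mem_filter, Finset.mem_univ, true_and, Fin.le_def] at hm ⊢
    omega
  · intro a _ b _ hab
    simp [Fin.ext_iff] at hab
    exact Fin.ext (by omega)
  · intro b hb
    simp only [Finset.mem_filter, Finset.mem_univ, true_and, Fin.le_def] at hb
    exact ⟨⟨(b : ℕ) - (i + 1), by have := b.isLt; omega⟩, by simp only [Finset.mem_filter, Finset.mem_univ, true_and, Fin.le_def]; omega,
      Fin.ext (by simp; omega)⟩
  · intro m hm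
    simp only [after]
    congr 2
    omega

lemma after_Reg {L T σ : ℝ} {k i : ℕ} {y : Fin k → ℝ} (hy : y ∈ Reg L T σ k) (hi : i < k) :
    after i y ∈ Reg (y ⟨i, hi⟩) T σ (k - (i + 1)) := by
  refine ⟨fun l => hy.1 _, fun j => ?_⟩
  have hjk : i + (j : ℕ) + 1 < k := by have := j.isLt; omega
  have e : (⟨i + 1 + (j : ℕ), by omega⟩ : Fin k) = ⟨i + (j : ℕ) + 1, hjk⟩ := by ext; simp; omega
  have hp : par (y ⟨i, hi⟩) (after i y) j = y ⟨i + (j : ℕ), by omega⟩ := by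
    unfold par
    split_ifs with h
    · congr 1
      ext
      simp [h]
    · simp only [after]
      congr 1
      ext
      simp only
      omega
  have h := hy.2 ⟨i + (j : ℕ) + 1, hjk⟩
  rw [par_succ hjk] at h
  rw [hp, sufE_after, e, show after i y j = y ⟨i + (j : ℕ) + 1, hjk⟩ from congrArg y e]
  exact h

variable {L T : ℝ} {k : ℕ}

lemma strict_step (hT : Tbig ≤ T) {n : Fin k → ℕ} (hn : n ∈ Lat L T (-1) k) {i : ℕ}
    (h : i + 1 < k) : n ⟨i + 1, h⟩ + 1 ≤ n ⟨i, by omega⟩ := by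
  have hr := (mem_Lat.1 hn).2
  have h1 := (hr.2 ⟨i + 1, h⟩).1
  rw [par_succ h] at h1
  have h2 := one_le_Del ((one_le_Tbig.trans hT).trans (hr.1 ⟨i, by omega⟩))
  have h3 : ((n ⟨i + 1, h⟩ : ℕ) : ℝ) + 1 ≤ (n ⟨i, by omega⟩ : ℕ) := by linarith
  exact_mod_cast h3

lemma strict_anti (hT : Tbig ≤ T) {n : Fin k → ℕ} (hn : n ∈ Lat L T (-1) k) {a b : Fin k}
    (h : a < b) : n b + 1 ≤ n a := by
  have key : ∀ d : ℕ, ∀ hd : (a : ℕ) + 1 + d < k, n ⟨(a : ℕ) + 1 + d, hd⟩ + 1 ≤ n a := by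
    intro d
    induction d with
    | zero => intro hd; exact strict_step hT hn (i := (a : ℕ)) hd
    | succ d ih =>
      intro hd
      have h1 := strict_step hT hn (i := (a : ℕ) + 1 + d) hd
      have h2 := ih (by omega)
      have h1' : n ⟨(a : ℕ) + 1 + (d + 1), hd⟩ + 1 ≤ n ⟨(a : ℕ) + 1 + d, by omega⟩ := h1
      omega
  have hb : (a : ℕ) + 1 + ((b : ℕ) - ((a : ℕ) + 1)) < k := by
    have := b.isLt; have : (a : ℕ) < b := h; omega
  have := key ((b : ℕ) - ((a : ℕ) + 1)) hb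
  have e : (⟨(a : ℕ) + 1 + ((b : ℕ) - ((a : ℕ) + 1)), hb⟩ : Fin k) = b := by
    ext; simp; have : (a : ℕ) < b := h; omega
  rwa [e] at this

namespace CellList

variable {l : List ℕ}

lemma prime (h : CellList L T l) {p : ℕ} (hp : p ∈ l) : p.Prime ∧ Normal p := by
  obtain ⟨k, n, hn, P, hP, hN, rfl⟩ := h
  obtain ⟨j, rfl⟩ := List.mem_ofFn.1 hp
  exact ⟨(mem_primesIn.1 (mem_cellTuples.1 hP j)).1, hN j⟩

lemma gt (h : CellList L T l) {p : ℕ} (hp : p ∈ l) : T < sc p ∧ T ≤ (cellOf p : ℝ) := by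
  obtain ⟨k, n, hn, P, hP, hN, rfl⟩ := h
  obtain ⟨j, rfl⟩ := List.mem_ofFn.1 hp
  have h1 : T ≤ (n j : ℝ) := (mem_Lat.1 hn).2.1 j
  rw [cellOf_eq (mem_cellTuples.1 hP j)]
  exact ⟨h1.trans_lt (mem_primesIn.1 (mem_cellTuples.1 hP j)).2.1, h1⟩

lemma cell_lt (h : CellList L T l) {p : ℕ} (hp : p ∈ l) :
    (cellOf p : ℝ) < sc p ∧ sc p ≤ (cellOf p : ℝ) + 1 := by
  obtain ⟨k, n, hn, P, hP, hN, rfl⟩ := h
  obtain ⟨j, rfl⟩ := List.mem_ofFn.1 hp
  rw [cellOf_eq (mem_cellTuples.1 hP j)]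
  exact (mem_primesIn.1 (mem_cellTuples.1 hP j)).2

lemma le_top (hT : Tbig ≤ T) (h : CellList L T l) {p : ℕ} (hp : p ∈ l) :
    sc p ≤ L - Del L + 1 := by
  obtain ⟨k, n, hn, P, hP, hN, rfl⟩ := h
  obtain ⟨j, rfl⟩ := List.mem_ofFn.1 hp
  have hk : 0 < k := Nat.zero_lt_of_lt j.isLt
  have h1 := ((mem_Lat.1 hn).2.2 ⟨0, hk⟩).1
  rw [par_zero] at h1
  have h2 : n j ≤ n ⟨0, hk⟩ := by
    rcases Nat.eq_zero_or_pos (j : ℕ) with h0 | h0
    · exact le_of_eq (congrArg n (Fin.ext h0))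
    · have := strict_anti hT hn (show (⟨0, hk⟩ : Fin k) < j from h0)
      omega
  have h2' : (n j : ℝ) ≤ (n ⟨0, hk⟩ : ℝ) := by exact_mod_cast h2
  linarith [(mem_primesIn.1 (mem_cellTuples.1 hP j)).2.2]

lemma pairwise (hT : Tbig ≤ T) (h : CellList L T l) : l.Pairwise fun p q => q < p := by
  obtain ⟨k, n, hn, P, hP, hN, rfl⟩ := h
  rw [List.pairwise_ofFn]
  intro a b hab
  have h1 := mem_primesIn.1 (mem_cellTuples.1 hP a)
  have h2 := mem_primesIn.1 (mem_cellTuples.1 hP b)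
  have h3 : (n b : ℝ) + 1 ≤ (n a : ℝ) := by exact_mod_cast strict_anti hT hn hab
  by_contra hle
  have := sc_mono h1.1.two_le (not_lt.1 hle)
  linarith [h1.2.1, h2.2.2]

lemma length_le (hT : Tbig ≤ T) (hTL : T ≤ L) (h : CellList L T l) : l.length ≤ Kb L := by
  obtain ⟨k, n, hn, P, hP, hN, rfl⟩ := h
  rw [List.length_ofFn]
  exact Reg_short hT hTL (by norm_num) (mem_Lat.1 hn).2

lemma drop (hT : Tbig ≤ T) (h : CellList L T l) {i : ℕ} (hi : i < l.length) :
    CellList (cellOf (l.getD i 0)) T (l.drop (i + 1)) := by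
  obtain ⟨k, n, hn, P, hP, hN, rfl⟩ := h
  rw [List.length_ofFn] at hi
  have e : (List.ofFn P).getD i 0 = P ⟨i, hi⟩ := by
    rw [List.getD_eq_getElem _ _ (by simpa using hi), List.getElem_ofFn]
  rw [e, cellOf_eq (mem_cellTuples.1 hP _)]
  refine ⟨k - (i + 1), after i n, ?_, after i P,
    mem_cellTuples.2 fun j => mem_cellTuples.1 hP _, fun j => hN _, ?_⟩
  · have hr := (mem_Lat.1 hn).2
    exact mem_Lat_of_Reg hT (hr.1 ⟨i, hi⟩) (by norm_num)
      (after_Reg (y := fun l => (n l : ℝ)) hr hi)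
  · refine List.ext_getElem (by simp) fun m h1 h2 => ?_
    simp [after]

lemma take (hTL : T ≤ L) (hT : Tbig ≤ T) (h : CellList L T l) (i : ℕ) :
    CellList L T (l.take i) := by
  rcases le_or_gt l.length i with hi | hi
  · rwa [List.take_of_length_le hi]
  obtain ⟨k, n, hn, P, hP, hN, rfl⟩ := h
  rw [List.length_ofFn] at hi
  refine ⟨i, fun j => n ⟨j, j.isLt.trans hi⟩, ?_, fun j => P ⟨j, j.isLt.trans hi⟩,
    mem_cellTuples.2 fun j => mem_cellTuples.1 hP _, fun j => hN _, ?_⟩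
  · refine mem_Lat_of_Reg hT hTL (by norm_num) ⟨fun j => (mem_Lat.1 hn).2.1 _, fun m => ?_⟩
    set z : Fin k → ℝ := fun l => (n l : ℝ)
    set m' : Fin k := ⟨m, m.isLt.trans hi⟩
    have hpar : par L (fun l : Fin i => (n ⟨l, l.isLt.trans hi⟩ : ℝ)) m = par L z m' := by
      unfold par
      simp only [m', z]
    rw [hpar]
    refine ⟨((mem_Lat.1 hn).2.2 m').1, le_trans ?_ ((mem_Lat.1 hn).2.2 m').2⟩
    have hnn : ∀ l, 0 ≤ z l := fun l => Nat.cast_nonneg _
    unfold sufE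
    refine le_trans (le_of_eq ?_) (Finset.sum_le_sum_of_subset_of_nonneg
      (Finset.subset_univ (Finset.univ.map (Fin.castLEEmb hi.le)))
      (fun l _ _ => sufE_term_nonneg hnn m' l))
    rw [Finset.sum_map]
    refine Finset.sum_congr rfl fun l _ => ?_
    simp only [m', Fin.le_def, Fin.coe_castLEEmb, Fin.val_castLE]
    rfl
  · refine List.ext_getElem (by simp; omega) fun m h1 h2 => ?_
    simp

end CellList

theorem quad_le_Del {p : ℝ} (m : ℕ) (hT : 2 * Tbig ≤ T) (hp : T / 2 * 1.06 ^ m ≤ p) :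
    4 * ((m : ℝ) + 2) ^ 2 ≤ Del p := by
  have h0 := Tbig_pos
  refine (mul_le_mul_of_nonneg_left (quad_le_geom m) (by norm_num)).trans ?_
  refine le_trans ?_ (Del_mono (mul_nonneg (by linarith) (by positivity)) hp)
  unfold Del
  rw [mul_rpow (by linarith) (by positivity), ← mul_assoc]
  refine mul_le_mul_of_nonneg_right ?_ (by positivity)
  have h6 : (10 : ℝ) ^ 8 ≤ T / 2 := by
    have : (10 : ℝ) ^ 8 ≤ Tbig := pow_le_pow_right₀ (by norm_num) (by norm_num)
    linarith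
  calc (4 : ℝ) * 10 ^ 4 ≤ ((10 : ℝ) ^ 8) ^ (3 / 4 : ℝ) := by
        rw [← Real.rpow_natCast (10 : ℝ) 8, ← rpow_mul (by norm_num)]
        norm_num
    _ ≤ _ := rpow_le_rpow (by norm_num) h6 (by norm_num)

namespace CellList

variable {l : List ℕ}

lemma ent (hT : 2 * Tbig ≤ T) (hTL : T ≤ L) (h : CellList L T l) :
    EntS l ≤ L - Del L / 2 := by
  have hT0 := Tbig_pos
  have hT1 : Tbig ≤ T := by linarith
  obtain ⟨k, n, hn, P, hP, hN, rfl⟩ := h
  have hL : 0 ≤ L := by linarith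
  have e : EntS (List.ofFn P) = EntF fun j => sc (P j) := by
    rw [EntS_eq (N := k) (by simp), EntF, Finset.sum_range]
    refine Finset.sum_congr rfl fun j _ => ?_
    rw [lv_of_lt (by simp), List.getD_eq_getElem _ _ (by simp), List.getElem_ofFn]
  rw [e]
  rcases Nat.eq_zero_or_pos k with rfl | hk
  · have := Del_small hT1 hTL
    simp [EntF]
    linarith [Del_nonneg hL]
  set z : Fin k → ℝ := fun j => (n j : ℝ)
  have hr : z ∈ Reg L T (-1) k := (mem_Lat.1 hn).2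
  have h1 : EntF (fun j => sc (P j)) ≤ EntF z + ((k - 1 : ℕ) + 2 : ℝ) ^ 2 := by
    have h2 : EntF (fun j => sc (P j)) ≤ EntF z + ∑ j : Fin k, alpha ((j : ℕ) + 1) := by
      unfold EntF
      rw [← Finset.sum_add_distrib]
      refine Finset.sum_le_sum fun j _ => ?_
      have := mul_le_mul_of_nonneg_left (mem_primesIn.1 (mem_cellTuples.1 hP j)).2.2
        (alpha_nonneg (j : ℕ))
      simp only [z]
      linarith
    have h3 := sum_alpha_le (⟨0, hk⟩ : Fin k)
    simp [Fin.le_def] at h3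
    have h4 : ((k - 1 : ℕ) : ℝ) + 1 = k := by
      rw [Nat.cast_sub hk]; simp
    nlinarith [Nat.cast_nonneg (α := ℝ) (k - 1)]
  have h5 := (hr.2 ⟨0, hk⟩).2
  rw [sufE_zero, par_zero] at h5
  have h6 := par_lower hT1 hTL (by norm_num) hr ⟨0, hk⟩
  rw [par_zero] at h6
  have h8 := Del_nonneg hL
  have h7 := quad_le_Del (T := T) (p := L) (k - 1) hT (by simp only [Nat.sub_zero] at h6; linarith)
  linarith

end CellList

end Vale.Agent.P031
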