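import Vale.Agent.P031.MainDefs
import Vale.Agent.P031.BadMass
import Vale.Agent.P031.Collide
import Vale.Agent.P031.Region
import Vale.Agent.P031.Cells
import Vale.Agent.P031.LowerTuples

/-!
# Totient values: the main set has mass at least a constant times the lattice count
-/

open Finset Real Filter
open scoped Classical

noncomputable section

namespace Vale.Agent.P031

/-- The totient of a product of distinct primes, as a function of the list. -/
def pval (l : List ℕ) : ℕ := (l.map fun p => p - 1).prod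

lemma pval_append (a b : List ℕ) : pval (a ++ b) = pval a * pval b := by
  simp [pval]

lemma pval_take_drop (l : List ℕ) (i : ℕ) : pval l = pval (l.take i) * pval (l.drop i) := by
  rw [← pval_append, List.take_append_drop]

lemma totient_prod_primes : ∀ {l : List ℕ}, l.Nodup → (∀ p ∈ l, p.Prime) →
    Nat.totient l.prod = pval l
  | [], _, _ => by simp [pval]
  | a :: t, hd, hp => by
    obtain ⟨ha, ht⟩ := List.nodup_cons.1 hd
    have hpa : a.Prime := hp a List.mem_cons_self
    have hco : Nat.Coprime a t.prod := by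
      rw [hpa.coprime_iff_not_dvd]
      intro h
      obtain ⟨b, hb, hab⟩ := (Prime.dvd_prod_iff hpa.prime).1 h
      exact ha (((Nat.prime_dvd_prime_iff_eq hpa (hp b (List.mem_cons_of_mem _ hb))).1 hab) ▸ hb)
    rw [List.prod_cons, Nat.totient_mul hco, Nat.totient_prime hpa,
      totient_prod_primes ht fun p h => hp p (List.mem_cons_of_mem _ h)]
    simp [pval]

lemma dvd_prod_primes_iff {l : List ℕ} (hp : ∀ p ∈ l, p.Prime) {q : ℕ} (hq : q.Prime) :
    q ∣ l.prod ↔ q ∈ l := by
  refine ⟨fun h => ?_, List.dvd_prod⟩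
  obtain ⟨b, hb, hqb⟩ := (Prime.dvd_prod_iff hq.prime).1 h
  exact ((Nat.prime_dvd_prime_iff_eq hq (hp b hb)).1 hqb) ▸ hb

lemma not_sq_dvd_prod {l : List ℕ} (hd : l.Nodup) (hp : ∀ p ∈ l, p.Prime) {q : ℕ} (hq : q ∈ l) :
    ¬ q ^ 2 ∣ l.prod := by
  intro h
  have hperm := List.perm_cons_erase hq
  rw [hperm.prod_eq, List.prod_cons, pow_two] at h
  have h1 := Nat.dvd_of_mul_dvd_mul_left (hp q hq).pos h
  have h2 := (dvd_prod_primes_iff (fun p hpm => hp p (List.mem_of_mem_erase hpm)) (hp q hq)).1 h1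
  exact hd.not_mem_erase h2

lemma one_lt_pval : ∀ {l : List ℕ}, l ≠ [] → (∀ p ∈ l, 3 ≤ p) → 1 < pval l
  | [], h, _ => absurd rfl h
  | a :: t, _, hp => by
    have ha : 2 ≤ a - 1 := by have := hp a List.mem_cons_self; omega
    have ht : 1 ≤ pval t := by
      refine List.one_le_prod ?_
      simp only [List.mem_map]
      rintro x ⟨p, hpm, rfl⟩
      have := hp p (List.mem_cons_of_mem _ hpm)
      omega
    calc 1 < 2 * 1 := by norm_num
      _ ≤ (a - 1) * pval t := Nat.mul_le_mul ha ht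
      _ = pval (a :: t) := by simp [pval]

lemma first_diff : ∀ {l l' : List ℕ}, (∀ p ∈ l, 3 ≤ p) → (∀ p ∈ l', 3 ≤ p) →
    pval l = pval l' → l ≠ l' →
    ∃ i, i < l.length ∧ i < l'.length ∧ l.take i = l'.take i ∧ l.getD i 0 ≠ l'.getD i 0
  | [], [], _, _, _, hne => absurd rfl hne
  | [], b :: t', _, h', he, _ => by
    have := one_lt_pval (List.cons_ne_nil b t') h'
    rw [← he] at this
    simp [pval] at this
  | a :: t, [], h, _, he, _ => by
    have := one_lt_pval (List.cons_ne_nil a t) h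
    rw [he] at this
    simp [pval] at this
  | a :: t, b :: t', h, h', he, hne => by
    by_cases hab : a = b
    · subst hab
      have ha : 0 < a - 1 := by have := h a List.mem_cons_self; omega
      have he' : pval t = pval t' := by
        simp only [pval, List.map_cons, List.prod_cons] at he
        exact Nat.eq_of_mul_eq_mul_left ha he
      obtain ⟨i, h1, h2, h3, h4⟩ := first_diff (fun p hp => h p (List.mem_cons_of_mem _ hp))
        (fun p hp => h' p (List.mem_cons_of_mem _ hp)) he' (fun e => hne (by rw [e]))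
      exact ⟨i + 1, by simpa using h1, by simpa using h2, by simp [h3], by simpa using h4⟩
    · exact ⟨0, by simp, by simp, by simp, by simpa using hab⟩

lemma CellList.three_le {L T : ℝ} {l : List ℕ} (hT : 1 ≤ T) (h : CellList L T l) {p : ℕ}
    (hp : p ∈ l) : 3 ≤ p := by
  have h2 := (h.prime hp).1.two_le
  by_contra h3
  have : p = 2 := by omega
  subst this
  have h4 := (h.gt hp).1
  have : sc 2 ≤ 0 := by
    unfold sc
    refine Real.log_nonpos (Real.log_nonneg (by norm_num)) ?_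
    have := Real.log_two_lt_d9
    push_cast
    linarith
  linarith

lemma EntS_filter_scale_le {l : List ℕ} (hd : l.Pairwise fun p q => q < p)
    (hp : ∀ p ∈ l, p.Prime) (hs : ∀ p ∈ l, 0 ≤ sc p) (Y : ℝ) (m : ℕ) :
    EntS ((l.filter fun q => decide (Y < sc q)).take m) ≤ EntS l := by
  have e : l.filter (fun q => decide (Y < sc q)) = l.filter fun q => decide (2 ≤ q ∧ Y < sc q) := by
    refine List.filter_congr fun q hq => ?_
    simp [(hp q hq).two_le]
  rw [e, desc_filter_up hd _ fun a b hab hb => by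
    simp only [decide_eq_true_eq] at hb ⊢
    exact ⟨by omega, lt_of_lt_of_le hb.2 (sc_mono hb.1 hab.le)⟩, List.take_take]
  exact EntS_take_le hs _

/-- A cell list gives an element of the main set. -/
lemma CellList.mem_Amain {L T : ℝ} {l : List ℕ} (hT : 2 * Tbig ≤ T) (hTL : T ≤ L)
    (hK : (Kb L : ℝ) ≤ exp (3 / 4 * Del L - 1)) (hD : 2 ≤ Del L) (h : CellList L T l) :
    pval l ∈ Amain L := by
  have hT0 := Tbig_pos
  have hT1 : Tbig ≤ T := by linarith
  have hT' : 1 ≤ T := one_le_Tbig.trans hT1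
  have hpr : ∀ p ∈ l, p.Prime := fun p hp => (h.prime hp).1
  have hd := h.pairwise hT1
  have hnd : l.Nodup := hd.imp fun hab => (ne_of_lt hab).symm
  have hs : ∀ p ∈ l, 0 ≤ sc p := fun p hp => by linarith [(h.gt hp).1]
  have hφ : Nat.totient l.prod = pval l := totient_prod_primes hnd hpr
  have hn0 : l.prod ≠ 0 := List.prod_ne_zero fun h0 => Nat.not_prime_zero (hpr 0 h0)
  have hmem : ∀ q : ℕ, q.Prime → (q ∣ l.prod ↔ q ∈ l) := fun q hq => dvd_prod_primes_iff hpr hq
  have hbigs : ∀ Y : ℝ, bigs Y l.prod = l.filter fun q => decide (Y < sc q) := by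
    intro Y
    refine desc_ext (bigs_pairwise _ _) (hd.filter _) fun q => ?_
    simp only [mem_bigs, List.mem_filter, decide_eq_true_eq]
    constructor
    · exact fun hq => ⟨(hmem q hq.1).1 hq.2.1, hq.2.2.2⟩
    · exact fun hq => ⟨hpr q hq.1, List.dvd_prod hq.1, hn0, hq.2⟩
  refine Finset.mem_filter.2 ⟨Finset.mem_Icc.2 ⟨?_, ?_⟩, l.prod, ⟨hn0, ?_⟩, hφ, ?_, ?_⟩
  · rw [← hφ]; exact Nat.totient_pos.2 (Nat.pos_of_ne_zero hn0)
  · refine Nat.le_floor ?_
    have h1 : (pval l : ℝ) ≤ exp ((l.length : ℝ) * exp (L - Del L + 1)) := by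
      have key : ∀ t : List ℕ, (∀ p ∈ t, p.Prime ∧ sc p ≤ L - Del L + 1) →
          (pval t : ℝ) ≤ exp ((t.length : ℝ) * exp (L - Del L + 1)) := by
        intro t
        induction t with
        | nil => simp [pval]
        | cons a t ih =>
          intro ht
          have ha := ht a List.mem_cons_self
          have h2 : ((a - 1 : ℕ) : ℝ) ≤ exp (exp (L - Del L + 1)) :=
            le_trans (by exact_mod_cast Nat.sub_le a 1) ((sc_le_exp_iff ha.1.two_le).1 ha.2)
          have h3 := ih fun p hp => ht p (List.mem_cons_of_mem _ hp)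
          simp only [pval, List.map_cons, List.prod_cons, List.length_cons] at h3 ⊢
          rw [Nat.cast_mul, Nat.cast_succ]
          rw [add_mul, one_mul, exp_add, mul_comm (exp ((t.length : ℝ) * _))]
          exact mul_le_mul h2 h3 (Nat.cast_nonneg _) (exp_nonneg _)
      exact key l fun p hp => ⟨hpr p hp, h.le_top hT1 hp⟩
    refine h1.trans (exp_le_exp.2 ?_)
    have h4 : (l.length : ℝ) ≤ exp (3 / 4 * Del L - 1) :=
      le_trans (by exact_mod_cast h.length_le hT1 hTL) hK
    refine (mul_le_mul_of_nonneg_right h4 (exp_nonneg _)).trans (le_of_eq ?_)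
    rw [← exp_add]
    ring_nf
  · intro q hq hqd
    have := h.le_top hT1 ((hmem q hq).1 hqd)
    linarith
  · intro p hp
    rw [hbigs, List.mem_filter] at hp
    have hpl := hp.1
    rintro ((h2 | h2) | h2)
    · exact not_sq_dvd_prod hnd hpr hpl h2
    · exact h2 (h.prime hpl).2
    obtain ⟨i, hi, rfl⟩ := List.getElem_of_mem hpl
    have e0 : l.getD i 0 = l[i] := List.getD_eq_getElem _ _ hi
    have e1 : below l.prod l[i] =
        (((l.drop (i + 1)).filter fun q => decide (Y0 (sc l[i]) < sc q))).take (Kb (sc l[i])) := by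
      rw [below, hbigs, List.filter_comm, ← desc_filter_lt hd hi, e0]
    rw [e1] at h2
    have hcl := (h.cell_lt hpl).1
    have hdrop := h.drop hT1 hi
    rw [e0] at hdrop
    have h3 := EntS_filter_scale_le (hd.sublist (List.drop_sublist (i + 1) l))
      (fun q hq => hpr q (List.mem_of_mem_drop hq)) (fun q hq => hs q (List.mem_of_mem_drop hq))
      (Y0 (sc l[i])) (Kb (sc l[i]))
    have h4 := hdrop.ent hT (h.gt hpl).2
    have h5 := Del_nonneg (hs _ hpl)
    have h6 := Del_nonneg (Nat.cast_nonneg (cellOf l[i]) : (0 : ℝ) ≤ _)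
    linarith
  · rw [hbigs, ← List.take_length (l := l.filter _)]
    exact (EntS_filter_scale_le hd hpr hs _ _).trans (h.ent hT hTL)

/-- All cell lists at scale `L`. -/
def Tup (L T : ℝ) : Finset (List ℕ) :=
  (((Finset.range (Kb L + 1)).sigma fun k => Lat L T (-1) k).sigma
    fun x => (cellTuples x.2).filter fun P => ∀ j, Normal (P j)).image fun x => List.ofFn x.2

lemma mem_Tup {L T : ℝ} (hT : Tbig ≤ T) (hTL : T ≤ L) {l : List ℕ} :
    l ∈ Tup L T ↔ CellList L T l := by
  simp only [Tup, Finset.mem_image, Finset.mem_sigma, Finset.mem_filter, Finset.mem_range]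
  constructor
  · rintro ⟨⟨⟨k, n⟩, P⟩, ⟨⟨-, hn⟩, hP, hN⟩, rfl⟩
    exact ⟨k, n, hn, P, hP, hN, rfl⟩
  · rintro ⟨k, n, hn, P, hP, hN, rfl⟩
    exact ⟨⟨⟨k, n⟩, P⟩, ⟨⟨Nat.lt_succ_of_le (Reg_short hT hTL (by norm_num) (mem_Lat.1 hn).2), hn⟩,
      hP, hN⟩, rfl⟩

lemma Tup_sum {L T : ℝ} :
    ∑ l ∈ Tup L T, (1 : ℝ) / pval l = ∑ k ∈ Finset.range (Kb L + 1), ∑ n ∈ Lat L T (-1) k,
      ∑ P ∈ (cellTuples n).filter (fun P => ∀ j, Normal (P j)),
        ∏ j, (1 : ℝ) / ((P j : ℝ) - 1) := by
  unfold Tup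
  rw [Finset.sum_image]
  · rw [Finset.sum_sigma, Finset.sum_sigma]
    refine Finset.sum_congr rfl fun k _ => Finset.sum_congr rfl fun n _ => ?_
    refine Finset.sum_congr rfl fun P hP => ?_
    simp only [pval, List.map_ofFn, List.prod_ofFn, Function.comp_apply]
    push_cast
    rw [one_div, ← Finset.prod_inv_distrib]
    refine Finset.prod_congr rfl fun j _ => ?_
    rw [Nat.cast_sub (mem_primesIn.1 (mem_cellTuples.1 (Finset.mem_filter.1 hP).1 j)).1.one_le,
      Nat.cast_one, one_div]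
  · rintro ⟨⟨k, n⟩, P⟩ hx ⟨⟨k', n'⟩, P'⟩ hx' he
    simp only [Finset.mem_coe, Finset.mem_sigma, Finset.mem_filter] at hx hx'
    simp only at he
    obtain ⟨rfl, hPP⟩ : k = k' ∧ HEq P P' := by
      have h := congrArg List.length he
      simp only [List.length_ofFn] at h
      subst h
      exact ⟨rfl, heq_of_eq (List.ofFn_injective he)⟩
    obtain rfl := eq_of_heq hPP
    have : n = n' := by
      funext j
      rw [← cellOf_eq (mem_cellTuples.1 hx.2.1 j), ← cellOf_eq (mem_cellTuples.1 hx'.2.1 j)]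
    subst this
    rfl

lemma sum_inv_sq_Icc {a : ℕ} (ha : 2 ≤ a) (b : ℕ) :
    ∑ c ∈ Finset.Icc a b, (1 : ℝ) / (c : ℝ) ^ 2 ≤ 1 / ((a : ℝ) - 1) := by
  have key : ∀ m, ∑ c ∈ Finset.Ico a (a + m), (1 : ℝ) / (c : ℝ) ^ 2
      ≤ 1 / ((a : ℝ) - 1) - 1 / ((a + m : ℕ) - 1 : ℝ) := by
    intro m
    induction m with
    | zero => simp
    | succ m ih =>
      rw [show a + (m + 1) = (a + m) + 1 by ring, Finset.sum_Ico_succ_top (Nat.le_add_right a m)]
      set c : ℝ := ((a + m : ℕ) : ℝ) with hc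
      have h2 : (2 : ℝ) ≤ c := by rw [hc]; exact_mod_cast ha.trans (Nat.le_add_right a m)
      have h3 : 1 / c ^ 2 ≤ 1 / (c - 1) - 1 / c := by
        rw [div_sub_div _ _ (by linarith) (by linarith),
          div_le_div_iff₀ (by positivity) (by nlinarith)]
        nlinarith
      rw [Nat.cast_succ, ← hc, add_sub_cancel_right]
      linarith
  rcases le_or_gt a b with hab | hab
  · have e : Finset.Icc a b = Finset.Ico a (a + (b + 1 - a)) := by
      ext c; simp; omega
    rw [e]
    refine (key _).trans (sub_le_self _ ?_)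
    rw [show a + (b + 1 - a) = b + 1 by omega]
    push_cast
    exact div_nonneg zero_le_one (by simp)
  · rw [Finset.Icc_eq_empty (by omega), Finset.sum_empty]
    have : (2 : ℝ) ≤ a := by exact_mod_cast ha
    exact div_nonneg zero_le_one (by linarith)

lemma exp_Del_le {c : ℝ} (hc : 1 ≤ c) : exp (-Del c / 16) ≤ 24 * 16 ^ 4 * (1 / c ^ 2) := by
  have hD : 0 ≤ Del c := Del_nonneg (by linarith)
  have h := pow_div_factorial_le_exp (Del c / 16) (by positivity) 4
  rw [show ((Nat.factorial 4 : ℕ) : ℝ) = 24 by norm_num [Nat.factorial]] at h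
  have h1 : c ^ 2 ≤ Del c ^ 4 := by
    unfold Del
    rw [← rpow_natCast (c ^ (3 / 4 : ℝ)) 4, ← rpow_mul (by linarith), ← rpow_natCast c 2]
    exact rpow_le_rpow_of_exponent_le hc (by norm_num)
  rw [neg_div, exp_neg, inv_le_iff_one_le_mul₀ (exp_pos _)]
  have h2 : 1 ≤ 24 * 16 ^ 4 * (1 / c ^ 2) * ((Del c / 16) ^ 4 / 24) := by
    rw [show 24 * 16 ^ 4 * (1 / c ^ 2) * ((Del c / 16) ^ 4 / 24) = Del c ^ 4 / c ^ 2 by ring,
      one_le_div (by positivity)]
    exact h1
  exact h2.trans (mul_le_mul_of_nonneg_left h (by positivity))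

lemma mem_drop_le {l : List ℕ} (hd : l.Pairwise fun p q => q < p) {i : ℕ} (hi : i < l.length)
    {p : ℕ} (hp : p ∈ l.drop i) : p ≤ l.getD i 0 := by
  rw [List.drop_eq_getElem_cons hi] at hp
  rw [List.getD_eq_getElem _ _ hi]
  rcases List.mem_cons.1 hp with rfl | hp
  · exact le_rfl
  · have := hd.sublist (List.drop_sublist i l)
    rw [List.drop_eq_getElem_cons hi] at this
    exact ((List.pairwise_cons.1 this).1 p hp).le

lemma CellList.repOK {L T : ℝ} {l : List ℕ} (hT : Tbig ≤ T) (h : CellList L T l) {i : ℕ}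
    (hi : i < l.length) {c : ℕ} (hc : cellOf (l.getD i 0) ≤ c) :
    RepOK (c : ℝ) 1 ⟨l.drop i, 1⟩ := by
  have hmem : l.getD i 0 ∈ l := by rw [List.getD_eq_getElem _ _ hi]; exact List.getElem_mem hi
  refine ⟨by simp; omega, (h.pairwise hT).sublist (List.drop_sublist i l), ?_, fun p hp => ?_,
    smooth_one _⟩
  · have h1 := (h.drop hT hi).length_le hT (h.gt hmem).2
    have h2 : Kb (cellOf (l.getD i 0) : ℝ) ≤ Kb (c : ℝ) :=
      Kb_mono (Nat.cast_nonneg _) (by exact_mod_cast hc)
    simp only [List.length_drop] at h1 ⊢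
    omega
  · have hpl := List.mem_of_mem_drop hp
    refine ⟨(h.prime hpl).1, (h.prime hpl).2, ?_, ?_⟩
    · linarith [(h.gt hpl).1, one_le_Tbig]
    · have h1 := sc_mono (h.prime hpl).1.two_le (mem_drop_le (h.pairwise hT) hi hp)
      have h2 := (h.cell_lt hmem).2
      have h3 : (cellOf (l.getD i 0) : ℝ) ≤ c := by exact_mod_cast hc
      linarith

theorem main_mass_lower : ∃ T0 : ℝ, ∀ T : ℝ, T0 ≤ T → ∃ U : ℝ, ∀ L : ℝ, U ≤ L →
    (latSum L T (-1) : ℝ) ≤ 4 * Smain L := by
  obtain ⟨cN, UN, hcN, habn⟩ := abn_recip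
  obtain ⟨Tge, hge⟩ := cell_sum_ge Normal cN hcN UN habn
  obtain ⟨Tle, hle⟩ := cell_sum_le
  obtain ⟨UC, hcoll⟩ := coll_recip
  obtain ⟨UK, hUK⟩ := eventually_atTop.1
    ((eventually_Kb_cost (show (0 : ℝ) < 3 / 4 by norm_num) 1 1).and
      ((tendsto_rpow_atTop (show (0 : ℝ) < 3 / 4 by norm_num)).eventually_ge_atTop 8))
  set A : ℝ := 24 * 16 ^ 4 with hA
  refine ⟨max (max Tge Tle) (max UC (max (2 * Tbig) (8 * A + 3))), fun T hT =>
    ⟨max T UK, fun L hL => ?_⟩⟩
  simp only [max_le_iff] at hT hL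
  obtain ⟨⟨hTge, hTle⟩, hTC, hT2, hTA⟩ := hT
  obtain ⟨hTL, hLK⟩ := hL
  have hT0 := Tbig_pos
  have hT1 : Tbig ≤ T := by linarith
  have hT' : 1 ≤ T := one_le_Tbig.trans hT1
  obtain ⟨hKb, hD8⟩ := hUK L hLK
  have hD8' : 8 ≤ Del L := hD8
  have hK : (Kb L : ℝ) ≤ exp (3 / 4 * Del L - 1) := by
    have h1 : (Kb L : ℝ) ≤ Del L := by
      have : 1 * ((Kb L : ℝ) + 3) ^ 1 ≤ Del L := hKb
      linarith
    have h2 := quadratic_le_exp_of_nonneg (show 0 ≤ 3 / 4 * Del L - 1 by linarith)
    nlinarith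
  -- weight of all cell lists
  have hlat : ∀ k, ∀ n ∈ Lat L T (-1) k, n ∈ Lat L T 16 k := fun k n hn =>
    mem_Lat_of_Reg hT1 hTL (by norm_num)
      (Reg_mono (by norm_num) le_rfl (by linarith) hTL (mem_Lat.1 hn).2)
  have hW1 : (latSum L T (-1) : ℝ) ≤ 2 * ∑ l ∈ Tup L T, (1 : ℝ) / pval l := by
    rw [Tup_sum, latSum, Finset.mul_sum]
    push_cast
    refine Finset.sum_le_sum fun k _ => ?_
    rw [Finset.mul_sum, Finset.card_eq_sum_ones]
    push_cast
    refine Finset.sum_le_sum fun n hn => ?_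
    linarith [hge L T hTge hTL k n (hlat k n hn)]
  have hW2 : ∑ l ∈ Tup L T, (1 : ℝ) / pval l ≤ 2 * (latSum L T (-1) : ℝ) := by
    rw [Tup_sum, latSum]
    push_cast
    rw [Finset.mul_sum]
    refine Finset.sum_le_sum fun k _ => ?_
    rw [Finset.card_eq_sum_ones]
    push_cast
    rw [Finset.mul_sum]
    refine Finset.sum_le_sum fun n hn => ?_
    rw [mul_one]
    refine le_trans ?_ (hle L T hTle hTL k n (hlat k n hn))
    refine Finset.sum_le_sum_of_subset_of_nonneg (Finset.filter_subset _ _) fun P hP _ =>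
      Finset.prod_nonneg fun j _ => ?_
    have : (2 : ℝ) ≤ P j := by exact_mod_cast (mem_primesIn.1 (mem_cellTuples.1 hP j)).1.two_le
    exact div_nonneg zero_le_one (by linarith)
  -- lists with a smaller competitor of the same value
  set D : Finset (List ℕ) := (Tup L T).filter fun l => ∃ l' ∈ Tup L T, ∃ i, pval l = pval l' ∧
    i < l.length ∧ i < l'.length ∧ l.take i = l'.take i ∧ l'.getD i 0 < l.getD i 0 with hDdef
  have hmem : ∀ l, l ∈ Tup L T ↔ CellList L T l := fun l => mem_Tup hT1 hTL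
  have hD : ∀ l ∈ D, ∃ l' : List ℕ, ∃ i, CellList L T l' ∧ pval l = pval l' ∧
      i < l.length ∧ i < l'.length ∧ l.take i = l'.take i ∧ l'.getD i 0 < l.getD i 0 := by
    intro l hl
    obtain ⟨l', hl', i, h⟩ := (Finset.mem_filter.1 hl).2
    exact ⟨l', i, (hmem l').1 hl', h⟩
  choose! comp idx hcomp using hD
  set key : List ℕ → List ℕ × ℕ := fun l => (l.take (idx l), cellOf (l.getD (idx l) 0))
  set K : Finset (List ℕ × ℕ) := Tup L T ×ˢ Finset.Icc ⌈T⌉₊ ⌈3 * L⌉₊
  have hkey : ∀ l ∈ D, key l ∈ K := by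
    intro l hl
    obtain ⟨-, -, hi, -⟩ := hcomp l hl
    have hcl := (hmem l).1 (Finset.mem_filter.1 hl).1
    have hm : l.getD (idx l) 0 ∈ l := by
      rw [List.getD_eq_getElem _ _ hi]; exact List.getElem_mem hi
    refine Finset.mem_product.2 ⟨(hmem _).2 (hcl.take hTL hT1 _), Finset.mem_Icc.2 ⟨?_, ?_⟩⟩
    · exact Nat.ceil_le.2 (hcl.gt hm).2
    · have h1 := (hcl.cell_lt hm).1
      have h2 := hcl.le_top hT1 hm
      have h3 : (cellOf (l.getD (idx l) 0) : ℝ) ≤ (⌈3 * L⌉₊ : ℝ) := by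
        refine le_trans ?_ (Nat.le_ceil _)
        linarith
      exact_mod_cast h3
  have hfib : ∀ x ∈ K, ∑ l ∈ D.filter (fun l => key l = x), (1 : ℝ) / pval l
      ≤ 1 / (pval x.1 : ℝ) * exp (-Del (x.2 : ℝ) / 16) := by
    intro x hx
    set F := D.filter fun l => key l = x
    set enc : List ℕ → Rep × Rep := fun l => (⟨l.drop (idx l), 1⟩, ⟨(comp l).drop (idx l), 1⟩)
    have hc : T ≤ (x.2 : ℝ) := by
      have := (Finset.mem_Icc.1 (Finset.mem_product.1 hx).2).1
      exact (Nat.le_ceil T).trans (by exact_mod_cast this)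
    have hinj : Set.InjOn enc F := by
      intro a ha b hb hab
      have ha' := (Finset.mem_filter.1 ha).2
      have hb' := (Finset.mem_filter.1 hb).2
      have h1 : a.take (idx a) = b.take (idx b) := congrArg Prod.fst (ha'.trans hb'.symm)
      have h2 : a.drop (idx a) = b.drop (idx b) := congrArg (fun z => z.1.ps) hab
      rw [← List.take_append_drop (idx a) a, h1, h2, List.take_append_drop]
    have hpair : ∀ z ∈ F.image enc, CollPair (x.2 : ℝ) 1 z := by
      intro z hz
      obtain ⟨l, hl, rfl⟩ := Finset.mem_image.1 hz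
      obtain ⟨hlD, hlx⟩ := Finset.mem_filter.1 hl
      obtain ⟨hc', hval, hi, hi', htake, hlt⟩ := hcomp l hlD
      have hcl := (hmem l).1 (Finset.mem_filter.1 hlD).1
      have hxc : x.2 = cellOf (l.getD (idx l) 0) := (congrArg Prod.snd hlx).symm
      have hm : l.getD (idx l) 0 ∈ l := by
        rw [List.getD_eq_getElem _ _ hi]; exact List.getElem_mem hi
      have hm' : (comp l).getD (idx l) 0 ∈ comp l := by
        rw [List.getD_eq_getElem _ _ hi']; exact List.getElem_mem hi'
      have hhead : ∀ (t : List ℕ) (j : ℕ), j < t.length →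
          (t.drop j).headI = t.getD j 0 ∧ (t.drop j).tail = t.drop (j + 1) := by
        intro t j hj
        rw [List.drop_eq_getElem_cons hj, List.getD_eq_getElem _ _ hj]
        exact ⟨rfl, rfl⟩
      refine ⟨hcl.repOK hT1 hi hxc.ge, hc'.repOK hT1 hi' ?_, ?_, ?_, ?_, ?_⟩
      · rw [hxc]
        have := sc_mono (hc'.prime hm').1.two_le hlt.le
        unfold cellOf
        have := Nat.ceil_le_ceil this
        omega
      · show pval (l.drop (idx l)) * 1 = pval ((comp l).drop (idx l)) * 1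
        rw [pval_take_drop l (idx l), pval_take_drop (comp l) (idx l), htake] at hval
        have hpos : 0 < pval ((comp l).take (idx l)) := by
          rcases Nat.eq_zero_or_pos (pval ((comp l).take (idx l))) with h0 | h0
          · exfalso
            simp only [pval, List.prod_eq_zero_iff, List.mem_map] at h0
            obtain ⟨p, hp, hp0⟩ := h0
            have := hc'.three_le hT' (List.mem_of_mem_take hp)
            omega
          · exact h0
        rw [Nat.eq_of_mul_eq_mul_left hpos hval]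
      · rw [(hhead _ _ hi).1, (hhead _ _ hi').1]
        exact hlt
      · rw [(hhead _ _ hi).1, hxc]
        have h1 := (hcl.cell_lt hm).1
        have h2 : 0 ≤ log ((cellOf (l.getD (idx l) 0) : ℝ) + 2) :=
          log_nonneg (by linarith [Nat.cast_nonneg (α := ℝ) (cellOf (l.getD (idx l) 0))])
        linarith
      · rw [(hhead _ _ hi).2, hxc]
        have h1 := (hcl.drop hT1 hi).ent hT2 (hcl.gt hm).2
        have h2 := Del_nonneg (Nat.cast_nonneg (cellOf (l.getD (idx l) 0)) : (0 : ℝ) ≤ _)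
        linarith
    have hY : (1 : ℝ) ≤ 2 * Y0 (x.2 : ℝ) := by
      have : (1 : ℝ) ≤ Y0 (x.2 : ℝ) := one_le_rpow (by linarith) (by norm_num)
      linarith
    have h := hcoll (x.2 : ℝ) 1 (hTC.trans hc) le_rfl hY (F.image enc) hpair
    rw [Finset.sum_image hinj] at h
    refine le_trans (le_of_eq ?_) (mul_le_mul_of_nonneg_left h (by positivity))
    rw [Finset.mul_sum]
    refine Finset.sum_congr rfl fun l hl => ?_
    have hx1 : l.take (idx l) = x.1 := congrArg Prod.fst (Finset.mem_filter.1 hl).2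
    show (1 : ℝ) / pval l = 1 / (pval x.1 : ℝ) * (1 / ((pval (l.drop (idx l)) * 1 : ℕ) : ℝ))
    rw [mul_one, pval_take_drop l (idx l), hx1, Nat.cast_mul, one_div_mul_one_div]
  have hDsum : ∑ l ∈ D, (1 : ℝ) / pval l ≤ (latSum L T (-1) : ℝ) / 4 := by
    rw [← Finset.sum_fiberwise_of_maps_to hkey]
    refine (Finset.sum_le_sum hfib).trans ?_
    rw [Finset.sum_product]
    dsimp only
    rw [← Finset.sum_mul_sum]
    have h1 : ∑ c ∈ Finset.Icc ⌈T⌉₊ ⌈3 * L⌉₊, exp (-Del (c : ℝ) / 16) ≤ A * (1 / (T - 1)) := by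
      refine (Finset.sum_le_sum fun c hc => exp_Del_le ?_).trans ?_
      · exact hT'.trans ((Nat.le_ceil T).trans (by exact_mod_cast (Finset.mem_Icc.1 hc).1))
      rw [← Finset.mul_sum]
      refine mul_le_mul_of_nonneg_left ?_ (by norm_num)
      have h2 : 2 ≤ ⌈T⌉₊ := by
        have : (1 : ℝ) < T := by
          have : (0 : ℝ) < A := by norm_num [hA]
          linarith
        exact Nat.lt_ceil.2 (by exact_mod_cast this)
      refine (sum_inv_sq_Icc h2 _).trans ?_
      exact one_div_le_one_div_of_le (by linarith [show (0:ℝ) < A by norm_num [hA]])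
        (by linarith [Nat.le_ceil T])
    have hA0 : (0 : ℝ) < A := by norm_num [hA]
    have h3 : A * (1 / (T - 1)) ≤ 1 / 8 := by
      rw [mul_one_div, div_le_div_iff₀ (by linarith) (by norm_num)]
      linarith
    have hlat0 : (0 : ℝ) ≤ latSum L T (-1) := Nat.cast_nonneg _
    calc (∑ l ∈ Tup L T, 1 / (pval l : ℝ)) * ∑ c ∈ Finset.Icc ⌈T⌉₊ ⌈3 * L⌉₊, exp (-Del (c : ℝ) / 16)
        ≤ (2 * (latSum L T (-1) : ℝ)) * (1 / 8) :=
          mul_le_mul hW2 (h1.trans h3) (Finset.sum_nonneg fun _ _ => exp_nonneg _) (by positivity)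
      _ = _ := by ring
  -- the remaining lists have distinct values
  have hinj : Set.InjOn pval ((Tup L T).filter fun l => l ∉ D : Finset (List ℕ)) := by
    intro a ha b hb hab
    obtain ⟨haT, haD⟩ := Finset.mem_filter.1 ha
    obtain ⟨hbT, hbD⟩ := Finset.mem_filter.1 hb
    by_contra hne
    obtain ⟨i, h1, h2, h3, h4⟩ := first_diff (fun p => ((hmem a).1 haT).three_le hT')
      (fun p => ((hmem b).1 hbT).three_le hT') hab hne
    rcases lt_or_gt_of_ne h4 with h | h
    · exact hbD (Finset.mem_filter.2 ⟨hbT, a, haT, i, hab.symm, h2, h1, h3.symm, h⟩)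
    · exact haD (Finset.mem_filter.2 ⟨haT, b, hbT, i, hab, h1, h2, h3, h⟩)
  have hmain : ∑ l ∈ (Tup L T).filter (fun l => l ∉ D), (1 : ℝ) / pval l ≤ Smain L := by
    rw [← Finset.sum_image hinj (f := fun a : ℕ => (1 : ℝ) / a)]
    refine Finset.sum_le_sum_of_subset_of_nonneg (fun a ha => ?_) fun a _ _ => by positivity
    obtain ⟨l, hl, rfl⟩ := Finset.mem_image.1 ha
    exact ((hmem l).1 (Finset.mem_filter.1 hl).1).mem_Amain hT2 hTL hK (by linarith)
  have hsplit := Finset.sum_filter_add_sum_filter_not (Tup L T) (fun l => l ∈ D)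
    (fun l => (1 : ℝ) / pval l)
  have hDe : (Tup L T).filter (fun l => l ∈ D) = D := by
    ext l
    simp only [Finset.mem_filter, and_iff_right_iff_imp]
    exact fun hl => (Finset.mem_filter.1 hl).1
  rw [hDe] at hsplit
  linarith

end Vale.Agent.P031
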