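import Vale.Agent.P031.MainDefs
import Vale.Agent.P031.GBound
import Vale.Agent.P031.Region
import Vale.Agent.P031.Cells

/-!
# Totient values: the window has negligible mass

Every member of the window is a product of `∏ (p - 1)` over a tuple of good nodes, whose floor
vector lies in the lattice window, and a value of bounded total mass: either a totient of a
`T`-smooth integer or a totient below a bad node, which costs `exp (-j ^ (1/64))` at scale `j`.
-/

open Finset Real Filter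
open scoped Classical

noncomputable section

namespace Vale.Agent.P031

/-- Totients of integers whose top node, in the cell above `j`, is bad. -/
def Gbad (T : ℝ) (N j : ℕ) : Finset ℕ :=
  (Finset.Icc 1 N).filter fun b => T - 1 ≤ (j : ℝ) ∧
    ∃ r, Smooth ((j : ℝ) + 1) r ∧ Nat.totient r = b ∧ ∃ p ∈ bigs (j : ℝ) r, BadNode r p

/-- The values below bad nodes, together, have bounded mass. -/
lemma bad_tail : ∃ T1 : ℝ, ∀ T : ℝ, T1 ≤ T → ∀ N J : ℕ,
    ∑ j ∈ Finset.range J, ∑ b ∈ Gbad T N j, (1 : ℝ) / b ≤ ∑' j : ℕ, (1 : ℝ) / ((j : ℝ) + 1) ^ 2 := by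
  obtain ⟨Ub, hb⟩ := bad_mass
  obtain ⟨A, hA, hG⟩ := Gsum_bound
  obtain ⟨U, hU⟩ := eventually_atTop.1
    ((polylog_le_rpow 2 (show (0 : ℝ) < 1 / 64 by norm_num) (4 * A + 2)).and
      (eventually_ge_atTop (1 : ℝ)))
  refine ⟨max Ub U + 1, fun T hT N J => ?_⟩
  have hs : Summable fun j : ℕ => (1 : ℝ) / ((j : ℝ) + 1) ^ 2 := by
    have h := (summable_nat_add_iff (f := fun j : ℕ => (1 : ℝ) / (j : ℝ) ^ 2) 1).2
      (Real.summable_one_div_nat_pow.2 one_lt_two)
    simpa using h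
  refine (Finset.sum_le_sum fun j _ => ?_).trans (hs.sum_le_tsum _ fun j _ => by positivity)
  by_cases hj : T - 1 ≤ (j : ℝ)
  · have hjb : Ub ≤ (j : ℝ) := by linarith [le_max_left Ub U]
    obtain ⟨h1, hj1⟩ := hU (j : ℝ) (by linarith [le_max_right Ub U])
    refine (hb j ((j : ℝ) + 1) hjb N (Gbad T N j) fun a ha => ?_).trans ?_
    · simp only [Gbad, Finset.mem_filter, Finset.mem_Icc] at ha
      exact ⟨ha.1.2, ha.2.2⟩
    refine (mul_le_mul_of_nonneg_left (hG _ (by linarith) N) (exp_nonneg _)).trans ?_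
    have hl1 := log_ge_one (show (0 : ℝ) ≤ j by linarith)
    have hl4 : log ((j : ℝ) + 1 + 3) ≤ 2 * log ((j : ℝ) + 3) := by
      rw [show (2 : ℝ) * log ((j : ℝ) + 3) = log (((j : ℝ) + 3) ^ 2) by rw [log_pow]; norm_num]
      exact log_le_log (by linarith) (by nlinarith)
    have hl0 : 0 ≤ log ((j : ℝ) + 1 + 3) := log_nonneg (by linarith)
    have hlj : log ((j : ℝ) + 1) ≤ log ((j : ℝ) + 3) := log_le_log (by linarith) (by linarith)
    have hsq : log ((j : ℝ) + 1 + 3) ^ 2 ≤ (2 * log ((j : ℝ) + 3)) ^ 2 :=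
      pow_le_pow_left₀ hl0 hl4 2
    have hA2 := mul_le_mul_of_nonneg_left hsq hA.le
    rw [← exp_add, show (1 : ℝ) / ((j : ℝ) + 1) ^ 2 = exp (-(2 * log ((j : ℝ) + 1))) by
      rw [exp_neg, show (2 : ℝ) * log ((j : ℝ) + 1) = ((2 : ℕ) : ℝ) * log ((j : ℝ) + 1) by norm_num,
        exp_nat_mul, exp_log (by linarith), one_div]]
    refine exp_le_exp.2 ?_
    nlinarith
  · rw [Finset.eq_empty_of_forall_notMem (s := Gbad T N j) fun b hb' => hj
      (Finset.mem_filter.1 hb').2.1, Finset.sum_empty]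
    positivity

/-- Levels missing from the truncation are small. -/
lemma lv_bigs_le_add {Y Z : ℝ} (hY : 0 ≤ Y) (hYZ : Y ≤ Z) (n i : ℕ) :
    lv (bigs Y n) i ≤ lv (bigs Z n) i + Z := by
  have hZ : 0 ≤ Z := hY.trans hYZ
  have hnn : 0 ≤ lv (bigs Z n) i := lv_nonneg (fun q hq => hZ.trans (mem_bigs.1 hq).2.2.2.le) i
  obtain ⟨m, hm⟩ := bigs_eq_take hYZ n
  by_cases him : i < m
  · rw [hm, lv_take, if_pos him]; linarith
  by_contra hc
  have hbig : Z < lv (bigs Y n) i := by linarith [not_le.1 hc]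
  by_cases hi : i < (bigs Y n).length
  · rw [lv_of_lt hi] at hbig
    obtain ⟨h1, h2, h3, -⟩ := mem_bigs.1 (bigs_getD hi)
    have hmem : (bigs Y n).getD i 0 ∈ (bigs Y n).take m := hm ▸ mem_bigs.2 ⟨h1, h2, h3, hbig⟩
    obtain ⟨t, ht, hte⟩ := List.getElem_of_mem hmem
    rw [List.getElem_take, List.getD_eq_getElem _ _ hi] at hte
    have hnd : (bigs Y n).Nodup := (bigs_pairwise Y n).imp fun hab => (ne_of_lt hab).symm
    have := hnd.getElem_inj_iff.1 hte
    simp only [List.length_take] at ht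
    omega
  · rw [lv_of_ge (not_lt.1 hi)] at hbig
    linarith

lemma sum_alpha_le_sq (k : ℕ) : ∑ l ∈ Finset.range k, alpha (l + 1) ≤ ((k : ℝ) + 1) ^ 2 := by
  calc ∑ l ∈ Finset.range k, alpha (l + 1) ≤ ∑ _l ∈ Finset.range k, ((k : ℝ) + 1) := by
        refine Finset.sum_le_sum fun l hl => ?_
        refine (alpha_le_log _).trans ((log_le_sub_one_of_pos (by positivity)).trans ?_)
        have : (l : ℝ) + 1 ≤ k := by exact_mod_cast Finset.mem_range.1 hl
        push_cast; linarith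
    _ ≤ _ := by
        rw [Finset.sum_const, Finset.card_range, nsmul_eq_mul]
        nlinarith [Nat.cast_nonneg (α := ℝ) k]

lemma sufE_eq {k : ℕ} (f : ℕ → ℝ) (i : Fin k) :
    sufE (fun l : Fin k => f l) i
      = ∑ j ∈ Finset.range (k - i), alpha (j + 1) * f ((i : ℕ) + j) := by
  rw [sufE]
  simp only [← Fin.val_fin_le]
  rw [Fin.sum_univ_eq_sum_range (fun l => if (i : ℕ) ≤ l then alpha (l - i + 1) * f l else 0),
    ← Finset.sum_filter, show (Finset.range k).filter (fun l => (i : ℕ) ≤ l)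
      = Finset.Ico (i : ℕ) k by
      ext l; simp [and_comm],
    Finset.sum_Ico_eq_sum_range]
  refine Finset.sum_congr rfl fun j _ => ?_
  rw [Nat.add_sub_cancel_left]

lemma Kb_succ_le {L : ℝ} (hL : 1 ≤ L) : Kb (L + 1) ≤ Kb L + 10 := by
  have h1 : log (L + 1 + 2) ≤ log (L + 2) + 1 / 2 := by
    have h := log_le_sub_one_of_pos (show 0 < (L + 1 + 2) / (L + 2) by positivity)
    rw [log_div (by linarith) (by linarith)] at h
    have h2 : (L + 1 + 2) / (L + 2) - 1 ≤ 1 / 2 := by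
      rw [div_sub_one (by linarith), div_le_iff₀ (by linarith)]; linarith
    linarith
  have h3 := Nat.le_ceil (20 * log (L + 2))
  have h4 : ⌈20 * log (L + 1 + 2)⌉₊ ≤ ⌈20 * log (L + 2)⌉₊ + 10 := by
    rw [Nat.ceil_le]; push_cast; linarith
  simp only [Kb]; omega

/-- The levels of the good nodes of a window element give a lattice point of the window. -/
lemma window_cell : ∃ T1 : ℝ, ∀ T : ℝ, T1 ≤ T → ∃ U : ℝ, ∀ L : ℝ, U ≤ L → ∀ Y : ℝ, T ≤ Y →
    Y ≤ Y0 L → ∀ n : ℕ, Smooth (L + 1) n → GoodAbove Y n →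
    EntS (bigs (Y0 L) n) ≤ L + 2 * Del L →
    (L - 3 * Del L < EntS (bigs (Y0 L) n) ∨ ∃ q ∈ bigs (Y0 L) n, L - 3 * Del L < sc q) →
    (bigs Y n).length ≤ Kb L ∧
    ∃ m ∈ (Lat L (T / 2) 16 (bigs Y n).length).filter (fun m =>
        L - 8 * Del L ≤ EntF (fun l => (m l : ℝ)) ∨
          ∃ l : Fin (bigs Y n).length, (l : ℕ) = 0 ∧ L - 8 * Del L ≤ (m l : ℝ)),
      (fun l => (bigs Y n).get l) ∈ cellTuples m := by
  obtain ⟨U1, hU1, hshort⟩ := bigs_short
  obtain ⟨U2, -, hsuf⟩ := node_suffix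
  obtain ⟨U3, hU3⟩ := eventually_atTop.1
    ((eventually_Kb_cost (show (0 : ℝ) < 9 / 16 by norm_num) 1 2).and
      ((eventually_Kb_cost (show (0 : ℝ) < 3 / 4 by norm_num) 1 2).and
        (eventually_Y0_le (show (0 : ℝ) < 1 by norm_num))))
  refine ⟨max (max U1 U2) 4, fun T hT => ⟨max U3 1, fun L hL Y hY hYL n hn hgood hent hwin => ?_⟩⟩
  simp only [max_le_iff] at hT hL
  obtain ⟨⟨hT1, hT2⟩, hT4⟩ := hT
  obtain ⟨hL3, hL1⟩ := hL
  obtain ⟨hK1, hK2, hY0L⟩ := hU3 L hL3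
  rw [one_mul] at hK1 hK2 hY0L
  have hY4 : 4 ≤ Y := hT4.trans hY
  have hY0n : 0 ≤ Y0 L := Y0_nonneg (by linarith)
  have hDL : 1 ≤ Del L := one_le_rpow hL1 (by norm_num)
  have hK2' : ((Kb L : ℝ) + 3) ^ 2 ≤ Del L := hK2
  set l := bigs Y n with hl
  set y := lv l with hy
  have hinit : GoodInit n l := fun i hi => hgood _ (bigs_getD (lt_trans (Nat.lt_succ_self i) hi))
  have hlen : l.length ≤ Kb L := by
    have h := hshort Y (L + 1) (hT1.trans hY) (by linarith) n hinit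
      fun q hq => hn.2 q (mem_bigs.1 hq).1 (mem_bigs.1 hq).2.1
    have h' := Kb_succ_le hL1
    have : l.length + 10 ≤ Kb (L + 1) := h
    omega
  refine ⟨hlen, ?_⟩
  set f : ℕ → ℝ := fun i => ((⌈y i⌉₊ - 1 : ℕ) : ℝ) with hf
  have hylo : ∀ i < l.length, Y < y i := fun i hi => lv_bigs_gt hi
  have hcast : ∀ i < l.length, f i = (⌈y i⌉₊ : ℝ) - 1 := fun i hi => by
    have hc : 1 ≤ ⌈y i⌉₊ := Nat.one_le_ceil_iff.2 (by linarith [hylo i hi])
    simp only [hf]; rw [Nat.cast_sub hc, Nat.cast_one]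
  have hflt : ∀ i < l.length, f i < y i ∧ y i ≤ f i + 1 := fun i hi => by
    have h1 := Nat.le_ceil (y i)
    have h2 := Nat.ceil_lt_add_one (show 0 ≤ y i by linarith [hylo i hi])
    rw [hcast i hi]; exact ⟨by linarith, by linarith⟩
  have hyup : ∀ i < l.length, y i ≤ L + 1 := fun i hi => by
    rw [hy, lv_of_lt hi]
    exact hn.2 _ (mem_bigs.1 (bigs_getD hi)).1 (mem_bigs.1 (bigs_getD hi)).2.1
  have hanti : ∀ i j, i ≤ j → y j ≤ y i := fun i j hij => lv_bigs_anti (by linarith) hij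
  have hfanti : ∀ i j, i ≤ j → f j ≤ f i := fun i j hij =>
    Nat.cast_le.2 (Nat.sub_le_sub_right (Nat.ceil_mono (hanti i j hij)) 1)
  have hEall : ∑ j ∈ Finset.range l.length, alpha (j + 1) * y j ≤ L + 3 * Del L := by
    set M := l.length + (bigs (Y0 L) n).length
    have h1 := EntS_eq (l := bigs (Y0 L) n) (N := M) (Nat.le_add_left _ _)
    have h2 : ∑ j ∈ Finset.range l.length, alpha (j + 1) * y j
        ≤ ∑ j ∈ Finset.range l.length, alpha (j + 1) * lv (bigs (Y0 L) n) j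
          + ∑ j ∈ Finset.range l.length, alpha (j + 1) * Y0 L := by
      rw [← Finset.sum_add_distrib]
      refine Finset.sum_le_sum fun j _ => ?_
      rw [← mul_add]
      exact mul_le_mul_of_nonneg_left (lv_bigs_le_add (by linarith) hYL n j) (alpha_nonneg j)
    have h3 : ∑ j ∈ Finset.range l.length, alpha (j + 1) * lv (bigs (Y0 L) n) j
        ≤ EntS (bigs (Y0 L) n) := by
      rw [h1]
      exact Finset.sum_le_sum_of_subset_of_nonneg
        (Finset.range_subset_range.2 (Nat.le_add_right _ _)) fun j _ _ => mul_nonneg (alpha_nonneg j)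
          (lv_nonneg (fun q hq => hY0n.trans (mem_bigs.1 hq).2.2.2.le) j)
    have h4 : ∑ j ∈ Finset.range l.length, alpha (j + 1) * Y0 L ≤ Del L := by
      rw [← Finset.sum_mul]
      have hk : ((l.length : ℝ) + 1) ^ 2 ≤ ((Kb L : ℝ) + 3) ^ 2 := by
        gcongr
        linarith
      calc (∑ j ∈ Finset.range l.length, alpha (j + 1)) * Y0 L ≤ L ^ (9 / 16 : ℝ) * Y0 L :=
            mul_le_mul_of_nonneg_right ((sum_alpha_le_sq _).trans (hk.trans hK1)) hY0n
        _ = Del L := by rw [Y0, Del, ← rpow_add' (by linarith) (by norm_num)]; norm_num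
    linarith
  set m : Fin l.length → ℕ := fun i => ⌈y (i : ℕ)⌉₊ - 1 with hm
  have hmf : ∀ i : Fin l.length, ((m i : ℕ) : ℝ) = f i := fun i => rfl
  refine ⟨m, Finset.mem_filter.2 ⟨Finset.mem_filter.2 ⟨Fintype.mem_piFinset.2 fun i =>
    Finset.mem_range.2 ?_, ?_, ?_⟩, ?_⟩, Fintype.mem_piFinset.2 fun i => mem_primesIn.2 ?_⟩
  · have h1 : ⌈y (i : ℕ)⌉₊ ≤ ⌈3 * L⌉₊ := Nat.ceil_mono (by linarith [hyup i i.isLt])
    simp only [hm]; omega
  · intro i
    show T / 2 ≤ f i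
    linarith [(hflt i i.isLt).2, hylo i i.isLt]
  · intro i
    rw [show (fun i : Fin l.length => ((m i : ℕ) : ℝ)) = fun i : Fin l.length => f i from rfl,
      sufE_eq f i]
    by_cases hi : (i : ℕ) = 0
    · have hpar : par L (fun i : Fin l.length => f i) i = L := if_pos hi
      rw [hpar]
      refine ⟨by linarith [(hflt i i.isLt).1, hyup i i.isLt], ?_⟩
      simp only [hi, zero_add, Nat.sub_zero]
      calc ∑ j ∈ Finset.range l.length, alpha (j + 1) * f j
          ≤ ∑ j ∈ Finset.range l.length, alpha (j + 1) * y j := Finset.sum_le_sum fun j hj =>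
            mul_le_mul_of_nonneg_left (hflt j (Finset.mem_range.1 hj)).1.le (alpha_nonneg j)
        _ ≤ _ := by linarith
    · have hpar : par L (fun i : Fin l.length => f i) i = f ((i : ℕ) - 1) := if_neg hi
      rw [hpar]
      have hi1 : (i : ℕ) - 1 < l.length := by omega
      obtain ⟨hp1, hp2⟩ := hflt _ hi1
      have hfT : 1 ≤ f ((i : ℕ) - 1) := by linarith [hylo _ hi1]
      refine ⟨?_, ?_⟩
      · have := Del_nonneg (show (0 : ℝ) ≤ f ((i : ℕ) - 1) by linarith)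
        linarith [hfanti ((i : ℕ) - 1) i (Nat.sub_le _ _)]
      have hs := hsuf Y (hT2.trans hY) n ((i : ℕ) - 1) hinit
        (by rw [← hl]; omega) (l.length - i) (by rw [← hl]; omega)
      simp only [← hl, ← hy] at hs
      have hD : Del (y ((i : ℕ) - 1)) ≤ 2 * Del (f ((i : ℕ) - 1)) := by
        refine (Del_mono (by linarith [hylo _ hi1]) (show _ ≤ 2 * f ((i : ℕ) - 1) by linarith)).trans ?_
        rw [Del, Del, mul_rpow (by norm_num) (by linarith)]
        exact mul_le_mul_of_nonneg_right (rpow_le_self_of_one_le (by norm_num) (by norm_num))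
          (rpow_nonneg (by linarith) _)
      have hD1 : 1 ≤ Del (f ((i : ℕ) - 1)) := one_le_rpow hfT (by norm_num)
      calc ∑ j ∈ Finset.range (l.length - i), alpha (j + 1) * f ((i : ℕ) + j)
          ≤ ∑ j ∈ Finset.range (l.length - i), alpha (j + 1) * y ((i : ℕ) - 1 + 1 + j) := by
            refine Finset.sum_le_sum fun j hj => mul_le_mul_of_nonneg_left ?_ (alpha_nonneg j)
            have hj' := Finset.mem_range.1 hj
            rw [show (i : ℕ) - 1 + 1 + j = (i : ℕ) + j by omega]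
            exact (hflt _ (by omega)).1.le
        _ ≤ _ := hs
        _ ≤ _ := by linarith
  · rcases hwin with h | ⟨q, hq, hq'⟩
    · left
      rw [show (fun i : Fin l.length => ((m i : ℕ) : ℝ)) = fun i : Fin l.length => f i from rfl,
        EntF, Fin.sum_univ_eq_sum_range (fun i => alpha (i + 1) * f i)]
      have hle : EntS (bigs (Y0 L) n) ≤ ∑ j ∈ Finset.range l.length, alpha (j + 1) * y j := by
        obtain ⟨t, ht⟩ := bigs_eq_take hYL n
        rw [ht, hy, ← EntS_eq le_rfl]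
        exact EntS_take_le (fun q hq => by linarith [(mem_bigs.1 hq).2.2.2]) t
      have hy1 : ∑ j ∈ Finset.range l.length, alpha (j + 1) * y j
          ≤ ∑ j ∈ Finset.range l.length, alpha (j + 1) * f j
            + ∑ j ∈ Finset.range l.length, alpha (j + 1) := by
        rw [← Finset.sum_add_distrib]
        refine Finset.sum_le_sum fun j hj => ?_
        have := mul_le_mul_of_nonneg_left (hflt j (Finset.mem_range.1 hj)).2 (alpha_nonneg j)
        linarith
      have hk : ∑ j ∈ Finset.range l.length, alpha (j + 1) ≤ Del L :=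
        (sum_alpha_le_sq _).trans (le_trans (by gcongr; linarith) hK2')
      linarith
    · right
      obtain ⟨h1, h2, h3, h4⟩ := mem_bigs.1 hq
      have hql : q ∈ l := mem_bigs.2 ⟨h1, h2, h3, hYL.trans_lt h4⟩
      obtain ⟨t, ht, hte⟩ := List.getElem_of_mem hql
      have h0 : 0 < l.length := by omega
      refine ⟨⟨0, h0⟩, rfl, ?_⟩
      show L - 8 * Del L ≤ f 0
      have hyt : y t = sc q := by
        rw [hy, lv_of_lt ht, List.getD_eq_getElem _ _ ht, hte]
      linarith [(hflt 0 h0).2, hanti 0 t (Nat.zero_le t)]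
  · have hget : (l.get i : ℕ) = l.getD i 0 := by
      rw [List.getD_eq_getElem _ _ i.isLt]; rfl
    have hyi : y i = sc (l.get i) := by rw [hy, lv_of_lt i.isLt, hget]
    refine ⟨(mem_bigs.1 (List.get_mem l i)).1, ?_⟩
    rw [← hyi]
    exact hflt i i.isLt

/-- A window element splits at its first bad node. -/
lemma window_split {L T : ℝ} {N n : ℕ} (hT : 0 ≤ T) (hTL : T ≤ Y0 L)
    (hn : n ≠ 0) (hN : Nat.totient n ≤ N) (hgood : GoodAbove (Y0 L) n) :
    ∃ Y : ℝ, T ≤ Y ∧ Y ≤ Y0 L ∧ GoodAbove Y n ∧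
      ∃ b ∈ Gset T N ∪ (Finset.range (⌈Y0 L⌉₊ + 1)).biUnion (Gbad T N),
        Nat.totient n = (∏ i : Fin (bigs Y n).length, ((bigs Y n).get i - 1)) * b := by
  set P := (bigs T n).toFinset.filter fun p => BadNode n p with hP
  have main : ∀ Y : ℝ, T ≤ Y → GoodAbove Y n → ∃ r, r ∣ n ∧
      Nat.totient n = (∏ i : Fin (bigs Y n).length, ((bigs Y n).get i - 1)) * Nat.totient r ∧
      (∀ q : ℕ, q.Prime → q ∣ r → sc q ≤ Y) ∧ (∀ q : ℕ, q.Prime → q ∣ n → sc q ≤ Y → q ∣ r) ∧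
      n = (bigs Y n).prod * r ∧ Nat.totient r ≤ N ∧ r ≠ 0 := by
    intro Y hY hg
    have hd : (bigs Y n).Nodup := (bigs_pairwise Y n).imp fun hab => (ne_of_lt hab).symm
    obtain ⟨r, hrn, hval, hnot, hin, hprod⟩ := totient_split hn hd fun q hq =>
      ⟨(mem_bigs.1 hq).1, (mem_bigs.1 hq).2.1, fun hh => hg q hq (Or.inl (Or.inl hh))⟩
    have he : ((bigs Y n).map fun q => q - 1).prod
        = ∏ i : Fin (bigs Y n).length, ((bigs Y n).get i - 1) := by
      rw [← Fin.prod_univ_fun_getElem (bigs Y n) fun q => q - 1]; rfl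
    have hr0 : r ≠ 0 := fun h0 => hn (Nat.eq_zero_of_zero_dvd (h0 ▸ hrn))
    refine ⟨r, hrn, by rw [hval, he], fun q hq hqr => ?_, fun q hq hqn hqY => ?_, hprod, ?_, hr0⟩
    · by_contra hc
      exact hnot q (mem_bigs.2 ⟨hq, hqr.trans hrn, hn, not_le.1 hc⟩) hqr
    · exact hin q hq hqn fun hmem => absurd hqY (not_le.2 (mem_bigs.1 hmem).2.2.2)
    · exact (Nat.le_of_dvd (Nat.totient_pos.2 (Nat.pos_of_ne_zero hn))
        (Nat.totient_dvd_of_dvd hrn)).trans hN
  rcases P.eq_empty_or_nonempty with hempty | hne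
  · have hg : GoodAbove T n := fun p hp hbad =>
      Finset.notMem_empty p (hempty ▸ Finset.mem_filter.2 ⟨List.mem_toFinset.2 hp, hbad⟩)
    obtain ⟨r, -, hval, hsm, -, -, hrN, hr0⟩ := main T le_rfl hg
    exact ⟨T, le_rfl, hTL, hg, _, Finset.mem_union_left _ (totient_mem_Gset ⟨hr0, hsm⟩ hrN), hval⟩
  set p := P.max' hne with hpdef
  obtain ⟨hpl, hbad⟩ := Finset.mem_filter.1 (P.max'_mem hne)
  rw [List.mem_toFinset] at hpl
  obtain ⟨hp, hpn, -, hpT⟩ := mem_bigs.1 hpl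
  set Y := sc p with hY
  have hYL : Y ≤ Y0 L := not_lt.1 fun hc => hgood p (mem_bigs.2 ⟨hp, hpn, hn, hc⟩) hbad
  have hg : GoodAbove Y n := by
    intro q hq hqbad
    obtain ⟨h1, h2, h3, h4⟩ := mem_bigs.1 hq
    have hqP : q ∈ P := Finset.mem_filter.2
      ⟨List.mem_toFinset.2 (mem_bigs.2 ⟨h1, h2, h3, hpT.trans h4⟩), hqbad⟩
    exact absurd h4 (not_lt.2 (sc_mono h1.two_le (P.le_max' q hqP)))
  obtain ⟨r, hrn, hval, hsm, hin, hprod, hrN, hr0⟩ := main Y hpT.le hg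
  refine ⟨Y, hpT.le, hYL, hg, _, Finset.mem_union_right _ ?_, hval⟩
  set j := ⌈Y⌉₊ - 1 with hj
  have hY0 : 0 < Y := lt_of_le_of_lt hT hpT
  have hc1 : 1 ≤ ⌈Y⌉₊ := Nat.one_le_ceil_iff.2 hY0
  have hjr : (j : ℝ) = (⌈Y⌉₊ : ℝ) - 1 := by rw [hj, Nat.cast_sub hc1, Nat.cast_one]
  have hc2 := Nat.le_ceil Y
  have hc3 := Nat.ceil_lt_add_one hY0.le
  refine Finset.mem_biUnion.2 ⟨j, Finset.mem_range.2 ?_, Finset.mem_filter.2 ⟨Finset.mem_Icc.2
    ⟨Nat.totient_pos.2 (Nat.pos_of_ne_zero hr0), hrN⟩, by linarith, r,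
    ⟨hr0, fun q hq hqr => (hsm q hq hqr).trans (by linarith)⟩, rfl, p,
    mem_bigs.2 ⟨hp, hin p hp hpn le_rfl, hr0, by linarith⟩, ?_⟩⟩
  · have := Nat.ceil_mono hYL
    omega
  rcases hbad with h1 | h2
  · refine Or.inl (h1.imp (fun h => ?_) id)
    have hco : Nat.Coprime (p ^ 2) (bigs Y n).prod := by
      refine Nat.Coprime.pow_left 2 ((hp.coprime_iff_not_dvd).2 fun hd => ?_)
      obtain ⟨q, hq, hpq⟩ := (Prime.dvd_prod_iff hp.prime).1 hd
      obtain ⟨hq1, -, -, hq4⟩ := mem_bigs.1 hq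
      exact absurd hq4 (not_lt.2 ((Nat.prime_dvd_prime_iff_eq hp hq1).1 hpq ▸ le_rfl))
    exact hco.dvd_of_dvd_mul_left (hprod ▸ h)
  · refine Or.inr (lt_of_lt_of_eq h2 ?_)
    congr 1
    rw [below, below]
    congr 1
    refine desc_ext ((bigs_pairwise _ _).filter _) ((bigs_pairwise _ _).filter _) fun q => ?_
    simp only [List.mem_filter, mem_bigs, decide_eq_true_eq]
    constructor
    · rintro ⟨⟨h1, h2, -, h4⟩, h5⟩
      exact ⟨⟨h1, hin q h1 h2 (sc_mono h1.two_le h5.le), hr0, h4⟩, h5⟩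
    · rintro ⟨⟨h1, h2, -, h4⟩, h5⟩
      exact ⟨⟨h1, h2.trans hrn, hn, h4⟩, h5⟩

theorem window_upper : ∃ T0 : ℝ, ∀ T : ℝ, T0 ≤ T → ∃ M U : ℝ, ∀ L : ℝ, U ≤ L → ∀ N : ℕ,
    ∑ a ∈ Awin L N, (1 : ℝ) / a ≤ M * L ^ (-(1 / 10 : ℝ)) * latSum L T (-1) := by
  obtain ⟨A, -, hG⟩ := Gsum_bound
  obtain ⟨Tb, hbt⟩ := bad_tail
  obtain ⟨Tc, hcell⟩ := cell_sum_le
  obtain ⟨Tw, hwc⟩ := window_cell
  obtain ⟨C, Tl, hlat⟩ := lat_window
  set S := ∑' j : ℕ, (1 : ℝ) / ((j : ℝ) + 1) ^ 2 with hS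
  refine ⟨max (max Tb (2 * Tc)) (max Tw (max Tl 1)), fun T hT => ?_⟩
  simp only [max_le_iff] at hT
  obtain ⟨⟨hTb, hTc⟩, hTw, hTl, hT1⟩ := hT
  obtain ⟨Uw, hwc⟩ := hwc T hTw
  obtain ⟨L0, hlat⟩ := hlat T hTl
  obtain ⟨U0, hU0⟩ := eventually_atTop.1
    ((tendsto_rpow_atTop (show (0 : ℝ) < 3 / 16 by norm_num)).eventually_ge_atTop T)
  set B := exp (A * log (T + 3) ^ 2) + S with hB
  have hS0 : 0 ≤ S := tsum_nonneg fun j => by positivity
  refine ⟨2 * T ^ C * B, max (max Uw L0) (max U0 T), fun L hL N => ?_⟩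
  simp only [max_le_iff] at hL
  obtain ⟨⟨hLw, hL0⟩, hLU, hLT⟩ := hL
  have hTY : T ≤ Y0 L := hU0 L hLU
  set W : (k : ℕ) → Finset (Fin k → ℕ) := fun k => (Lat L (T / 2) 16 k).filter fun n =>
    L - 8 * Del L ≤ EntF (fun l => (n l : ℝ)) ∨
      ∃ l : Fin k, (l : ℕ) = 0 ∧ L - 8 * Del L ≤ (n l : ℝ) with hW
  set X := (Finset.range (Kb L + 1)).biUnion fun k => (W k).biUnion fun n =>
    (cellTuples n).image fun P => ∏ l, (P l - 1) with hX
  set G := Gset T N ∪ (Finset.range (⌈Y0 L⌉₊ + 1)).biUnion (Gbad T N) with hGdef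
  refine le_trans (sum_recip_le_mul (Awin L N) X G fun a ha => ?_) ?_
  · simp only [Awin, Finset.mem_filter, Finset.mem_Icc] at ha
    obtain ⟨⟨-, haN⟩, n, hn, rfl, hgood, hent, hwin⟩ := ha
    obtain ⟨Y, hTY', hYL, hg, b, hb, hval⟩ := window_split (by linarith) hTY hn.1 haN hgood
    obtain ⟨hlen, m, hm, hmem⟩ := hwc L hLw Y hTY' hYL n hn hg hent hwin
    refine ⟨_, ?_, b, hb, hval⟩
    exact Finset.mem_biUnion.2 ⟨_, Finset.mem_range.2 (Nat.lt_succ_of_le hlen),
      Finset.mem_biUnion.2 ⟨m, hm, Finset.mem_image.2 ⟨_, hmem, rfl⟩⟩⟩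
  have hGs : ∑ b ∈ G, (1 : ℝ) / b ≤ B := by
    refine (sum_union_nonneg fun b => by positivity).trans (add_le_add ?_ ?_)
    · exact hG T (by linarith) N
    · exact (sum_biUnion_nonneg fun b => by positivity).trans (hbt T hTb N _)
  have hXs : ∑ x ∈ X, (1 : ℝ) / x ≤ 2 * ∑ k ∈ Finset.range (Kb L + 1), ((W k).card : ℝ) := by
    refine (sum_biUnion_nonneg fun x => by positivity).trans ?_
    rw [Finset.mul_sum]
    refine Finset.sum_le_sum fun k _ => (sum_biUnion_nonneg fun x => by positivity).trans ?_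
    rw [mul_comm, ← nsmul_eq_mul, ← Finset.sum_const]
    refine Finset.sum_le_sum fun n hn => ?_
    refine (Finset.sum_image_le_of_nonneg (f := fun x : ℕ => (1 : ℝ) / x)
      fun P _ => by positivity).trans ?_
    refine le_trans (le_of_eq (Finset.sum_congr rfl fun P hP => ?_))
      (hcell L (T / 2) (by linarith) (by linarith) k n (Finset.mem_filter.1 hn).1)
    rw [Nat.cast_prod, one_div, ← Finset.prod_inv_distrib]
    refine Finset.prod_congr rfl fun l _ => ?_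
    rw [Nat.cast_sub (mem_primesIn.1 (Fintype.mem_piFinset.1 hP l)).1.one_le, Nat.cast_one, one_div]
  have hl := hlat L hL0
  calc (∑ x ∈ X, (1 : ℝ) / x) * ∑ b ∈ G, (1 : ℝ) / b
      ≤ (2 * (T ^ C * L ^ (-(1 / 10 : ℝ)) * latSum L T (-1))) * B := by
        refine mul_le_mul (hXs.trans (mul_le_mul_of_nonneg_left hl zero_le_two)) hGs
          (Finset.sum_nonneg fun b _ => by positivity) ?_
        have : 0 ≤ L := by linarith
        have : 0 ≤ T := by linarith
        positivity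
    _ = _ := by ring

end Vale.Agent.P031
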