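import Vale.Agent.P031.PNT
import Vale.Agent.P031.CountUpper
import Vale.Agent.P031.CountLower
import Vale.Agent.P031.WindowMass
import Vale.Agent.P031.LowerMass

/-!
# Totient values: `V (c x) / V x → c`
-/

open Filter Topology Real Finset
open scoped Classical

noncomputable section

namespace Vale.Agent.P031

lemma one_le_Smain {L : ℝ} (hL : 16 ≤ L) (hD : Del L ≤ L) : 1 ≤ Smain L := by
  have hD' : Del L / 4 ≤ L := by linarith [Del_nonneg' (show (0:ℝ) ≤ L by linarith)]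
  have hb : bigs (Y0 L) 1 = [] := by
    refine List.eq_nil_iff_forall_not_mem.2 fun q hq => ?_
    obtain ⟨h1, h2, -, -⟩ := mem_bigs.1 hq
    exact h1.ne_one (Nat.dvd_one.1 h2)
  have h : (1 : ℕ) ∈ Amain L := by
    refine Finset.mem_filter.2 ⟨Finset.mem_Icc.2 ⟨le_rfl, Nat.le_floor ?_⟩,
      1, smooth_one _, Nat.totient_one, ?_, ?_⟩
    · push_cast; exact one_le_exp (exp_nonneg _)
    · intro p hp; rw [hb] at hp; simp at hp
    · rw [hb, EntS_eq (N := 0) (by simp)]; simp; linarith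
  simpa [Smain] using Finset.single_le_sum (f := fun a : ℕ => (1 : ℝ) / a)
    (fun a _ => by positivity) h

lemma window_mass : ∃ M U : ℝ, 0 ≤ M ∧ ∀ L : ℝ, U ≤ L → ∀ N : ℕ,
    ∑ a ∈ Awin L N, (1 : ℝ) / a ≤ M * L ^ (-(1 / 10 : ℝ)) * Smain L := by
  obtain ⟨T1, h1⟩ := main_mass_lower
  obtain ⟨T2, h2⟩ := window_upper
  obtain ⟨U1, hU1⟩ := h1 _ (le_max_left T1 T2)
  obtain ⟨M, U2, hU2⟩ := h2 _ (le_max_right T1 T2)
  refine ⟨4 * max M 0, max (max U1 U2) 0, mul_nonneg (by norm_num) (le_max_right _ _),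
    fun L hL N => ?_⟩
  simp only [max_le_iff] at hL
  obtain ⟨⟨hL1, hL2⟩, hL0⟩ := hL
  refine (hU2 L hL2 N).trans ?_
  have hp : 0 ≤ L ^ (-(1 / 10 : ℝ)) := rpow_nonneg hL0 _
  calc M * L ^ (-(1 / 10 : ℝ)) * (latSum L (max T1 T2) (-1) : ℝ)
      ≤ max M 0 * L ^ (-(1 / 10 : ℝ)) * (latSum L (max T1 T2) (-1) : ℝ) := by
        gcongr; exact le_max_left _ _
    _ ≤ max M 0 * L ^ (-(1 / 10 : ℝ)) * (4 * Smain L) :=
        mul_le_mul_of_nonneg_left (hU1 L hL1) (mul_nonneg (le_max_right _ _) hp)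
    _ = _ := by ring

lemma tendsto_LL : Tendsto LL atTop atTop :=
  tendsto_log_atTop.comp (tendsto_log_atTop.comp tendsto_natCast_atTop_atTop)

/-- `π (Y / a)` for the main set is asymptotically `Y / (a log Y)`, uniformly. -/
lemma primeCounting_main {δ : ℝ} (hδ : 0 < δ) (hδ1 : δ < 1 / 2) :
    ∃ X0 : ℕ, ∀ X : ℕ, X0 ≤ X → ∀ Y : ℕ, X ≤ Y → ∀ a ∈ Amain (LL X),
      (Nat.primeCounting (Y / a + 1) : ℝ) ≤ (1 + δ) ^ 2 / (1 - δ) * (Y / log Y) * (1 / a) ∧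
      (1 - δ) ^ 2 * (Y / log Y) * (1 / a) ≤ (Nat.primeCounting (Y / a) : ℝ) := by
  obtain ⟨Z0, hZ0⟩ := eventually_atTop.1 (Metric.tendsto_nhds.1 pnt δ hδ)
  obtain ⟨L1, hL1⟩ := eventually_atTop.1
    ((tendsto_rpow_atTop (show (0:ℝ) < 3/4 by norm_num)).eventually_ge_atTop (4 * log (1 / δ)))
  obtain ⟨X1, hX1⟩ := eventually_atTop.1
    (((tendsto_LL).eventually_ge_atTop L1).and
      (((tendsto_log_atTop.comp tendsto_natCast_atTop_atTop).eventually_ge_atTop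
        (2 * log (max (max Z0 (1 / δ)) 2 + 3))).and (eventually_ge_atTop 3)))
  refine ⟨X1, fun X hX Y hY a ha => ?_⟩
  obtain ⟨hL, hlogX, hX3⟩ := hX1 X hX
  simp only [Function.comp_def] at hlogX
  obtain ⟨ha1, haN⟩ := Finset.mem_Icc.1 (Finset.mem_filter.1 ha).1
  have hX3' : (3 : ℝ) ≤ X := by exact_mod_cast hX3
  have hY' : (X : ℝ) ≤ Y := by exact_mod_cast hY
  have hlX : 1 ≤ log (X : ℝ) := by
    rw [le_log_iff_exp_le (by linarith)]; linarith [exp_one_lt_d9]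
  have hlY : log (X : ℝ) ≤ log (Y : ℝ) := log_le_log (by linarith) hY'
  have hapos : (0 : ℝ) < a := by exact_mod_cast ha1
  -- `a` is a tiny power of `X`
  have hla : log (a : ℝ) ≤ δ * log (Y : ℝ) := by
    have h1 : log (a : ℝ) ≤ exp (LL X - Del (LL X) / 4) := by
      rw [log_le_iff_le_exp hapos]
      exact le_trans (Nat.cast_le.2 haN) (Nat.floor_le (exp_nonneg _))
    have h2 : exp (LL X - Del (LL X) / 4) ≤ δ * log (X : ℝ) := by
      have h3 := hL1 (LL X) hL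
      rw [exp_sub, LL, exp_log (by linarith), div_le_iff₀ (exp_pos _)]
      have h4 : 1 / δ ≤ exp (Del (log (log (X : ℝ))) / 4) := by
        rw [← exp_log (show (0:ℝ) < 1 / δ by positivity), exp_le_exp]
        simp only [Del, LL] at h3 ⊢
        linarith
      rw [div_le_iff₀ hδ] at h4
      nlinarith [mul_le_mul_of_nonneg_left h4 (show 0 ≤ log (X : ℝ) by linarith)]
    nlinarith
  set q : ℝ := (Y : ℝ) / a with hq
  have hYpos : (0 : ℝ) < Y := by linarith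
  have hlq : (1 - δ) * log (Y : ℝ) ≤ log q := by
    rw [hq, log_div hYpos.ne' hapos.ne']; linarith
  set m : ℝ := max (max Z0 (1 / δ)) 2 with hm
  have hm2 : 2 ≤ m := le_max_right _ _
  have hqbig : m + 3 ≤ q := by
    have hqpos : 0 < q := by positivity
    rw [← log_le_log_iff (by linarith) hqpos]
    have h0 : 0 ≤ log (m + 3) := log_nonneg (by linarith)
    nlinarith
  have hfl : q - 1 ≤ ((Y / a : ℕ) : ℝ) ∧ ((Y / a : ℕ) : ℝ) ≤ q := by
    refine ⟨?_, Nat.cast_div_le⟩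
    have := Nat.lt_floor_add_one ((Y : ℝ) / a)
    rw [Nat.floor_div_natCast, Nat.floor_natCast] at this
    linarith
  have hmZ : Z0 ≤ m ∧ 1 / δ ≤ m := ⟨(le_max_left _ _).trans (le_max_left _ _),
    (le_max_right _ _).trans (le_max_left _ _)⟩
  have hδq : 1 ≤ δ * q := by
    have := hmZ.2
    rw [div_le_iff₀ hδ] at this
    nlinarith
  constructor
  · set Z : ℕ := Y / a + 1 with hZ
    have hZr : (Z : ℝ) = ((Y / a : ℕ) : ℝ) + 1 := by rw [hZ]; push_cast; ring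
    have hZq : q ≤ (Z : ℝ) ∧ (Z : ℝ) ≤ q + 1 := by constructor <;> linarith
    have h := hZ0 (Z : ℝ) (by linarith)
    rw [Real.dist_eq, abs_lt, Nat.floor_natCast] at h
    have hlZ : (1 - δ) * log (Y : ℝ) ≤ log (Z : ℝ) :=
      hlq.trans (log_le_log (by linarith) hZq.1)
    have hpos : 0 < (1 - δ) * log (Y : ℝ) := mul_pos (by linarith) (by linarith)
    have h1 : (Nat.primeCounting Z : ℝ) ≤ (1 + δ) * Z / log (Z : ℝ) := by
      rw [le_div_iff₀ (lt_of_lt_of_le hpos hlZ)]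
      have hZpos : (0 : ℝ) < Z := by linarith
      have h2 : (Nat.primeCounting Z : ℝ) * log (Z : ℝ) / Z ≤ 1 + δ := by linarith [h.2]
      rwa [div_le_iff₀ hZpos] at h2
    refine h1.trans ?_
    calc (1 + δ) * Z / log (Z : ℝ) ≤ (1 + δ) * ((1 + δ) * q) / ((1 - δ) * log (Y : ℝ)) :=
          div_le_div₀ (by positivity)
            (mul_le_mul_of_nonneg_left (by linarith [hZq.2]) (by linarith)) hpos hlZ
      _ = _ := by rw [hq]; field_simp
  · set Z : ℕ := Y / a with hZ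
    have h := hZ0 (Z : ℝ) (by linarith [hfl.1])
    rw [Real.dist_eq, abs_lt, Nat.floor_natCast] at h
    have hZ2 : (2 : ℝ) ≤ Z := by linarith [hfl.1]
    have hlZ : log (Z : ℝ) ≤ log (Y : ℝ) := by
      refine log_le_log (by linarith) ?_
      exact_mod_cast Nat.div_le_self Y a
    have hlZ0 : 0 < log (Z : ℝ) := log_pos (by linarith)
    have h1 : (1 - δ) * Z / log (Z : ℝ) ≤ (Nat.primeCounting Z : ℝ) := by
      rw [div_le_iff₀ hlZ0]
      have h2 : 1 - δ ≤ (Nat.primeCounting Z : ℝ) * log (Z : ℝ) / Z := by linarith [h.1]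
      rwa [le_div_iff₀ (by linarith : (0:ℝ) < Z)] at h2
    refine le_trans ?_ h1
    calc (1 - δ) ^ 2 * ((Y : ℝ) / log Y) * (1 / a) = (1 - δ) * ((1 - δ) * q) / log (Y : ℝ) := by
          rw [hq]; field_simp
      _ ≤ _ := div_le_div₀ (mul_nonneg (by linarith) (by linarith))
            (mul_le_mul_of_nonneg_left (by linarith [hfl.1]) (by linarith)) hlZ0 hlZ

lemma asymp_algebra {ε δ W S V U1 U2 E1 E2 : ℝ} (hε : 0 < ε) (hδ : 0 < δ) (hδe : δ ≤ ε / 10)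
    (hδ1 : δ ≤ 1 / 4) (hW : 0 < W) (hS : 0 < S) (hup : U1 ≤ (1 + δ) ^ 2 / (1 - δ) * W * S)
    (hlo : (1 - δ) ^ 2 * W * S ≤ U2) (hE1 : E1 ≤ ε / 4 * S) (hE2 : E2 ≤ ε / 4 * S)
    (h1 : V ≤ U1 + W * (E1 + E2)) (h2 : U2 ≤ V + W * E1) : |V / (W * S) - 1| ≤ ε := by
  have hpos : 0 < W * S := mul_pos hW hS
  have hup' : (1 + δ) ^ 2 / (1 - δ) ≤ 1 + ε / 2 := by
    rw [div_le_iff₀ (by linarith)]; nlinarith
  have hlo' : 1 - ε / 2 ≤ (1 - δ) ^ 2 := by nlinarith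
  have h3 := mul_le_mul_of_nonneg_right hup' hpos.le
  have h4 := mul_le_mul_of_nonneg_right hlo' hpos.le
  have h5 := mul_le_mul_of_nonneg_left (add_le_add hE1 hE2) hW.le
  have h6 := mul_le_mul_of_nonneg_left hE1 hW.le
  rw [abs_le, le_sub_iff_add_le, le_div_iff₀ hpos, sub_le_iff_le_add, div_le_iff₀ hpos]
  constructor <;> nlinarith

/-- The main asymptotic. -/
theorem Vn_asymp {ε : ℝ} (hε : 0 < ε) : ∃ X0 : ℕ, ∀ X : ℕ, X0 ≤ X → ∀ Y : ℕ, X ≤ Y → Y ≤ X ^ 2 →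
    0 < (Y : ℝ) / log Y * Smain (LL X) ∧
      |(Vn Y : ℝ) / ((Y : ℝ) / log Y * Smain (LL X)) - 1| ≤ ε := by
  set δ := min (ε / 10) (1 / 4) with hδdef
  have hδ : 0 < δ := lt_min (by linarith) (by norm_num)
  obtain ⟨hδe, hδ1⟩ := le_min_iff.1 (le_refl δ)
  obtain ⟨X1, hX1⟩ := primeCounting_main hδ (by linarith)
  obtain ⟨C, U1, hU⟩ := upper_count
  obtain ⟨U2, hLo⟩ := lower_count
  obtain ⟨M, U3, hM, hW⟩ := window_mass
  obtain ⟨X2, hX2⟩ := eventually_atTop.1 (tendsto_LL.eventually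
    (((eventually_ge_atTop (max (max U1 U2) (max U3 16))).and
      (eventually_Del_le one_pos)).and
     ((eventually_Kb_cost (show (0:ℝ) < 1/10 by norm_num) (|C| * M / (ε / 4)) 1).and
      ((tendsto_rpow_atTop (show (0:ℝ) < 1/1000 by norm_num)).eventually_ge_atTop (-log (ε / 4))))))
  refine ⟨max (max X1 X2) 3, fun X hX Y hXY hYX => ?_⟩
  simp only [max_le_iff] at hX
  obtain ⟨⟨hXa, hXb⟩, hX3⟩ := hX
  obtain ⟨⟨hbig, hD⟩, hK, hexp⟩ := hX2 X hXb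
  simp only [max_le_iff] at hbig
  obtain ⟨⟨hb1, hb2⟩, hb3, hb4⟩ := hbig
  set L := LL X
  have hY3 : (3 : ℝ) ≤ Y := by exact_mod_cast (hX3.trans hXY)
  have hlY : 0 < log (Y : ℝ) := log_pos (by linarith)
  have hS : 1 ≤ Smain L := one_le_Smain hb4 (by linarith)
  set W := (Y : ℝ) / log Y with hWdef
  have hW0 : 0 < W := div_pos (by linarith) hlY
  have hpos : 0 < W * Smain L := mul_pos hW0 (by linarith)
  refine ⟨hpos, ?_⟩
  -- sums over the main set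
  have hup : ∑ a ∈ Amain L, (Nat.primeCounting (Y / a + 1) : ℝ)
      ≤ (1 + δ) ^ 2 / (1 - δ) * W * Smain L := by
    rw [Smain, Finset.mul_sum]
    exact Finset.sum_le_sum fun a ha => (hX1 X hXa Y hXY a ha).1
  have hlo : (1 - δ) ^ 2 * W * Smain L ≤ ∑ a ∈ Amain L, (Nat.primeCounting (Y / a) : ℝ) := by
    rw [Smain, Finset.mul_sum]
    exact Finset.sum_le_sum fun a ha => (hX1 X hXa Y hXY a ha).2
  -- errors
  have hL0 : 0 < L := by linarith
  have he : exp (-L ^ (1 / 1000 : ℝ)) ≤ ε / 4 * Smain L := by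
    have : exp (-L ^ (1 / 1000 : ℝ)) ≤ ε / 4 := by
      rw [← exp_log (show (0:ℝ) < ε / 4 by linarith), exp_le_exp]; linarith
    nlinarith
  have hwin : C * ((Kb L : ℝ) + 3) * ∑ a ∈ Awin L Y, (1 : ℝ) / a ≤ ε / 4 * Smain L := by
    have h1 := hW L hb3 Y
    have h0 : 0 ≤ ∑ a ∈ Awin L Y, (1 : ℝ) / a := Finset.sum_nonneg fun a _ => by positivity
    have hC := mul_le_mul_of_nonneg_right
      (mul_le_mul_of_nonneg_right (le_abs_self C) (show (0:ℝ) ≤ (Kb L : ℝ) + 3 by positivity)) h0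
    refine hC.trans ((mul_le_mul_of_nonneg_left h1 (by positivity)).trans ?_)
    rw [pow_one, div_mul_eq_mul_div, div_le_iff₀ (by linarith)] at hK
    calc |C| * ((Kb L : ℝ) + 3) * (M * L ^ (-(1 / 10 : ℝ)) * Smain L)
        = |C| * M * ((Kb L : ℝ) + 3) * L ^ (-(1 / 10 : ℝ)) * Smain L := by ring
      _ ≤ L ^ (1 / 10 : ℝ) * (ε / 4) * L ^ (-(1 / 10 : ℝ)) * Smain L := by
          have hp : 0 ≤ L ^ (-(1 / 10 : ℝ)) := rpow_nonneg hL0.le _
          have hS0 : 0 ≤ Smain L := by linarith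
          gcongr
      _ = ε / 4 * Smain L := by
          rw [mul_comm (L ^ (1 / 10 : ℝ)), mul_assoc (ε / 4), ← rpow_add hL0]; norm_num
  exact asymp_algebra hε hδ hδe hδ1 hW0 (by linarith) hup hlo he hwin
    (hU X hb1 Y hXY hYX) (hLo X hb2 Y hXY hYX)

lemma V_eq_Vn {x : ℝ} (hx : 0 ≤ x) : V x = Vn ⌊x⌋₊ := by
  rw [V, Vn, ← Set.ncard_coe_finset]
  congr 1
  ext v
  simp only [Set.mem_setOf_eq, Finset.coe_filter, Finset.mem_Icc, Nat.le_floor_iff hx]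
  constructor
  · rintro ⟨⟨n, hn, rfl⟩, h⟩
    exact ⟨⟨Nat.totient_pos.2 hn, h⟩, n, hn, rfl⟩
  · rintro ⟨⟨-, h⟩, hv⟩
    exact ⟨hv, h⟩

/-- Erdős–Hall: `V (c x) / V x → c`. -/
theorem erdos_hall (c : ℝ) (hc : 1 < c) :
    Tendsto (fun x : ℝ => (V (c * x) : ℝ) / (V x : ℝ)) atTop (𝓝 c) := by
  have hc0 : 0 < c := by linarith
  have hr : ∀ d : ℝ, 1 ≤ d → d ≤ c → Tendsto (fun x : ℝ => (Vn ⌊d * x⌋₊ : ℝ) /
      ((⌊d * x⌋₊ : ℝ) / log (⌊d * x⌋₊ : ℝ) * Smain (LL ⌊x⌋₊))) atTop (𝓝 1) := by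
    intro d hd hdc
    rw [Metric.tendsto_nhds]
    intro ε hε
    obtain ⟨X0, hX0⟩ := Vn_asymp (half_pos hε)
    filter_upwards [eventually_ge_atTop ((X0 : ℝ) + 2 * c + 4)] with x hx
    have hx0 : 0 ≤ x := by linarith [Nat.cast_nonneg (α := ℝ) X0]
    have h1 : X0 ≤ ⌊x⌋₊ := Nat.le_floor (by linarith)
    have h2 : ⌊x⌋₊ ≤ ⌊d * x⌋₊ := Nat.floor_mono (by nlinarith)
    have h3 : ⌊d * x⌋₊ ≤ ⌊x⌋₊ ^ 2 := by
      have hfl := Nat.lt_floor_add_one x
      refine Nat.floor_le_of_le ?_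
      push_cast
      nlinarith [Nat.cast_nonneg (α := ℝ) X0]
    have h := (hX0 _ h1 _ h2 h3).2
    rw [Real.dist_eq]; linarith
  have hq : Tendsto (fun x : ℝ => ((⌊c * x⌋₊ : ℝ) / log (⌊c * x⌋₊ : ℝ))
      / ((⌊x⌋₊ : ℝ) / log (⌊x⌋₊ : ℝ))) atTop (𝓝 c) := by
    have ha : Tendsto (fun x : ℝ => (⌊c * x⌋₊ : ℝ) / x) atTop (𝓝 c) :=
      tendsto_nat_floor_mul_div_atTop hc0.le
    have hb : Tendsto (fun x : ℝ => (⌊x⌋₊ : ℝ) / x) atTop (𝓝 1) := tendsto_nat_floor_div_atTop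
    have hl : Tendsto (fun x : ℝ => log (⌊c * x⌋₊ : ℝ) / log (⌊x⌋₊ : ℝ)) atTop (𝓝 1) := by
      have h1 := (ha.log hc0.ne')
      have h2 := (hb.log one_ne_zero)
      have hd := h1.sub h2
      have hfl : Tendsto (fun x : ℝ => log (⌊x⌋₊ : ℝ)) atTop atTop :=
        tendsto_log_atTop.comp (tendsto_natCast_atTop_atTop.comp tendsto_nat_floor_atTop)
      have hz := (hd.div_atTop hfl).const_add 1
      rw [add_zero] at hz
      refine hz.congr' ?_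
      filter_upwards [eventually_ge_atTop (3 : ℝ)] with x hx
      have hXpos : (0 : ℝ) < (⌊x⌋₊ : ℝ) := by exact_mod_cast Nat.floor_pos.2 (by linarith)
      have hYpos : (0 : ℝ) < (⌊c * x⌋₊ : ℝ) := by exact_mod_cast Nat.floor_pos.2 (by nlinarith)
      have hlX : 0 < log (⌊x⌋₊ : ℝ) := log_pos (by
        exact_mod_cast lt_of_lt_of_le (show 1 < 3 by norm_num) (Nat.le_floor (by exact_mod_cast hx)))
      rw [log_div hYpos.ne' (by linarith), log_div hXpos.ne' (by linarith)]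
      field_simp
      ring
    have := (ha.div hb one_ne_zero).div hl one_ne_zero
    rw [div_one, div_one] at this
    refine this.congr' ?_
    filter_upwards [eventually_ge_atTop (3 : ℝ)] with x hx
    simp only [Pi.div_apply]
    field_simp
  have h1 := hr c hc.le le_rfl
  have h2 := hr 1 le_rfl hc.le
  have := (h1.div h2 one_ne_zero).mul hq
  rw [div_one, one_mul] at this
  refine this.congr' ?_
  obtain ⟨X0, hX0⟩ := Vn_asymp one_pos
  filter_upwards [eventually_ge_atTop ((X0 : ℝ) + 2 * c + 4)] with x hx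
  have hx0 : 0 ≤ x := by linarith [Nat.cast_nonneg (α := ℝ) X0]
  simp only [one_mul, Pi.div_apply]
  rw [V_eq_Vn hx0, V_eq_Vn (by positivity)]
  have hp := (hX0 _ (Nat.le_floor (show (X0:ℝ) ≤ x by linarith)) _ le_rfl
    (Nat.le_self_pow two_ne_zero _)).1
  have hS : Smain (LL ⌊x⌋₊) ≠ 0 := (mul_ne_zero_iff.1 hp.ne').2
  have hX : (⌊x⌋₊ : ℝ) / log (⌊x⌋₊ : ℝ) ≠ 0 := (mul_ne_zero_iff.1 hp.ne').1
  have hY : (⌊c * x⌋₊ : ℝ) / log (⌊c * x⌋₊ : ℝ) ≠ 0 := by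
    have h3 : (3 : ℝ) ≤ c * x := by nlinarith
    have h4 : (3 : ℝ) ≤ (⌊c * x⌋₊ : ℝ) := by exact_mod_cast Nat.le_floor (by exact_mod_cast h3)
    exact div_ne_zero (by linarith) (log_pos (by linarith)).ne'
  generalize (⌊c * x⌋₊ : ℝ) / log (⌊c * x⌋₊ : ℝ) = A at hY ⊢
  generalize (⌊x⌋₊ : ℝ) / log (⌊x⌋₊ : ℝ) = B at hX ⊢
  field_simp

end Vale.Agent.P031
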