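import Vale.Agent.P031.Decay

/-!
# Totient values: the main set and the critical window
-/

open Finset Real
open scoped Classical

noncomputable section

namespace Vale.Agent.P031

/-- All nodes above `Z` are good. -/
def GoodAbove (Z : ℝ) (n : ℕ) : Prop := ∀ p ∈ bigs Z n, ¬ BadNode n p

/-- The cofactors `φ (n / P (n))` of typical totients at scale `L`. -/
def Amain (L : ℝ) : Finset ℕ :=
  (Finset.Icc 1 ⌊exp (exp (L - Del L / 4))⌋₊).filter fun a =>
    ∃ n, Smooth (L - Del L / 2) n ∧ Nat.totient n = a ∧ GoodAbove (Y0 L) n ∧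
      EntS (bigs (Y0 L) n) ≤ L - Del L / 2

/-- Reciprocal mass of the main set. -/
def Smain (L : ℝ) : ℝ := ∑ a ∈ Amain L, (1 : ℝ) / a

/-- The window: cofactors whose top constraint is nearly tight. -/
def Awin (L : ℝ) (N : ℕ) : Finset ℕ :=
  (Finset.Icc 1 N).filter fun a =>
    ∃ n, Smooth (L + 1) n ∧ Nat.totient n = a ∧ GoodAbove (Y0 L) n ∧
      EntS (bigs (Y0 L) n) ≤ L + 2 * Del L ∧
      (L - 3 * Del L < EntS (bigs (Y0 L) n) ∨ ∃ q ∈ bigs (Y0 L) n, L - 3 * Del L < sc q)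

/-- Number of distinct totient values in `[1, Y]`. -/
def Vn (Y : ℕ) : ℕ := ((Finset.Icc 1 Y).filter fun a => ∃ n, 0 < n ∧ Nat.totient n = a).card

end Vale.Agent.P031
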