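import Vale.Agent.P031.Defs

/-!
# The prime number theorem (Wiener–Ikehara argument with the Fejér kernel)

Main results: `psi_div_tendsto`, `theta_div_tendsto`, `primeCounting_tendsto`.
The analytic input is Mathlib's continuity of `-ζ'/ζ - 1/(s-1)` on `1 ≤ re s`.
-/

namespace Vale.Agent.P031.PNT

open MeasureTheory Filter Set
open scoped Topology

/-! ## The Fejér kernel -/

/-- The Fejér kernel. -/
noncomputable def fejer (u : ℝ) : ℝ := if u = 0 then 2 else (1 - Real.cos (2 * u)) / u ^ 2

lemma fejer_nonneg (u : ℝ) : 0 ≤ fejer u := by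
  unfold fejer
  split_ifs
  · norm_num
  · have := Real.cos_le_one (2 * u)
    exact div_nonneg (by linarith) (sq_nonneg u)

lemma fejer_le (u : ℝ) : fejer u ≤ 4 * (1 + u ^ 2)⁻¹ := by
  unfold fejer
  split_ifs with h
  · subst h; norm_num
  · have h2 : 0 < u ^ 2 := by positivity
    have ha := Real.one_sub_sq_div_two_le_cos (x := 2 * u)
    have hb := Real.neg_one_le_cos (2 * u)
    rw [← div_eq_mul_inv, div_le_div_iff₀ h2 (by positivity)]
    nlinarith [mul_le_mul_of_nonneg_right (show (1 - Real.cos (2*u)) ≤ 2 by linarith) h2.le]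

lemma measurable_fejer : Measurable fejer :=
  Measurable.ite (measurableSet_singleton 0) measurable_const (by fun_prop)

lemma integrable_fejer : Integrable fejer := by
  refine (integrable_inv_one_add_sq.const_mul 4).mono' measurable_fejer.aestronglyMeasurable ?_
  refine Eventually.of_forall fun u => ?_
  rw [Real.norm_of_nonneg (fejer_nonneg u)]
  exact fejer_le u

/-- Total mass of the Fejér kernel. -/
noncomputable def mass : ℝ := ∫ u, fejer u

lemma mass_pos : 0 < mass := by
  rw [mass, integral_pos_iff_support_of_nonneg fejer_nonneg integrable_fejer]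
  refine lt_of_lt_of_le (b := volume (Ioo (0:ℝ) 1)) (by simp) (measure_mono fun u hu => ?_)
  have h1 := hu.1
  have h2 := hu.2
  simp only [Function.mem_support, fejer, if_neg h1.ne', ne_eq]
  have : Real.cos (2 * u) < 1 := by
    refine lt_of_le_of_ne (Real.cos_le_one _) fun h => ?_
    have := (Real.cos_eq_one_iff_of_lt_of_lt
      (by linarith [Real.pi_gt_three]) (by linarith [Real.pi_gt_three])).1 h
    linarith
  exact (div_pos (by linarith) (by positivity)).ne'

/-- The scaled Fejér kernel. -/
noncomputable def kern (lam v : ℝ) : ℝ := lam * fejer (lam * v)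

lemma kern_nonneg {lam : ℝ} (hl : 0 < lam) (v : ℝ) : 0 ≤ kern lam v :=
  mul_nonneg hl.le (fejer_nonneg _)

lemma measurable_kern (lam : ℝ) : Measurable (kern lam) :=
  (measurable_fejer.comp (by fun_prop)).const_mul lam

lemma integrable_kern {lam : ℝ} (hl : 0 < lam) : Integrable (kern lam) :=
  (integrable_fejer.comp_mul_left' hl.ne').const_mul lam

lemma integral_kern {lam : ℝ} (hl : 0 < lam) : ∫ v, kern lam v = mass := by
  simp only [kern]
  rw [integral_const_mul, Measure.integral_comp_mul_left fejer lam, smul_eq_mul,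
    abs_of_pos (inv_pos.2 hl), ← mul_assoc, mul_inv_cancel₀ hl.ne', one_mul]
  rfl

lemma tent_fourier {lam : ℝ} (hl : 0 < lam) (v : ℝ) :
    ∫ t in (-(2 * lam))..(2 * lam),
        ((1 - |t| / (2 * lam) : ℝ) : ℂ) * Complex.exp ((v : ℂ) * Complex.I * (t : ℂ))
      = (kern lam v : ℂ) := by
  set A : ℝ := 2 * lam with hA
  have hA0 : 0 < A := by positivity
  have hAc : (A : ℂ) ≠ 0 := by exact_mod_cast hA0.ne'
  have hint : ∀ a b : ℝ, IntervalIntegrable (fun t : ℝ =>
      ((1 - |t| / A : ℝ) : ℂ) * Complex.exp ((v : ℂ) * Complex.I * (t : ℂ))) volume a b :=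
    fun a b => (by fun_prop : Continuous fun t : ℝ =>
      ((1 - |t| / A : ℝ) : ℂ) * Complex.exp ((v : ℂ) * Complex.I * (t : ℂ))).intervalIntegrable _ _
  rw [← intervalIntegral.integral_add_adjacent_intervals (hint (-A) 0) (hint 0 A)]
  by_cases hv : v = 0
  · subst hv
    have e1 : ∫ t in (-A)..0, ((1 - |t| / A : ℝ) : ℂ) * Complex.exp (((0:ℝ) : ℂ) * Complex.I * (t : ℂ))
        = ((A / 2 : ℝ) : ℂ) := by
      rw [show ((A / 2 : ℝ) : ℂ) = ((((0:ℝ) + 0 ^ 2 / (2 * A)) : ℝ) : ℂ)
          - (((-A + (-A) ^ 2 / (2 * A)) : ℝ) : ℂ) by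
        rw [← Complex.ofReal_sub]; congr 1; field_simp; ring]
      refine intervalIntegral.integral_eq_sub_of_hasDerivAt
        (f := fun t : ℝ => ((t + t ^ 2 / (2 * A) : ℝ) : ℂ)) (fun t ht => ?_) (hint _ _)
      rw [uIcc_of_le (by linarith)] at ht
      simp only [Complex.ofReal_zero, zero_mul, Complex.exp_zero, mul_one, abs_of_nonpos ht.2]
      refine HasDerivAt.ofReal_comp ?_
      convert! (hasDerivAt_id t).add ((hasDerivAt_pow 2 t).div_const (2 * A)) using 1
      field_simp; ring
    have e2 : ∫ t in (0:ℝ)..A, ((1 - |t| / A : ℝ) : ℂ) * Complex.exp (((0:ℝ) : ℂ) * Complex.I * (t : ℂ))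
        = ((A / 2 : ℝ) : ℂ) := by
      rw [show ((A / 2 : ℝ) : ℂ) = (((A - A ^ 2 / (2 * A)) : ℝ) : ℂ)
          - ((((0:ℝ) - 0 ^ 2 / (2 * A)) : ℝ) : ℂ) by
        rw [← Complex.ofReal_sub]; congr 1; field_simp; ring]
      refine intervalIntegral.integral_eq_sub_of_hasDerivAt
        (f := fun t : ℝ => ((t - t ^ 2 / (2 * A) : ℝ) : ℂ)) (fun t ht => ?_) (hint _ _)
      rw [uIcc_of_le (by linarith)] at ht
      simp only [Complex.ofReal_zero, zero_mul, Complex.exp_zero, mul_one, abs_of_nonneg ht.1]
      refine HasDerivAt.ofReal_comp ?_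
      convert! (hasDerivAt_id t).sub ((hasDerivAt_pow 2 t).div_const (2 * A)) using 1
      field_simp; ring
    rw [e1, e2]
    simp only [kern, mul_zero, fejer, if_true, hA]
    push_cast; ring
  · set c : ℂ := (v : ℂ) * Complex.I with hc
    have hc0 : c ≠ 0 := mul_ne_zero (by exact_mod_cast hv) Complex.I_ne_zero
    have hexp : ∀ t : ℝ, HasDerivAt (fun t : ℝ => Complex.exp (c * (t : ℂ)))
        (Complex.exp (c * (t : ℂ)) * c) t := by
      intro t
      simpa using (((hasDerivAt_id (t : ℂ)).const_mul c).cexp).comp_ofReal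
    have hof : ∀ t : ℝ, HasDerivAt (fun t : ℝ => (t : ℂ)) 1 t := fun t => by
      simpa using (hasDerivAt_id (t : ℂ)).comp_ofReal
    have e1 : ∫ t in (-A)..0, ((1 - |t| / A : ℝ) : ℂ) * Complex.exp (c * (t : ℂ))
        = ((1 + ((0:ℝ) : ℂ) / A) / c - 1 / (A * c ^ 2)) * Complex.exp (c * ((0:ℝ) : ℂ))
          - ((1 + ((-A:ℝ) : ℂ) / A) / c - 1 / (A * c ^ 2)) * Complex.exp (c * ((-A:ℝ) : ℂ)) := by
      refine intervalIntegral.integral_eq_sub_of_hasDerivAt
        (f := fun t : ℝ => ((1 + (t : ℂ) / A) / c - 1 / (A * c ^ 2)) * Complex.exp (c * (t : ℂ)))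
        (fun t ht => ?_) (hint _ _)
      rw [uIcc_of_le (by linarith)] at ht
      convert! (((((hof t).div_const (A : ℂ)).const_add 1).div_const c).sub_const
        (1 / ((A : ℂ) * c ^ 2))).mul (hexp t) using 1
      rw [abs_of_nonpos ht.2]
      push_cast
      field_simp
      ring
    have e2 : ∫ t in (0:ℝ)..A, ((1 - |t| / A : ℝ) : ℂ) * Complex.exp (c * (t : ℂ))
        = ((1 - ((A:ℝ) : ℂ) / A) / c + 1 / (A * c ^ 2)) * Complex.exp (c * ((A:ℝ) : ℂ))
          - ((1 - ((0:ℝ) : ℂ) / A) / c + 1 / (A * c ^ 2)) * Complex.exp (c * ((0:ℝ) : ℂ)) := by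
      refine intervalIntegral.integral_eq_sub_of_hasDerivAt
        (f := fun t : ℝ => ((1 - (t : ℂ) / A) / c + 1 / (A * c ^ 2)) * Complex.exp (c * (t : ℂ)))
        (fun t ht => ?_) (hint _ _)
      rw [uIcc_of_le (by linarith)] at ht
      convert! (((((hof t).div_const (A : ℂ)).const_sub 1).div_const c).add_const
        (1 / ((A : ℂ) * c ^ 2))).mul (hexp t) using 1
      rw [abs_of_nonneg ht.1]
      push_cast
      field_simp
      ring
    rw [e1, e2]
    have hc2 : c ^ 2 = -((v : ℂ) ^ 2) := by rw [hc, mul_pow, Complex.I_sq]; ring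
    have hcos : Complex.exp (c * (A : ℂ)) + Complex.exp (c * ((-A : ℝ) : ℂ))
        = 2 * ((Real.cos (A * v) : ℝ) : ℂ) := by
      rw [Complex.ofReal_cos, Complex.two_cos]
      push_cast
      congr 1 <;> congr 1 <;> rw [hc] <;> ring
    have hk : (kern lam v : ℂ) = (2 - 2 * ((Real.cos (A * v) : ℝ) : ℂ)) / (A * (v : ℂ) ^ 2) := by
      have : kern lam v = (2 - 2 * Real.cos (A * v)) / (A * v ^ 2) := by
        simp only [kern, fejer, if_neg (mul_ne_zero hl.ne' hv), hA, ← mul_assoc]
        field_simp
      rw [this]; push_cast; ring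
    rw [hk, ← hcos]
    have hvc : (v : ℂ) ≠ 0 := by exact_mod_cast hv
    rw [show (A : ℂ) * (v : ℂ) ^ 2 = -((A : ℂ) * c ^ 2) by rw [hc2]; ring]
    simp only [Complex.ofReal_zero, mul_zero, Complex.exp_zero, Complex.ofReal_neg]
    field_simp
    ring

/-! ## The Laplace transform of `ψ(e^u) e^{-u}` -/

/-- `u ↦ ψ(e^u) e^{-u}`. -/
noncomputable def nf (u : ℝ) : ℝ := Chebyshev.psi (Real.exp u) * Real.exp (-u)

/-- An upper bound for `nf`. -/
noncomputable def bd : ℝ := Real.log 4 + 4

lemma bd_pos : 0 < bd := by unfold bd; positivity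

lemma nf_nonneg (u : ℝ) : 0 ≤ nf u :=
  mul_nonneg (Chebyshev.psi_nonneg _) (Real.exp_pos _).le

lemma nf_le (u : ℝ) : nf u ≤ bd := by
  have h := Chebyshev.psi_le_const_mul_self (Real.exp_pos u).le
  calc nf u ≤ bd * Real.exp u * Real.exp (-u) :=
        mul_le_mul_of_nonneg_right h (Real.exp_pos _).le
    _ = bd := by rw [mul_assoc, ← Real.exp_add, add_neg_cancel, Real.exp_zero, mul_one]

lemma nf_eq_zero {u : ℝ} (hu : u ≤ 0) : nf u = 0 := by
  simp only [nf, Chebyshev.psi_eq_zero_of_le_one (Real.exp_le_one_iff.2 hu), zero_mul]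

lemma measurable_nf : Measurable nf :=
  (Chebyshev.psi_mono.measurable.comp Real.measurable_exp).mul (by fun_prop)

lemma nf_shift {a b : ℝ} (h : a ≤ b) : nf a * Real.exp (a - b) ≤ nf b := by
  calc nf a * Real.exp (a - b) = Chebyshev.psi (Real.exp a) * Real.exp (-b) := by
        rw [nf, mul_assoc, ← Real.exp_add]; ring_nf
    _ ≤ nf b := mul_le_mul_of_nonneg_right (Chebyshev.psi_mono (Real.exp_le_exp.2 h))
        (Real.exp_pos _).le

/-- `-ζ'/ζ(s) - 1/(s-1)`, continuous on `1 ≤ re s`. -/
noncomputable def aux : ℂ → ℂ :=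
  ArithmeticFunction.vonMangoldt.LFunctionResidueClassAux (0 : ZMod 1)

lemma aux_eq {s : ℂ} (hs : 1 < s.re) :
    aux s = LSeries (fun n => (ArithmeticFunction.vonMangoldt n : ℂ)) s - 1 / (s - 1) := by
  have h := ArithmeticFunction.vonMangoldt.eqOn_LFunctionResidueClassAux
    (a := (0 : ZMod 1)) (isUnit_of_subsingleton _) (show s ∈ {s : ℂ | 1 < s.re} from hs)
  have he : ∀ n : ℕ, ArithmeticFunction.vonMangoldt.residueClass (0 : ZMod 1) n
      = ArithmeticFunction.vonMangoldt n := fun n =>
    Set.indicator_of_mem (show n ∈ {n : ℕ | (n : ZMod 1) = 0} from Subsingleton.elim _ _) _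
  simpa [aux, he] using h

/-- Continuous extension of the Laplace transform of `nf - 1`. -/
noncomputable def G (z : ℂ) : ℂ := (aux (1 + z) - 1) / (1 + z)

lemma continuousOn_G : ContinuousOn G {z | 0 ≤ z.re} := by
  refine ContinuousOn.div (ContinuousOn.sub ?_ continuousOn_const) (by fun_prop) ?_
  · refine (ArithmeticFunction.vonMangoldt.continuousOn_LFunctionResidueClassAux
      (0 : ZMod 1)).comp (by fun_prop) fun z hz => ?_
    simp only [Set.mem_ofPred_eq] at hz ⊢
    simpa using hz
  · intro z hz h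
    have := congrArg Complex.re h
    simp only [Set.mem_ofPred_eq] at hz
    simp at this
    linarith

lemma norm_exp_neg (z : ℂ) (u : ℝ) :
    ‖Complex.exp (-(z * (u : ℂ)))‖ = Real.exp (-(z.re * u)) := by
  rw [Complex.norm_exp]; simp

lemma laplace_nf {z : ℂ} (hz : 0 < z.re) :
    LSeries (fun n => (ArithmeticFunction.vonMangoldt n : ℂ)) (1 + z)
      = (1 + z) * ∫ u in Ioi (0:ℝ), (nf u : ℂ) * Complex.exp (-(z * (u : ℂ))) := by
  have hO : (fun n => ∑ k ∈ Finset.Icc 1 n, ArithmeticFunction.vonMangoldt k)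
      =O[atTop] fun n => (n : ℝ) ^ (1 : ℝ) := by
    refine Asymptotics.IsBigO.of_bound bd (Eventually.of_forall fun n => ?_)
    have h1 : ∑ k ∈ Finset.Icc 1 n, ArithmeticFunction.vonMangoldt k = Chebyshev.psi n := by
      simp [Chebyshev.psi, ← Finset.Icc_add_one_left_eq_Ioc]
    rw [h1, Real.rpow_one, Real.norm_of_nonneg (Chebyshev.psi_nonneg _),
      Real.norm_of_nonneg (Nat.cast_nonneg n)]
    exact Chebyshev.psi_le_const_mul_self (Nat.cast_nonneg n)
  rw [LSeries_eq_mul_integral_of_nonneg _ zero_le_one (by simp; linarith) hO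
    fun n => ArithmeticFunction.vonMangoldt_nonneg]
  congr 1
  rw [← Real.exp_zero, ← integral_comp_exp_Ioi]
  refine setIntegral_congr_fun measurableSet_Ioi fun u _ => ?_
  have h1 : (∑ k ∈ Finset.Icc 1 ⌊Real.exp u⌋₊, (ArithmeticFunction.vonMangoldt k : ℂ))
      = (Chebyshev.psi (Real.exp u) : ℂ) := by
    simp [Chebyshev.psi, ← Finset.Icc_add_one_left_eq_Ioc]
  have hpow : ((Real.exp u : ℝ) : ℂ) ^ (-(1 + z + 1)) = Complex.exp ((u : ℂ) * -(1 + z + 1)) := by
    rw [Complex.cpow_def_of_ne_zero (by exact_mod_cast (Real.exp_pos u).ne'),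
      ← Complex.ofReal_log (Real.exp_pos u).le, Real.log_exp]
  simp only [Complex.real_smul, h1, nf, hpow]
  push_cast
  have : Complex.exp (u : ℂ) * Complex.exp ((u : ℂ) * -(1 + z + 1))
      = Complex.exp (-(u : ℂ)) * Complex.exp (-(z * (u : ℂ))) := by
    rw [← Complex.exp_add, ← Complex.exp_add]; ring_nf
  linear_combination (Chebyshev.psi (Real.exp u) : ℂ) * this

lemma integrableOn_nf {z : ℂ} (hz : 0 < z.re) :
    IntegrableOn (fun u : ℝ => (nf u : ℂ) * Complex.exp (-(z * (u : ℂ)))) (Ioi 0) := by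
  refine ((exp_neg_integrableOn_Ioi 0 hz).const_mul bd).mono' ?_ ?_
  · exact ((Complex.measurable_ofReal.comp measurable_nf).mul (by fun_prop)).aestronglyMeasurable
  · refine Eventually.of_forall fun u => ?_
    rw [norm_mul, norm_exp_neg, Complex.norm_real, Real.norm_of_nonneg (nf_nonneg u), neg_mul]
    exact mul_le_mul_of_nonneg_right (nf_le u) (Real.exp_pos _).le

lemma laplace_sub_one {z : ℂ} (hz : 0 < z.re) :
    ∫ u in Ioi (0:ℝ), ((nf u - 1 : ℝ) : ℂ) * Complex.exp (-(z * (u : ℂ))) = G z := by
  have hz0 : z ≠ 0 := fun h => by simp [h] at hz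
  have h1z : (1 + z) ≠ 0 := fun h => by
    have := congrArg Complex.re h; simp at this; linarith
  have hn : (-z).re < 0 := by simpa using hz
  have e1 : ∫ u in Ioi (0:ℝ), Complex.exp (-(z * (u : ℂ))) = 1 / z := by
    have := integral_exp_mul_complex_Ioi hn 0
    simpa [neg_div_neg_eq] using this
  have i1 : IntegrableOn (fun u : ℝ => Complex.exp (-(z * (u : ℂ)))) (Ioi 0) := by
    simpa using integrableOn_exp_mul_complex_Ioi hn 0
  have hsplit : ∀ u : ℝ, ((nf u - 1 : ℝ) : ℂ) * Complex.exp (-(z * (u : ℂ)))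
      = (nf u : ℂ) * Complex.exp (-(z * (u : ℂ))) - Complex.exp (-(z * (u : ℂ))) := by
    intro u; push_cast; ring
  simp only [hsplit]
  rw [integral_sub (integrableOn_nf hz) i1, e1]
  have hL := laplace_nf hz
  have ha := aux_eq (s := 1 + z) (by simp; linarith)
  rw [add_sub_cancel_left] at ha
  unfold G
  rw [ha, hL]
  field_simp
  ring

/-! ## The smoothed asymptotic -/

lemma smoothed_eq {lam : ℝ} (hl : 0 < lam) {ε : ℝ} (hε : 0 < ε) (y : ℝ) :
    ∫ u in Ioi (0:ℝ), (((nf u - 1) * Real.exp (-(ε * u)) * kern lam (y - u) : ℝ) : ℂ)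
      = ∫ t in (-(2 * lam))..(2 * lam), ((1 - |t| / (2 * lam) : ℝ) : ℂ) *
          G ((ε : ℂ) + (t : ℂ) * Complex.I) * Complex.exp ((y : ℂ) * Complex.I * (t : ℂ)) := by
  set A : ℝ := 2 * lam with hA
  have hA0 : 0 < A := by positivity
  have hle : -A ≤ A := by linarith
  let F : ℝ → ℝ → ℂ := fun u t => ((1 - |t| / A : ℝ) : ℂ) *
    (((nf u - 1 : ℝ) : ℂ) * Complex.exp (-(((ε : ℂ) + (t : ℂ) * Complex.I) * (u : ℂ)))) *
    Complex.exp ((y : ℂ) * Complex.I * (t : ℂ))
  have hl1 : ∀ u : ℝ, (((nf u - 1) * Real.exp (-(ε * u)) * kern lam (y - u) : ℝ) : ℂ)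
      = ∫ t in (-A)..A, F u t := by
    intro u
    push_cast
    rw [← tent_fourier hl (y - u), ← intervalIntegral.integral_const_mul]
    refine intervalIntegral.integral_congr fun t _ => ?_
    have : Complex.exp (-((ε : ℂ) * (u : ℂ))) * Complex.exp (((y - u : ℝ) : ℂ) * Complex.I * (t : ℂ))
        = Complex.exp (-(((ε : ℂ) + (t : ℂ) * Complex.I) * (u : ℂ))) *
          Complex.exp ((y : ℂ) * Complex.I * (t : ℂ)) := by
      rw [← Complex.exp_add, ← Complex.exp_add]; push_cast; ring_nf
    simp only [F, hA]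
    push_cast at this ⊢
    linear_combination (((1:ℂ) - ((|t| : ℝ) : ℂ) / (2 * (lam : ℂ))) * ((nf u : ℂ) - 1)) * this
  simp only [hl1, intervalIntegral.integral_of_le hle]
  have hint : Integrable (Function.uncurry F)
      ((volume.restrict (Ioi (0:ℝ))).prod (volume.restrict (Ioc (-A) A))) := by
    refine (((exp_neg_integrableOn_Ioi 0 hε).const_mul (bd + 1)).mul_prod
      (integrable_const (1:ℝ))).mono' ?_ ?_
    · refine (Measurable.mul (Measurable.mul (by fun_prop) (Measurable.mul ?_ (by fun_prop)))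
        (by fun_prop)).aestronglyMeasurable
      exact Complex.measurable_ofReal.comp ((measurable_nf.comp measurable_fst).sub_const 1)
    · rw [Measure.prod_restrict]
      refine ae_restrict_of_forall_mem (measurableSet_Ioi.prod measurableSet_Ioc) ?_
      rintro ⟨u, t⟩ ⟨hu, ht⟩
      simp only [Function.uncurry, F, norm_mul, norm_exp_neg]
      simp only [Complex.norm_real, Real.norm_eq_abs,
        Complex.norm_exp, Complex.mul_re, Complex.mul_im, Complex.ofReal_re, Complex.ofReal_im,
        Complex.I_re, Complex.I_im, Complex.add_re, mul_zero, zero_mul, mul_one,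
        add_zero, sub_self, Real.exp_zero, neg_mul]
      have h1 : |1 - |t| / A| ≤ 1 := by
        have : |t| / A ≤ 1 := (div_le_one hA0).2 (abs_le.2 ⟨ht.1.le, ht.2⟩)
        have : 0 ≤ |t| / A := by positivity
        rw [abs_le]; constructor <;> linarith
      have h2 : |nf u - 1| ≤ bd + 1 := by
        have := nf_nonneg u; have := nf_le u; have := bd_pos
        rw [abs_le]; constructor <;> linarith
      calc |1 - |t| / A| * (|nf u - 1| * Real.exp (-(ε * u)))
          ≤ 1 * ((bd + 1) * Real.exp (-(ε * u))) := by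
            refine mul_le_mul h1 ?_ (by positivity) zero_le_one
            exact mul_le_mul_of_nonneg_right h2 (Real.exp_pos _).le
        _ = _ := one_mul _
  rw [integral_integral_swap hint]
  refine setIntegral_congr_fun measurableSet_Ioc fun t _ => ?_
  simp only [F, integral_mul_const, integral_const_mul]
  rw [laplace_sub_one (by simpa using hε)]

lemma integrable_kern_shift {lam : ℝ} (hl : 0 < lam) (y : ℝ) :
    Integrable fun u => kern lam (y - u) :=
  (integrable_kern hl).comp_sub_left y

lemma smoothed_limit {lam : ℝ} (hl : 0 < lam) (y : ℝ) :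
    ((∫ u in Ioi (0:ℝ), (nf u - 1) * kern lam (y - u) : ℝ) : ℂ)
      = ∫ t in (-(2 * lam))..(2 * lam), ((1 - |t| / (2 * lam) : ℝ) : ℂ) *
          G ((t : ℂ) * Complex.I) * Complex.exp ((y : ℂ) * Complex.I * (t : ℂ)) := by
  set A : ℝ := 2 * lam with hA
  have hA0 : 0 < A := by positivity
  have hL : Tendsto
      (fun ε : ℝ => ∫ u in Ioi (0:ℝ), (nf u - 1) * Real.exp (-(ε * u)) * kern lam (y - u))
      (𝓝[>] 0) (𝓝 (∫ u in Ioi (0:ℝ), (nf u - 1) * kern lam (y - u))) := by
    refine tendsto_integral_filter_of_dominated_convergence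
      (fun u => (bd + 1) * kern lam (y - u)) (Eventually.of_forall fun ε => ?_) ?_
      ((integrable_kern_shift hl y).const_mul _).integrableOn (Eventually.of_forall fun u => ?_)
    · exact (((measurable_nf.sub_const 1).mul (by fun_prop)).mul
        ((measurable_kern lam).comp (by fun_prop))).aestronglyMeasurable
    · filter_upwards [self_mem_nhdsWithin] with ε hε
      refine ae_restrict_of_forall_mem measurableSet_Ioi fun u hu => ?_
      rw [Real.norm_eq_abs, abs_mul, abs_mul, abs_of_nonneg (kern_nonneg hl _),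
        abs_of_pos (Real.exp_pos _)]
      refine mul_le_mul_of_nonneg_right ?_ (kern_nonneg hl _)
      have h2 : |nf u - 1| ≤ bd + 1 := by
        have := nf_nonneg u; have := nf_le u; have := bd_pos
        rw [abs_le]; constructor <;> linarith
      have h3 : Real.exp (-(ε * u)) ≤ 1 := Real.exp_le_one_iff.2
        (neg_nonpos.2 (mul_nonneg (le_of_lt hε) (le_of_lt hu)))
      calc |nf u - 1| * Real.exp (-(ε * u)) ≤ (bd + 1) * 1 :=
            mul_le_mul h2 h3 (Real.exp_pos _).le (by linarith [bd_pos])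
        _ = bd + 1 := mul_one _
    · have : Tendsto (fun ε : ℝ => (nf u - 1) * Real.exp (-(ε * u)) * kern lam (y - u)) (𝓝 0)
          (𝓝 ((nf u - 1) * Real.exp (-(0 * u)) * kern lam (y - u))) :=
        (by fun_prop : Continuous fun ε : ℝ =>
          (nf u - 1) * Real.exp (-(ε * u)) * kern lam (y - u)).tendsto 0
      simpa using this.mono_left nhdsWithin_le_nhds
  have hL' := (Complex.continuous_ofReal.tendsto _).comp hL
  have hR : Tendsto (fun ε : ℝ => ∫ t in (-A)..A, ((1 - |t| / A : ℝ) : ℂ) *
        G ((ε : ℂ) + (t : ℂ) * Complex.I) * Complex.exp ((y : ℂ) * Complex.I * (t : ℂ)))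
      (𝓝[>] 0) (𝓝 (∫ t in (-A)..A, ((1 - |t| / A : ℝ) : ℂ) *
          G ((t : ℂ) * Complex.I) * Complex.exp ((y : ℂ) * Complex.I * (t : ℂ)))) := by
    have hG2 : ContinuousOn (fun p : ℝ × ℝ => ((1 - |p.2| / A : ℝ) : ℂ) *
        G ((p.1 : ℂ) + (p.2 : ℂ) * Complex.I) * Complex.exp ((y : ℂ) * Complex.I * (p.2 : ℂ)))
        {p | 0 ≤ p.1} := by
      refine ((by fun_prop : ContinuousOn _ _).mul ?_).mul (by fun_prop)
      exact continuousOn_G.comp (by fun_prop) fun p hp => by simpa using hp
    obtain ⟨B, hB⟩ := (isCompact_Icc.prod isCompact_Icc).exists_bound_of_continuousOn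
      (hG2.mono (t := Icc (0:ℝ) 1 ×ˢ Icc (-A) A) fun p hp => hp.1.1)
    have hmem : ∀ᶠ ε : ℝ in 𝓝[>] 0, ε ∈ Icc (0:ℝ) 1 :=
      mem_of_superset (Ioc_mem_nhdsGT zero_lt_one) Ioc_subset_Icc_self
    refine intervalIntegral.tendsto_integral_filter_of_dominated_convergence (fun _ => B) ?_ ?_
      intervalIntegrable_const ?_
    · filter_upwards [hmem] with ε hε
      refine (ContinuousOn.aestronglyMeasurable ?_ measurableSet_uIoc)
      exact hG2.comp (f := fun t : ℝ => (ε, t)) (by fun_prop) fun t _ => hε.1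
    · filter_upwards [hmem] with ε hε
      refine Eventually.of_forall fun t ht => hB (ε, t) ⟨hε, ?_⟩
      rw [uIoc_of_le (by linarith)] at ht
      exact Ioc_subset_Icc_self ht
    · refine Eventually.of_forall fun t _ => ?_
      have h0 := (hG2.comp (f := fun ε : ℝ => (ε, t)) (s := Ici 0) (by fun_prop)
        (fun ε hε => hε)).continuousWithinAt (x := 0) self_mem_Ici
      have h1 := h0.tendsto.mono_left (nhdsWithin_mono _ Ioi_subset_Ici_self)
      simpa [Function.comp_def] using h1
  refine tendsto_nhds_unique hL' (hR.congr' ?_)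
  filter_upwards [self_mem_nhdsWithin] with ε hε
  rw [Function.comp_apply, ← smoothed_eq hl hε y]
  exact integral_complex_ofReal

lemma smoothed_remainder {lam : ℝ} (hl : 0 < lam) :
    Tendsto (fun y => ∫ u in Ioi (0:ℝ), (nf u - 1) * kern lam (y - u)) atTop (𝓝 0) := by
  set A : ℝ := 2 * lam with hA
  have hA0 : 0 < A := by positivity
  let h : ℝ → ℂ := (Ioc (-A) A).indicator
    fun t => ((1 - |t| / A : ℝ) : ℂ) * G ((t : ℂ) * Complex.I)
  have hw : Tendsto (fun y : ℝ => -y / (2 * Real.pi)) atTop (cocompact ℝ) :=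
    (tendsto_neg_atTop_atBot.atBot_div_const (by positivity)).mono_right atBot_le_cocompact
  have key := (Real.tendsto_integral_exp_smul_cocompact h).comp hw
  have key' := (Complex.continuous_re.tendsto 0).comp key
  rw [Complex.zero_re] at key'
  refine key'.congr fun y => ?_
  rw [Function.comp_apply, Function.comp_apply]
  have := smoothed_limit hl y
  rw [intervalIntegral.integral_of_le (by linarith), ← integral_indicator measurableSet_Ioc] at this
  have e : ∫ v : ℝ, Real.fourierChar (-(v * (-y / (2 * Real.pi)))) • h v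
      = ((∫ u in Ioi (0:ℝ), (nf u - 1) * kern lam (y - u) : ℝ) : ℂ) := by
    rw [this]
    refine integral_congr_ae (Eventually.of_forall fun t => ?_)
    simp only [h, indicator_apply, smul_ite, smul_zero]
    split_ifs
    · rw [Circle.smul_def, Real.fourierChar_apply, smul_eq_mul]
      have : ((2 * Real.pi * -(t * (-y / (2 * Real.pi))) : ℝ) : ℂ) * Complex.I
          = (y : ℂ) * Complex.I * (t : ℂ) := by
        have : (2 * Real.pi * -(t * (-y / (2 * Real.pi))) : ℝ) = y * t := by field_simp
        rw [this]; push_cast; ring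
      rw [this]; ring
    · rfl
  rw [e, Complex.ofReal_re]

lemma integrable_nf_kern {lam : ℝ} (hl : 0 < lam) (y : ℝ) :
    Integrable fun u => nf u * kern lam (y - u) :=
  (integrable_kern_shift hl y).bdd_mul measurable_nf.aestronglyMeasurable
    (Eventually.of_forall fun u => by rw [Real.norm_of_nonneg (nf_nonneg u)]; exact nf_le u)

/-- The smoothed prime number theorem. -/
lemma smoothed_tendsto {lam : ℝ} (hl : 0 < lam) :
    Tendsto (fun y => ∫ u, nf u * kern lam (y - u)) atTop (𝓝 mass) := by
  have h2 : Tendsto (fun y => ∫ u in Ioi (0:ℝ), kern lam (y - u)) atTop (𝓝 mass) := by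
    have e : ∀ y : ℝ, ∫ u in Ioi (0:ℝ), kern lam (y - u) = ∫ v, (Iio y).indicator (kern lam) v := by
      intro y
      rw [← integral_indicator measurableSet_Ioi,
        ← integral_sub_left_eq_self ((Iio y).indicator (kern lam)) volume y]
      refine integral_congr_ae (Eventually.of_forall fun u => ?_)
      simp [indicator_apply]
    simp only [e]
    rw [← integral_kern hl]
    refine tendsto_integral_filter_of_dominated_convergence (kern lam)
      (Eventually.of_forall fun y =>
        ((measurable_kern lam).indicator measurableSet_Iio).aestronglyMeasurable)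
      (Eventually.of_forall fun y => Eventually.of_forall fun v => ?_) (integrable_kern hl)
      (Eventually.of_forall fun v => ?_)
    · rw [Real.norm_of_nonneg (indicator_nonneg (fun v _ => kern_nonneg hl v) v)]
      exact indicator_le_self' (fun v _ => kern_nonneg hl v) v
    · refine tendsto_const_nhds.congr' ?_
      filter_upwards [eventually_gt_atTop v] with y hy
      exact (indicator_of_mem (show v ∈ Iio y from hy) _).symm
  have h3 := (smoothed_remainder hl).add h2
  rw [zero_add] at h3
  refine h3.congr fun y => ?_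
  have hz : ∀ u ∉ Ioi (0:ℝ), nf u * kern lam (y - u) = 0 := fun u hu => by
    rw [nf_eq_zero (not_lt.1 hu), zero_mul]
  rw [← setIntegral_eq_integral_of_forall_compl_eq_zero hz]
  simp only [sub_mul, one_mul]
  rw [integral_sub (integrable_nf_kern hl y).integrableOn (integrable_kern_shift hl y).integrableOn,
    sub_add_cancel]

/-! ## Tauberian conclusion -/

lemma exists_lam {s : ℝ} (hs : 0 < s) :
    ∃ lam, 0 < lam ∧ (1 - s) * mass ≤ ∫ v in Icc (-(s / 2)) (s / 2), kern lam v := by
  have hlim : Tendsto (fun R : ℝ => ∫ v, (Icc (-R) R).indicator fejer v) atTop (𝓝 mass) := by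
    refine tendsto_integral_filter_of_dominated_convergence fejer
      (Eventually.of_forall fun R =>
        (measurable_fejer.indicator measurableSet_Icc).aestronglyMeasurable)
      (Eventually.of_forall fun R => Eventually.of_forall fun v => ?_) integrable_fejer
      (Eventually.of_forall fun v => ?_)
    · rw [Real.norm_of_nonneg (indicator_nonneg (fun v _ => fejer_nonneg v) v)]
      exact indicator_le_self' (fun v _ => fejer_nonneg v) v
    · refine tendsto_const_nhds.congr' ?_
      filter_upwards [eventually_ge_atTop |v|] with R hR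
      exact (indicator_of_mem (show v ∈ Icc (-R) R from abs_le.1 hR) _).symm
  obtain ⟨R, hR, hR0⟩ := ((hlim.eventually (eventually_gt_nhds
    (show (1 - s) * mass < mass by nlinarith [mass_pos]))).and (eventually_gt_atTop 0)).exists
  have hl : 0 < 2 * R / s := by positivity
  refine ⟨2 * R / s, hl, hR.le.trans (le_of_eq ?_)⟩
  rw [← integral_indicator measurableSet_Icc]
  have e : ∀ v, (Icc (-(s / 2)) (s / 2)).indicator (kern (2 * R / s)) v
      = 2 * R / s * (Icc (-R) R).indicator fejer (2 * R / s * v) := by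
    intro v
    have e0 : 2 * R / s * (s / 2) = R := by field_simp
    have : (v ∈ Icc (-(s / 2)) (s / 2)) ↔ (2 * R / s * v ∈ Icc (-R) R) := by
      simp only [mem_Icc]
      constructor <;> rintro ⟨a, b⟩ <;> constructor <;> nlinarith
    by_cases hv : v ∈ Icc (-(s / 2)) (s / 2)
    · rw [indicator_of_mem hv, indicator_of_mem (this.1 hv), kern]
    · rw [indicator_of_notMem hv, indicator_of_notMem (mt this.2 hv), mul_zero]
  simp only [e]
  rw [integral_const_mul, Measure.integral_comp_mul_left, smul_eq_mul,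
    abs_of_pos (inv_pos.2 hl), ← mul_assoc, mul_inv_cancel₀ hl.ne', one_mul]

lemma window_eq {lam : ℝ} (s c : ℝ) :
    ∫ u, (Icc (c - s) (c + s)).indicator (fun u => kern lam (c - u)) u
      = ∫ v in Icc (-s) s, kern lam v := by
  rw [← integral_indicator measurableSet_Icc,
    ← integral_sub_left_eq_self ((Icc (-s) s).indicator (kern lam)) volume c]
  refine integral_congr_ae (Eventually.of_forall fun u => ?_)
  simp only [indicator_apply, mem_Icc]
  congr 1
  rw [eq_iff_iff]
  constructor <;> rintro ⟨a, b⟩ <;> constructor <;> linarith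

lemma nf_upper {s : ℝ} (hs : 0 < s) (hs1 : s < 1) {b : ℝ}
    (hb : Real.exp s / (1 - s) < b) : ∀ᶠ y in atTop, nf y < b := by
  obtain ⟨lam, hl, hmass⟩ := exists_lam hs
  have hb' : mass < b * Real.exp (-s) * ((1 - s) * mass) := by
    have : 1 < b * Real.exp (-s) * (1 - s) := by
      rw [div_lt_iff₀ (by linarith)] at hb
      rw [Real.exp_neg, ← div_eq_mul_inv, div_mul_eq_mul_div, one_lt_div (Real.exp_pos s)]
      exact hb
    nlinarith [mass_pos]
  have hev : ∀ᶠ y in atTop, ∫ u, nf u * kern lam (y + s / 2 - u)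
      < b * Real.exp (-s) * ((1 - s) * mass) :=
    ((smoothed_tendsto hl).comp (tendsto_atTop_add_const_right _ (s / 2) tendsto_id)).eventually
      (eventually_lt_nhds hb')
  filter_upwards [hev] with y hy
  by_contra hcon
  rw [not_lt] at hcon
  refine absurd hy (not_lt.2 ?_)
  calc b * Real.exp (-s) * ((1 - s) * mass)
      ≤ nf y * Real.exp (-s) * ∫ v in Icc (-(s / 2)) (s / 2), kern lam v := by
        refine mul_le_mul (mul_le_mul_of_nonneg_right hcon (Real.exp_pos _).le) hmass
          (mul_nonneg (by linarith) mass_pos.le) (mul_nonneg (nf_nonneg y) (Real.exp_pos _).le)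
    _ = ∫ u, nf y * Real.exp (-s) *
          (Icc (y + s / 2 - s / 2) (y + s / 2 + s / 2)).indicator
            (fun u => kern lam (y + s / 2 - u)) u := by
        rw [integral_const_mul, window_eq]
    _ ≤ _ := by
        refine integral_mono (((integrable_kern_shift hl _).indicator measurableSet_Icc).const_mul _)
          (integrable_nf_kern hl _) fun u => ?_
        by_cases hu : u ∈ Icc (y + s / 2 - s / 2) (y + s / 2 + s / 2)
        · rw [indicator_of_mem hu]
          refine mul_le_mul_of_nonneg_right ?_ (kern_nonneg hl _)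
          obtain ⟨hu1, hu2⟩ := hu
          refine le_trans ?_ (nf_shift (show y ≤ u by linarith))
          exact mul_le_mul_of_nonneg_left (Real.exp_le_exp.2 (by linarith)) (nf_nonneg y)
        · rw [indicator_of_notMem hu, mul_zero]
          exact mul_nonneg (nf_nonneg u) (kern_nonneg hl _)

lemma nf_lower {s : ℝ} (hs : 0 < s) {a : ℝ} (ha0 : 0 ≤ a)
    (ha : a < Real.exp (-s) * (1 - bd * s)) : ∀ᶠ y in atTop, a < nf y := by
  obtain ⟨lam, hl, hmass⟩ := exists_lam hs
  have ha' : a * Real.exp s * mass + bd * (s * mass) < mass := by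
    have : a * Real.exp s < 1 - bd * s := by
      rw [Real.exp_neg, inv_mul_eq_div, lt_div_iff₀ (Real.exp_pos s)] at ha
      exact ha
    nlinarith [mass_pos]
  have hev : ∀ᶠ y in atTop, a * Real.exp s * mass + bd * (s * mass)
      < ∫ u, nf u * kern lam (y + -(s / 2) - u) :=
    ((smoothed_tendsto hl).comp (tendsto_atTop_add_const_right _ (-(s / 2)) tendsto_id)).eventually
      (eventually_gt_nhds ha')
  filter_upwards [hev] with y hy
  by_contra hcon
  rw [not_lt] at hcon
  refine absurd hy (not_lt.2 ?_)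
  set c : ℝ := y + -(s / 2) with hc
  set W := (Icc (c - s / 2) (c + s / 2)).indicator (fun u => kern lam (c - u)) with hW
  have hWi : Integrable W := (integrable_kern_shift hl c).indicator measurableSet_Icc
  have hWm : (1 - s) * mass ≤ ∫ u, W u := by rw [hW, window_eq]; exact hmass
  have hKm : ∫ u, kern lam (c - u) = mass := by
    rw [integral_sub_left_eq_self (kern lam) volume c, integral_kern hl]
  have hW2 : ∫ u, W u ≤ mass := by
    rw [← hKm]
    exact integral_mono hWi (integrable_kern_shift hl c) fun u =>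
      indicator_le_self' (fun v _ => kern_nonneg hl _) u
  calc ∫ u, nf u * kern lam (c - u)
      ≤ ∫ u, (a * Real.exp s * W u + bd * (kern lam (c - u) - W u)) := by
        refine integral_mono (integrable_nf_kern hl c)
          ((hWi.const_mul _).add (((integrable_kern_shift hl c).sub hWi).const_mul _)) fun u => ?_
        by_cases hu : u ∈ Icc (c - s / 2) (c + s / 2)
        · rw [hW, indicator_of_mem hu, sub_self, mul_zero, add_zero]
          refine mul_le_mul_of_nonneg_right ?_ (kern_nonneg hl _)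
          obtain ⟨hu1, hu2⟩ := hu
          have h1 := nf_shift (show u ≤ y by linarith)
          have h2 : nf u * Real.exp (-s) ≤ a :=
            (mul_le_mul_of_nonneg_left (Real.exp_le_exp.2 (by linarith)) (nf_nonneg u)).trans
              (h1.trans hcon)
          rw [Real.exp_neg, ← div_eq_mul_inv, div_le_iff₀ (Real.exp_pos s)] at h2
          exact h2
        · rw [hW, indicator_of_notMem hu, mul_zero, zero_add, sub_zero]
          exact mul_le_mul_of_nonneg_right (nf_le u) (kern_nonneg hl _)
    _ = a * Real.exp s * (∫ u, W u) + bd * (mass - ∫ u, W u) := by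
        have i2 : Integrable fun u => bd * (kern lam (c - u) - W u) :=
          ((integrable_kern_shift hl c).sub hWi).const_mul bd
        rw [integral_add (hWi.const_mul _) i2,
          integral_const_mul, integral_const_mul, integral_sub (integrable_kern_shift hl c) hWi,
          hKm]
    _ ≤ a * Real.exp s * mass + bd * (s * mass) := by
        refine add_le_add (mul_le_mul_of_nonneg_left hW2 (by positivity))
          (mul_le_mul_of_nonneg_left (by linarith) bd_pos.le)

lemma nf_tendsto : Tendsto nf atTop (𝓝 1) := by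
  refine tendsto_order.2 ⟨fun a ha => ?_, fun b hb => ?_⟩
  · by_cases ha0 : a < 0
    · exact Eventually.of_forall fun y => ha0.trans_le (nf_nonneg y)
    · have hc : ∀ᶠ s : ℝ in 𝓝[>] 0, a < Real.exp (-s) * (1 - bd * s) :=
        (((by fun_prop : Continuous fun s : ℝ => Real.exp (-s) * (1 - bd * s)).tendsto' 0 1
          (by simp)).mono_left nhdsWithin_le_nhds).eventually (eventually_gt_nhds ha)
      obtain ⟨s, hs, hs0⟩ := (hc.and self_mem_nhdsWithin).exists
      exact nf_lower hs0 (not_lt.1 ha0) hs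
  · have hc : ∀ᶠ s : ℝ in 𝓝[>] 0, Real.exp s / (1 - s) < b := by
      have : ContinuousAt (fun s : ℝ => Real.exp s / (1 - s)) 0 :=
        ContinuousAt.div (by fun_prop) (by fun_prop) (by norm_num)
      exact ((by simpa using this.tendsto : Tendsto (fun s : ℝ => Real.exp s / (1 - s)) (𝓝 0)
        (𝓝 1)).mono_left nhdsWithin_le_nhds).eventually (eventually_lt_nhds hb)
    obtain ⟨s, hs, hs0, hs1⟩ := (hc.and (Ioo_mem_nhdsGT zero_lt_one)).exists
    exact nf_upper hs0 hs1 hs

/-- The prime number theorem for `ψ`. -/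
theorem psi_div_tendsto :
    Tendsto (fun x : ℝ => Chebyshev.psi x / x) atTop (𝓝 1) := by
  refine (nf_tendsto.comp Real.tendsto_log_atTop).congr' ?_
  filter_upwards [eventually_gt_atTop 0] with x hx
  simp [nf, Real.exp_log hx, Real.exp_neg, div_eq_mul_inv]

/-- The prime number theorem for `θ`. -/
theorem theta_div_tendsto :
    Tendsto (fun x : ℝ => Chebyshev.theta x / x) atTop (𝓝 1) := by
  obtain ⟨C, hC⟩ := Chebyshev.psi_sub_theta_le_mul_sqrt
  have h0 : Tendsto (fun x : ℝ => (Chebyshev.psi x - Chebyshev.theta x) / x) atTop (𝓝 0) := by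
    refine squeeze_zero' (g := fun x => C / Real.sqrt x) ?_ ?_
      (Real.tendsto_sqrt_atTop.const_div_atTop C)
    · filter_upwards [eventually_gt_atTop 0] with x hx
      exact div_nonneg (sub_nonneg.2 (Chebyshev.theta_le_psi x)) hx.le
    · filter_upwards [eventually_gt_atTop 0] with x hx
      rw [div_le_div_iff₀ hx (Real.sqrt_pos.2 hx)]
      calc (Chebyshev.psi x - Chebyshev.theta x) * Real.sqrt x
          ≤ C * Real.sqrt x * Real.sqrt x :=
            mul_le_mul_of_nonneg_right (hC x) (Real.sqrt_nonneg x)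
        _ = C * x := by rw [mul_assoc, Real.mul_self_sqrt hx.le]
  have := psi_div_tendsto.sub h0
  rw [sub_zero] at this
  exact this.congr fun x => by ring

/-- The prime number theorem. -/
theorem primeCounting_tendsto :
    Tendsto (fun x : ℝ => (Nat.primeCounting ⌊x⌋₊ : ℝ) * Real.log x / x) atTop (𝓝 1) := by
  have h0 := Chebyshev.integral_theta_div_log_sq_isLittleO.tendsto_div_nhds_zero
  have := theta_div_tendsto.add h0
  rw [add_zero] at this
  refine this.congr' ?_
  filter_upwards [eventually_ge_atTop 2] with x hx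
  have hlog : 0 < Real.log x := Real.log_pos (by linarith)
  rw [Chebyshev.primeCounting_eq_theta_div_log_add_integral hx]
  field_simp

end Vale.Agent.P031.PNT

open Filter Topology in
/-- The prime number theorem. -/
theorem Vale.Agent.P031.pnt :
    Tendsto (fun x : ℝ => (Nat.primeCounting ⌊x⌋₊ : ℝ) * Real.log x / x) atTop (𝓝 1) :=
  Vale.Agent.P031.PNT.primeCounting_tendsto
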