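import Vale.Agent.P031.RegionBasic

/-!
# Lattice points and volumes of admissible regions
-/

open Finset Real MeasureTheory
open scoped Classical ENNReal
noncomputable section
namespace Vale.Agent.P031

set_option linter.unusedSectionVars false

variable {L T σ : ℝ} {k : ℕ}

/-- The unit cube with lowest corner `n`. -/
def cube (n : Fin k → ℕ) : Set (Fin k → ℝ) :=
  Set.pi Set.univ fun l => Set.Ico (n l : ℝ) ((n l : ℝ) + 1)

theorem volume_cube (n : Fin k → ℕ) : volume (cube n) = 1 := by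
  simp [cube, volume_pi_pi, Real.volume_Ico]

theorem mem_cube {n : Fin k → ℕ} {y : Fin k → ℝ} :
    y ∈ cube n ↔ ∀ l, (n l : ℝ) ≤ y l ∧ y l < (n l : ℝ) + 1 := by
  simp only [cube, Set.mem_univ_pi, Set.mem_Ico]

theorem card_le_volume {F : Finset (Fin k → ℕ)} {S : Set (Fin k → ℝ)}
    (h : ∀ n ∈ F, cube n ⊆ S) : (F.card : ℝ≥0∞) ≤ volume S := by
  have hd : Set.PairwiseDisjoint (F : Set (Fin k → ℕ)) cube := by
    intro n _ m _ hnm
    refine Set.disjoint_left.2 fun y hn hm => hnm ?_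
    funext l
    have h1 := mem_cube.1 hn l
    have h2 := mem_cube.1 hm l
    have ha : (n l : ℝ) < (m l : ℝ) + 1 := by linarith
    have hb : (m l : ℝ) < (n l : ℝ) + 1 := by linarith
    have ha' : n l < m l + 1 := by exact_mod_cast ha
    have hb' : m l < n l + 1 := by exact_mod_cast hb
    omega
  have hm : ∀ n ∈ F, MeasurableSet (cube n) := fun n _ =>
    MeasurableSet.univ_pi fun l => measurableSet_Ico
  calc (F.card : ℝ≥0∞) = ∑ n ∈ F, volume (cube n) := by simp [volume_cube]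
    _ = volume (⋃ n ∈ F, cube n) := (measure_biUnion_finset hd hm).symm
    _ ≤ volume S := measure_mono (Set.iUnion₂_subset h)

theorem mem_Lat {n : Fin k → ℕ} :
    n ∈ Lat L T σ k ↔ (∀ l, n l < ⌈3 * L⌉₊ + 1) ∧ (fun l => (n l : ℝ)) ∈ Reg L T σ k := by
  simp [Lat, Fintype.mem_piFinset]

theorem mem_Lat_of_Reg (hT : Tbig ≤ T) (hTL : T ≤ L) (hσ : σ ≤ 40) {n : Fin k → ℕ}
    (h : (fun l => (n l : ℝ)) ∈ Reg L T σ k) : n ∈ Lat L T σ k := by
  refine mem_Lat.2 ⟨fun l => ?_, h⟩
  have h1 := Reg_le_three hT hTL hσ h l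
  have h2 : (n l : ℝ) ≤ (⌈3 * L⌉₊ : ℝ) := h1.trans (Nat.le_ceil _)
  have h3 : n l ≤ ⌈3 * L⌉₊ := by exact_mod_cast h2
  omega

theorem sum_alpha_le (i : Fin k) :
    (∑ l : Fin k, if i ≤ l then alpha ((l : ℕ) - (i : ℕ) + 1) else 0)
      ≤ ((k : ℝ) - (i : ℕ)) * ((k : ℝ) - (i : ℕ) + 1) := by
  have hik : ((i : ℕ) : ℝ) + 1 ≤ k := by exact_mod_cast i.isLt
  calc (∑ l : Fin k, if i ≤ l then alpha ((l : ℕ) - (i : ℕ) + 1) else 0)
      ≤ ∑ l : Fin k, if i ≤ l then ((k : ℝ) - (i : ℕ) + 1) else 0 := by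
        refine Finset.sum_le_sum fun l _ => ?_
        split_ifs with h
        · refine (alpha_le_reg _).trans ?_
          have hl : ((l : ℕ) : ℝ) + 1 ≤ k := by exact_mod_cast l.isLt
          rw [Nat.cast_sub (Fin.le_def.1 h)]
          linarith
        · exact le_rfl
    _ = ((k - (i : ℕ) : ℕ) : ℝ) * ((k : ℝ) - (i : ℕ) + 1) := by
        have e : (univ.filter fun l : Fin k => i ≤ l) = Finset.Ici i := by ext; simp
        rw [← Finset.sum_filter, e, Finset.sum_const, Fin.card_Ici, nsmul_eq_mul]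
    _ = _ := by rw [Nat.cast_sub i.isLt.le]

theorem quad_le_geom (m : ℕ) :
    ((m : ℝ) + 2) ^ 2 ≤ 10 ^ 4 * (1.06 ^ m) ^ (3 / 4 : ℝ) := by
  set q : ℝ := (1.06 : ℝ) ^ (3 / 8 : ℝ) with hq
  have hq1 : 1.01 ≤ q := by
    have h1 : (1.06 : ℝ) = (1 + 0.06) := by norm_num
    have h2 := Real.add_one_le_exp ((3 / 8 : ℝ) * log 1.06)
    rw [hq, Real.rpow_def_of_pos (by norm_num), mul_comm]
    have h3 := Real.one_sub_inv_le_log_of_pos (show (0 : ℝ) < 1.06 by norm_num)
    norm_num at h3 h2 ⊢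
    linarith
  have e : ((1.06 : ℝ) ^ m) ^ (3 / 4 : ℝ) = (q ^ m) ^ 2 := by
    rw [hq, ← Real.rpow_natCast (1.06 : ℝ) m, ← rpow_mul (by norm_num), ← pow_mul,
      ← Real.rpow_natCast ((1.06 : ℝ) ^ (3 / 8 : ℝ)), ← rpow_mul (by norm_num)]
    congr 1
    push_cast
    ring
  have h4 : 1 + (m : ℝ) * (q - 1) ≤ q ^ m := by
    have := one_add_mul_le_pow (show (-2 : ℝ) ≤ q - 1 by linarith) m
    simpa using this
  have h5 : 0.01 * ((m : ℝ) + 2) ≤ q ^ m := by
    have : (m : ℝ) * 0.01 ≤ (m : ℝ) * (q - 1) :=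
      mul_le_mul_of_nonneg_left (by linarith) (Nat.cast_nonneg _)
    linarith
  rw [e]
  have h6 := mul_self_le_mul_self (by positivity) h5
  nlinarith

/-- A unit cube at an admissible lattice point is admissible with one more slack. -/
theorem cube_subset (hT : Tbig ≤ T) (hTL : T ≤ L) (hσ0 : 0 ≤ σ) (hσ : σ ≤ 39) {n : Fin k → ℕ}
    (hn : n ∈ Lat L T σ k) : cube n ⊆ Reg L T (σ + 1) k := by
  intro y hy
  rw [mem_cube] at hy
  have hr := (mem_Lat.1 hn).2
  set z : Fin k → ℝ := fun l => (n l : ℝ) with hz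
  have hzy : ∀ l, z l ≤ y l := fun l => (hy l).1
  have hy' : ∀ l, T ≤ y l := fun l => (hr.1 l).trans (hzy l)
  refine ⟨hy', fun i => ?_⟩
  have hp : par L z i ≤ par L y i := by
    unfold par; split_ifs
    · exact le_rfl
    · exact hzy _
  have hp0 : T ≤ par L z i := le_par hTL hr.1 i
  have hTp : 0 < T := Tbig_pos.trans_le hT
  have hd : Del (par L z i) ≤ Del (par L y i) := Del_mono (hTp.le.trans hp0) hp
  have hd1 : 1 ≤ Del (par L z i) := one_le_Del ((one_le_Tbig.trans hT).trans hp0)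
  have hd2 : σ * Del (par L z i) ≤ σ * Del (par L y i) := mul_le_mul_of_nonneg_left hd hσ0
  have h1 := (hr.2 i)
  refine ⟨?_, ?_⟩
  · have := (hy i).2
    linarith [h1.1, show z i = (n i : ℝ) from rfl]
  have h2 : sufE y i ≤ sufE z i + ∑ l : Fin k,
      (if i ≤ l then alpha ((l : ℕ) - (i : ℕ) + 1) else 0) := by
    unfold sufE
    rw [← Finset.sum_add_distrib]
    refine Finset.sum_le_sum fun l _ => ?_
    split_ifs
    · have : y l ≤ z l + 1 := (hy l).2.le
      have := mul_le_mul_of_nonneg_left this (alpha_nonneg ((l : ℕ) - (i : ℕ)))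
      linarith
    · simp
  set m : ℕ := k - 1 - (i : ℕ) with hm
  have hkm : (k : ℝ) - (i : ℕ) = (m : ℝ) + 1 := by
    have : (m : ℕ) + 1 + (i : ℕ) = k := by have := i.isLt; omega
    have h : ((m + 1 + (i : ℕ) : ℕ) : ℝ) = k := by rw [this]
    push_cast at h
    linarith
  have h3 : sufE y i ≤ sufE z i + ((m : ℝ) + 2) ^ 2 := by
    have := sum_alpha_le i
    rw [hkm] at this
    nlinarith [Nat.cast_nonneg (α := ℝ) m]
  have h4 : T / 2 * 1.06 ^ m ≤ par L z i := by
    have := par_lower hT hTL (by linarith) hr i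
    linarith
  have h5 : ((m : ℝ) + 2) ^ 2 ≤ Del (par L z i) := by
    refine (quad_le_geom m).trans ?_
    refine le_trans ?_ (Del_mono (by positivity) h4)
    unfold Del
    rw [mul_rpow (by positivity) (by positivity)]
    refine mul_le_mul_of_nonneg_right ?_ (by positivity)
    have h6 : (10 : ℝ) ^ 8 ≤ T / 2 := by
      have : (2 : ℝ) * 10 ^ 8 ≤ Tbig := by unfold Tbig; norm_num
      linarith
    calc (10 : ℝ) ^ 4 ≤ ((10 : ℝ) ^ 8) ^ (3 / 4 : ℝ) := by
          rw [← Real.rpow_natCast (10 : ℝ) 8, ← rpow_mul (by norm_num),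
            ← Real.rpow_natCast (10 : ℝ) 4]
          exact rpow_le_rpow_of_exponent_le (by norm_num) (by norm_num)
      _ ≤ _ := rpow_le_rpow (by norm_num) h6 (by norm_num)
  linarith [h1.2]

/-- Volume is controlled by lattice points one slack further. -/
theorem volume_le_card (hT : Tbig ≤ T) (hTL : T + 1 ≤ L) (hσ : σ ≤ -1) :
    volume (Reg L (T + 1) σ k) ≤ (Lat L T (σ + 1) k).card := by
  have hsub : Reg L (T + 1) σ k ⊆ ⋃ n ∈ Lat L T (σ + 1) k, cube n := by
    intro y hy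
    have hTp : 0 < T := Tbig_pos.trans_le hT
    have hy0 : ∀ l, 0 ≤ y l := fun l => by linarith [hy.1 l]
    set n : Fin k → ℕ := fun l => ⌊y l⌋₊
    set z : Fin k → ℝ := fun l => (n l : ℝ)
    have hzy : ∀ l, z l ≤ y l := fun l => Nat.floor_le (hy0 l)
    have hyz : ∀ l, y l < z l + 1 := fun l => Nat.lt_floor_add_one _
    have hz : ∀ l, T ≤ z l := fun l => by linarith [hy.1 l, hyz l]
    refine Set.mem_iUnion₂.2 ⟨n, mem_Lat_of_Reg hT (by linarith) (by linarith) ⟨hz, fun i => ?_⟩,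
      mem_cube.2 fun l => ⟨hzy l, hyz l⟩⟩
    have hp1 : par L z i ≤ par L y i := by
      unfold par; split_ifs
      · exact le_rfl
      · exact hzy _
    have hp2 : par L y i ≤ par L z i + 1 := by
      unfold par; split_ifs
      · linarith
      · exact (hyz _).le
    have hp0 : T ≤ par L z i := le_par (by linarith) hz i
    have hd : Del (par L z i) ≤ Del (par L y i) := Del_mono (by linarith) hp1
    have hd1 : 1 ≤ Del (par L z i) := one_le_Del ((one_le_Tbig.trans hT).trans hp0)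
    have hd2 : σ * Del (par L y i) ≤ σ * Del (par L z i) :=
      mul_le_mul_of_nonpos_left hd (by linarith)
    have hs := sufE_mono hzy i
    have h1 := hy.2 i
    constructor
    · change z i ≤ par L z i + (σ + 1) * Del (par L z i)
      linarith [hzy i, h1.1]
    · change sufE z i ≤ par L z i + (σ + 1) * Del (par L z i)
      linarith [h1.2]
  refine (measure_mono hsub).trans ((measure_biUnion_finset_le _ _).trans ?_)
  simp [volume_cube]

theorem measurableSet_Reg : MeasurableSet (Reg L T σ k) := by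
  have hpar : ∀ i : Fin k, Measurable fun y : Fin k → ℝ => par L y i := by
    intro i
    unfold par
    split_ifs
    · exact measurable_const
    · exact measurable_pi_apply _
  have hdel : ∀ i : Fin k, Measurable fun y : Fin k → ℝ => Del (par L y i) := by
    intro i
    unfold Del
    exact (hpar i).pow_const _
  have hsuf : ∀ i : Fin k, Measurable fun y : Fin k → ℝ => sufE y i := by
    intro i
    unfold sufE
    refine Finset.measurable_sum _ fun l _ => ?_
    by_cases h : i ≤ l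
    · simpa [h] using (measurable_pi_apply l).const_mul _
    · simp [h]
  have e : Reg L T σ k = (⋂ l : Fin k, {y | T ≤ y l}) ∩ ⋂ i : Fin k,
      ({y | y i ≤ par L y i + σ * Del (par L y i)} ∩
        {y | sufE y i ≤ par L y i + σ * Del (par L y i)}) := by
    ext y
    simp [Reg]
  rw [e]
  refine (MeasurableSet.iInter fun l => measurableSet_le measurable_const (measurable_pi_apply l)).inter
    (MeasurableSet.iInter fun i => ?_)
  have hb : Measurable fun y : Fin k → ℝ => par L y i + σ * Del (par L y i) :=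
    (hpar i).add ((hdel i).const_mul _)
  exact (measurableSet_le (measurable_pi_apply i) hb).inter (measurableSet_le (hsuf i) hb)

/-- The shrinking rate used by the slack map. -/
def eps (T : ℝ) (m : ℕ) : ℝ := 110 * T ^ (-(1 / 4) : ℝ) * 0.99 ^ m

theorem eps_nonneg (hT : 0 ≤ T) (m : ℕ) : 0 ≤ eps T m := by unfold eps; positivity

theorem eps_sum_le (hT : Tbig ≤ T) (k : ℕ) :
    ∑ m ∈ Finset.range k, ((m : ℝ) + 1) * eps T m ≤ 1 / 4 := by
  have h1 : ∀ n : ℕ, ∑ m ∈ Finset.range n, ((m : ℝ) + 1) * (0.99 : ℝ) ^ m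
      = 10000 * (1 - ((n : ℝ) * 0.01 + 1) * 0.99 ^ n) := by
    intro n
    induction n with
    | zero => simp
    | succ n ih => rw [Finset.sum_range_succ, ih, pow_succ]; push_cast; ring
  have h2 : ∑ m ∈ Finset.range k, ((m : ℝ) + 1) * eps T m
      = 110 * T ^ (-(1 / 4) : ℝ) * (10000 * (1 - ((k : ℝ) * 0.01 + 1) * 0.99 ^ k)) := by
    rw [← h1, Finset.mul_sum]
    refine Finset.sum_congr rfl fun m _ => ?_
    unfold eps; ring
  rw [h2]
  have h3 := rpow_Tbig_le hT
  have h4 : (0 : ℝ) ≤ T ^ (-(1 / 4) : ℝ) := rpow_nonneg (Tbig_pos.le.trans hT) _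
  have h5 : 10000 * (1 - ((k : ℝ) * 0.01 + 1) * 0.99 ^ k) ≤ (10000 : ℝ) := by
    have : (0 : ℝ) ≤ ((k : ℝ) * 0.01 + 1) * 0.99 ^ k := by positivity
    linarith
  calc 110 * T ^ (-(1 / 4) : ℝ) * (10000 * (1 - ((k : ℝ) * 0.01 + 1) * 0.99 ^ k))
      ≤ 110 * T ^ (-(1 / 4) : ℝ) * 10000 := mul_le_mul_of_nonneg_left h5 (by positivity)
    _ ≤ 110 * ((10 : ℝ) ^ 20)⁻¹ * 10000 := by linarith
    _ ≤ 1 / 4 := by norm_num

theorem one_sub_sum_le_prod {ι : Type*} (s : Finset ι) (f : ι → ℝ)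
    (h : ∀ i ∈ s, 0 ≤ f i ∧ f i ≤ 1) : 1 - ∑ i ∈ s, f i ≤ ∏ i ∈ s, (1 - f i) := by
  induction s using Finset.induction_on with
  | empty => simp
  | @insert a s ha ih =>
    rw [Finset.sum_insert ha, Finset.prod_insert ha]
    obtain ⟨h0, h1⟩ := h a (Finset.mem_insert_self _ _)
    have hs : ∀ i ∈ s, 0 ≤ f i ∧ f i ≤ 1 := fun i hi => h i (Finset.mem_insert_of_mem hi)
    have := mul_le_mul_of_nonneg_left (ih hs) (show 0 ≤ 1 - f a by linarith)
    have := mul_nonneg h0 (Finset.sum_nonneg fun i hi => (hs i hi).1)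
    linarith

/-- The coefficient of the slack map at index `l`. -/
def coef (T : ℝ) (k : ℕ) (l : ℕ) : ℝ :=
  ∏ j ∈ Finset.range (l + 1), (1 - eps T (k - 1 - j))

theorem eps_le (hT : Tbig ≤ T) (m : ℕ) : eps T m ≤ 1 / 4 := by
  have h := eps_sum_le hT (m + 1)
  have hT0 : 0 ≤ T := Tbig_pos.le.trans hT
  rw [Finset.sum_range_succ] at h
  have h1 : 0 ≤ ∑ j ∈ Finset.range m, ((j : ℝ) + 1) * eps T j :=
    Finset.sum_nonneg fun j _ => mul_nonneg (by positivity) (eps_nonneg hT0 j)
  have h2 : 1 * eps T m ≤ ((m : ℝ) + 1) * eps T m :=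
    mul_le_mul_of_nonneg_right (by linarith [Nat.cast_nonneg (α := ℝ) m]) (eps_nonneg hT0 m)
  linarith

theorem sum_eps_tail (hT : Tbig ≤ T) {l : ℕ} (hl : l < k) :
    ∑ j ∈ Finset.range (l + 1), eps T (k - 1 - j) ≤ 1 / 4 := by
  have hT0 : 0 ≤ T := Tbig_pos.le.trans hT
  calc ∑ j ∈ Finset.range (l + 1), eps T (k - 1 - j)
      ≤ ∑ j ∈ Finset.range k, eps T (k - 1 - j) :=
        Finset.sum_le_sum_of_subset_of_nonneg (Finset.range_mono (by omega))
          (fun j _ _ => eps_nonneg hT0 _)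
    _ = ∑ m ∈ Finset.range k, eps T m := Finset.sum_range_reflect (eps T) k
    _ ≤ ∑ m ∈ Finset.range k, ((m : ℝ) + 1) * eps T m :=
        Finset.sum_le_sum fun m _ => le_mul_of_one_le_left (eps_nonneg hT0 m)
          (by linarith [Nat.cast_nonneg (α := ℝ) m])
    _ ≤ _ := eps_sum_le hT k

theorem coef_bounds (hT : Tbig ≤ T) {l : ℕ} (hl : l < k) :
    1 / 2 ≤ coef T k l ∧ coef T k l ≤ 1 := by
  have hT0 : 0 ≤ T := Tbig_pos.le.trans hT
  have hf : ∀ j ∈ Finset.range (l + 1), 0 ≤ eps T (k - 1 - j) ∧ eps T (k - 1 - j) ≤ 1 :=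
    fun j _ => ⟨eps_nonneg hT0 _, (eps_le hT _).trans (by norm_num)⟩
  refine ⟨?_, Finset.prod_le_one (fun j hj => by linarith [(hf j hj).2])
    (fun j hj => by linarith [(hf j hj).1])⟩
  have := one_sub_sum_le_prod _ _ hf
  have := sum_eps_tail hT hl
  unfold coef
  linarith

theorem coef_succ (l : ℕ) : coef T k (l + 1) = coef T k l * (1 - eps T (k - 1 - (l + 1))) := by
  unfold coef
  rw [Finset.prod_range_succ]

theorem coef_antitone (hT : Tbig ≤ T) {a b : ℕ} (hab : a ≤ b) (hb : b < k) :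
    coef T k b ≤ coef T k a := by
  induction b, hab using Nat.le_induction with
  | base => exact le_rfl
  | succ b _ ih =>
    have h := coef_bounds hT (show b < k by omega)
    rw [coef_succ]
    have := eps_nonneg (Tbig_pos.le.trans hT) (k - 1 - (b + 1))
    have := mul_nonneg (show 0 ≤ coef T k b by linarith) this
    linarith [ih (by omega)]

theorem prod_coef (hT : Tbig ≤ T) (k : ℕ) : 1 / 2 ≤ ∏ l : Fin k, coef T k l := by
  have hT0 : 0 ≤ T := Tbig_pos.le.trans hT
  rw [Fin.prod_univ_eq_prod_range (fun l => coef T k l) k]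
  unfold coef
  rw [Finset.prod_sigma' (Finset.range k) (fun l => Finset.range (l + 1))
    (fun _ j => 1 - eps T (k - 1 - j))]
  have := one_sub_sum_le_prod ((Finset.range k).sigma fun l => Finset.range (l + 1))
    (fun x => eps T (k - 1 - x.2))
    (fun x _ => ⟨eps_nonneg hT0 _, (eps_le hT _).trans (by norm_num)⟩)
  refine le_trans ?_ this
  suffices h : ∑ x ∈ (Finset.range k).sigma fun l => Finset.range (l + 1),
      eps T (k - 1 - x.2) ≤ ∑ m ∈ Finset.range k, ((m : ℝ) + 1) * eps T m by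
    linarith [eps_sum_le hT k]
  rw [Finset.sum_sigma]
  rw [Finset.sum_comm' (t' := Finset.range k) (s' := fun j => Finset.Ico j k)
    (by intro x y; simp only [Finset.mem_range, Finset.mem_Ico]; omega)]
  rw [← Finset.sum_range_reflect (fun m => ((m : ℝ) + 1) * eps T m) k]
  refine le_of_eq (Finset.sum_congr rfl fun j hj => ?_)
  have hj' := Finset.mem_range.1 hj
  show ∑ _x ∈ Finset.Ico j k, eps T (k - 1 - j) = _
  rw [Finset.sum_const, Nat.card_Ico, nsmul_eq_mul]
  congr 1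
  have : k - j = k - 1 - j + 1 := by omega
  rw [this]
  push_cast
  ring

/-- Slack `≤ 40` at height `T` becomes slack `-3` at height `T/2`, losing half the volume. -/
theorem volume_slack (hT : Tbig ≤ T) (hTL : T ≤ L) (hσ : σ ≤ 40) :
    volume (Reg L T σ k) ≤ 2 * volume (Reg L (T / 2) (-3) k) := by
  set f : (Fin k → ℝ) →ₗ[ℝ] (Fin k → ℝ) :=
    Matrix.toLin' (Matrix.diagonal fun l : Fin k => coef T k l) with hf
  have hfy : ∀ y l, f y l = coef T k l * y l := by
    intro y l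
    simp [hf, Matrix.toLin'_apply, Matrix.mulVec_diagonal]
  have hTp : 0 < T := Tbig_pos.trans_le hT
  have hsub : f '' Reg L T σ k ⊆ Reg L (T / 2) (-3) k := by
    rintro _ ⟨y, hy, rfl⟩
    have hy0 : ∀ l, 0 ≤ y l := Reg_nonneg hT hTL hσ hy
    refine ⟨fun l => ?_, fun i => ?_⟩
    · rw [hfy]
      have h1 := mul_le_mul_of_nonneg_right (coef_bounds hT l.isLt).1 (hy0 l)
      have h2 := hy.1 l
      linarith
    set p := par L y i with hp
    set e := eps T (k - 1 - (i : ℕ)) with he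
    have he0 : 0 ≤ e := eps_nonneg hTp.le _
    have he1 : e ≤ 1 / 4 := eps_le hT _
    have hpT : T ≤ p := le_par hTL hy.1 i
    have hp0 : 0 < p := hTp.trans_le hpT
    have hD0 : 0 ≤ Del p := Del_nonneg hp0.le
    obtain ⟨a, ha0, ha1, hca, hpa⟩ : ∃ a, 1 / 2 ≤ a ∧ a ≤ 1 ∧ coef T k i = a * (1 - e) ∧
        par L (f y) i = a * p := by
      rcases Nat.eq_zero_or_pos (i : ℕ) with h0 | h0
      · refine ⟨1, by norm_num, le_rfl, ?_, ?_⟩
        · simp [coef, he, h0]
        · simp [hp, par, h0]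
      · obtain ⟨j, hj⟩ : ∃ j, (i : ℕ) = j + 1 := ⟨(i : ℕ) - 1, by omega⟩
        have hjk : j < k := by have := i.isLt; omega
        refine ⟨coef T k j, (coef_bounds hT hjk).1, (coef_bounds hT hjk).2, ?_, ?_⟩
        · rw [he, hj, coef_succ]
        · simp [hp, par, hj, hfy]
    have hc0 : 0 ≤ coef T k i := by linarith [(coef_bounds hT i.isLt).1]
    have hkey : coef T k i * (p + σ * Del p) ≤ a * p + -3 * Del (a * p) := by
      have hap : Del (a * p) ≤ Del p :=
        Del_mono (by positivity) (mul_le_of_le_one_left hp0.le ha1)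
      have hlow : T * 1.06 ^ (k - 1 - (i : ℕ)) ≤ 2 * p := par_lower hT hTL hσ hy i
      have he2 : 90 * Del p ≤ e * p := by
        have h1 : p ^ (-(1 / 4) : ℝ) ≤ (T / 2 * 1.06 ^ (k - 1 - (i : ℕ))) ^ (-(1 / 4) : ℝ) :=
          rpow_le_rpow_of_nonpos (by positivity) (by linarith) (by norm_num)
        have h2 : (T / 2 * 1.06 ^ (k - 1 - (i : ℕ))) ^ (-(1 / 4) : ℝ)
            = (1 / 2 : ℝ) ^ (-(1 / 4) : ℝ) * T ^ (-(1 / 4) : ℝ) *
              ((1.06 : ℝ) ^ (-(1 / 4) : ℝ)) ^ (k - 1 - (i : ℕ)) := by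
          rw [mul_rpow (by positivity) (by positivity), show T / 2 = 1 / 2 * T by ring,
            mul_rpow (by norm_num) hTp.le, ← Real.rpow_natCast (1.06 : ℝ),
            ← rpow_mul (by norm_num), ← Real.rpow_natCast ((1.06 : ℝ) ^ (-(1 / 4) : ℝ)),
            ← rpow_mul (by norm_num), mul_comm (-(1 / 4) : ℝ)]
        have h3 : (1 / 2 : ℝ) ^ (-(1 / 4) : ℝ) ≤ 11 / 9 := by
          rw [rpow_neg (by norm_num), ← inv_rpow (by norm_num)]
          calc ((1 / 2 : ℝ)⁻¹) ^ (1 / 4 : ℝ) ≤ ((11 / 9 : ℝ) ^ (4 : ℕ)) ^ (1 / 4 : ℝ) :=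
                rpow_le_rpow (by norm_num) (by norm_num) (by norm_num)
            _ = 11 / 9 := by
                rw [← Real.rpow_natCast, ← rpow_mul (by norm_num)]
                norm_num
        have h4 : (1.06 : ℝ) ^ (-(1 / 4) : ℝ) ≤ 0.99 := by
          rw [rpow_neg (by norm_num)]
          refine inv_le_of_inv_le₀ (by norm_num) ?_
          refine (Real.le_rpow_iff_log_le (by norm_num) (by norm_num)).2 ?_
          have := Real.one_sub_inv_le_log_of_pos (show (0 : ℝ) < 1.06 by norm_num)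
          have := Real.log_le_sub_one_of_pos (show (0 : ℝ) < (0.99 : ℝ)⁻¹ by norm_num)
          norm_num at *
          linarith
        have h5 : 90 * p ^ (-(1 / 4) : ℝ) ≤ e := by
          refine le_trans (mul_le_mul_of_nonneg_left (h1.trans h2.le) (by norm_num)) ?_
          rw [he, eps]
          have h6 : ((1.06 : ℝ) ^ (-(1 / 4) : ℝ)) ^ (k - 1 - (i : ℕ)) ≤
              (0.99 : ℝ) ^ (k - 1 - (i : ℕ)) := pow_le_pow_left₀ (by positivity) h4 _
          have h7 : 0 ≤ T ^ (-(1 / 4) : ℝ) := by positivity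
          calc 90 * ((1 / 2 : ℝ) ^ (-(1 / 4) : ℝ) * T ^ (-(1 / 4) : ℝ) *
                ((1.06 : ℝ) ^ (-(1 / 4) : ℝ)) ^ (k - 1 - (i : ℕ)))
              ≤ 90 * (11 / 9 * T ^ (-(1 / 4) : ℝ) * (0.99 : ℝ) ^ (k - 1 - (i : ℕ))) := by
                refine mul_le_mul_of_nonneg_left ?_ (by norm_num)
                exact mul_le_mul (mul_le_mul_of_nonneg_right h3 h7) h6 (by positivity) (by positivity)
            _ = _ := by ring
        have h8 := mul_le_mul_of_nonneg_left h5 hp0.le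
        rw [Del_eq hp0]
        linarith
      have h9 : σ * Del p ≤ 40 * Del p := mul_le_mul_of_nonneg_right hσ hD0
      have h10 : a * (1 - e) * (p + σ * Del p) ≤ a * (1 - e) * (p + 40 * Del p) :=
        mul_le_mul_of_nonneg_left (by linarith) (mul_nonneg (by linarith) (by linarith))
      have h11 : a * (90 * Del p) ≤ a * (e * p) := mul_le_mul_of_nonneg_left he2 (by linarith)
      have h12 : 0 ≤ a * e * (40 * Del p) := by positivity
      have h13 : (1 / 2) * (50 * Del p) ≤ a * (50 * Del p) :=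
        mul_le_mul_of_nonneg_right ha0 (by positivity)
      rw [hca]
      linarith
    refine ⟨?_, ?_⟩
    · rw [hfy, hpa]
      exact (mul_le_mul_of_nonneg_left (hy.2 i).1 hc0).trans hkey
    · rw [hpa]
      refine le_trans ?_ ((mul_le_mul_of_nonneg_left (hy.2 i).2 hc0).trans hkey)
      unfold sufE
      rw [Finset.mul_sum]
      refine Finset.sum_le_sum fun l _ => ?_
      split_ifs with h
      · rw [hfy]
        have h1 := mul_le_mul_of_nonneg_right
          (coef_antitone hT (Fin.le_def.1 h) l.isLt) (hy0 l)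
        have h2 := mul_le_mul_of_nonneg_left h1 (alpha_nonneg ((l : ℕ) - (i : ℕ)))
        linarith
      · simp
  have hdet : LinearMap.det f = ∏ l : Fin k, coef T k l := by
    rw [hf, LinearMap.det_toLin', Matrix.det_diagonal]
  have himg := Measure.addHaar_image_linearMap volume f (Reg L T σ k)
  have h1 := measure_mono (μ := volume) hsub
  rw [himg, hdet] at h1
  have hc := prod_coef hT k
  have h2 : (2 : ℝ≥0∞) * ENNReal.ofReal |∏ l : Fin k, coef T k l| ≥ 1 := by
    rw [← ENNReal.ofReal_ofNat 2, ← ENNReal.ofReal_mul (by norm_num), ge_iff_le,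
      ENNReal.one_le_ofReal, abs_of_nonneg (by linarith)]
    linarith
  calc volume (Reg L T σ k) = 1 * volume (Reg L T σ k) := (one_mul _).symm
    _ ≤ 2 * ENNReal.ofReal |∏ l : Fin k, coef T k l| * volume (Reg L T σ k) := by gcongr
    _ ≤ _ := by rw [mul_assoc]; gcongr

end Vale.Agent.P031
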